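import Vale.Agent.P150.Weak.Found.Deriv

/-!
Operator norms of finite matrices and elementary facts about expectations in the planted family,
as used by the Gram and soft-input bounds.
-/

open MeasureTheory Finset
open scoped Matrix

namespace Vale.Agent.P150.Weak.Gram

variable {m : ℕ}

lemma norm_sq_toLp (a : Vec m) : ‖WithLp.toLp 2 a‖ ^ 2 = sq1 a := by
  simp [EuclideanSpace.real_norm_sq_eq, sq1]

lemma op_nonneg (A : Mat m) : 0 ≤ op A := norm_nonneg _

lemma sq1_mulVec_le (A : Mat m) (a : Vec m) :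
    sq1 (fun i => ∑ j, A i j * a j) ≤ op A ^ 2 * sq1 a := by
  have h := (Matrix.toEuclideanCLM (𝕜 := ℝ) (Matrix.of A)).le_opNorm (WithLp.toLp 2 a)
  rw [Matrix.toEuclideanCLM_toLp] at h
  have h2 := pow_le_pow_left₀ (norm_nonneg _) h 2
  rw [mul_pow, norm_sq_toLp, norm_sq_toLp] at h2
  exact h2

lemma abs_bilin_le (A : Mat m) (a c : Vec m) :
    |∑ i, ∑ j, A i j * a i * c j| ≤ op A * √(sq1 a * sq1 c) := by
  have hs : ∀ a : Vec m, 0 ≤ sq1 a := fun a => sum_nonneg fun i _ => sq_nonneg _
  have e : ∑ i, ∑ j, A i j * a i * c j = ∑ i, a i * ∑ j, A i j * c j := by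
    simp only [mul_sum]
    exact sum_congr rfl fun i _ => sum_congr rfl fun j _ => by ring
  rw [e, ← Real.sqrt_sq (op_nonneg A), ← Real.sqrt_mul (sq_nonneg _)]
  refine Real.abs_le_sqrt ((sum_mul_sq_le_sq_mul_sq univ a _).trans ?_)
  calc sq1 a * sq1 (fun i => ∑ j, A i j * c j) ≤ sq1 a * (op A ^ 2 * sq1 c) :=
        mul_le_mul_of_nonneg_left (sq1_mulVec_le A c) (hs a)
    _ = _ := by ring

lemma sq2_nonneg (A : Mat m) : 0 ≤ sq2 A := sum_nonneg fun i _ => sum_nonneg fun j _ => sq_nonneg _

lemma sq2_mul_le (A B : Mat m) :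
    sq2 (fun i j => ∑ k, A i k * B k j) ≤ op A ^ 2 * sq2 B := by
  simp only [sq2]
  rw [sum_comm, sum_comm (f := fun i j => B i j ^ 2), mul_sum]
  exact sum_le_sum fun j _ => sq1_mulVec_le A fun k => B k j

lemma sq2_le_op (A : Mat m) : sq2 A ≤ m * op A ^ 2 := by
  have h := sq2_mul_le A fun i j => if i = j then 1 else 0
  simpa [sq2, mul_comm] using h

lemma continuous_op : Continuous fun A : Mat m => op A := by
  simp only [op]
  refine continuous_norm.comp ?_
  let L : Mat m →ₗ[ℝ] (EuclideanSpace ℝ (Fin m) →L[ℝ] EuclideanSpace ℝ (Fin m)) :=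
    { toFun := fun A => Matrix.toEuclideanCLM (𝕜 := ℝ) (Matrix.of A)
      map_add' := fun A B => map_add _ (Matrix.of A) (Matrix.of B)
      map_smul' := fun c A => map_smul _ c (Matrix.of A) }
  exact L.continuous_of_finiteDimensional

lemma op_cm2_le (J : Mat m) (u : Vec m) : op (cm2 J u) ≤ 4 * m := by
  refine ContinuousLinearMap.opNorm_le_bound _ (by positivity) fun x => ?_
  obtain ⟨a, rfl⟩ : ∃ a : Vec m, x = WithLp.toLp 2 a := ⟨x.ofLp, rfl⟩
  rw [Matrix.toEuclideanCLM_toLp]
  refine le_of_sq_le_sq ?_ (by positivity)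
  rw [norm_sq_toLp, mul_pow, norm_sq_toLp]
  calc sq1 ((Matrix.of (cm2 J u)) *ᵥ a) ≤ ∑ _i : Fin m, (16 * m) * sq1 a :=
        sum_le_sum fun i _ => by
          simp only [Matrix.mulVec, dotProduct, Matrix.of_apply]
          refine (sum_mul_sq_le_sq_mul_sq univ _ a).trans (mul_le_mul_of_nonneg_right ?_
            (sum_nonneg fun j _ => sq_nonneg _))
          calc ∑ j, cm2 J u i j ^ 2 ≤ ∑ _j : Fin m, (16:ℝ) := sum_le_sum fun j _ => by
                rw [← sq_abs]; nlinarith [abs_cm2_le J u i j, abs_nonneg (cm2 J u i j)]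
            _ = _ := by simp [mul_comm]
    _ = _ := by simp; ring

variable (b : ℝ) (n : ℕ) (τ : ℝ)

/-- The sample space maps continuously into couplings and fields. -/
lemma continuous_sample :
    Continuous fun g : Idx m → ℝ => (plJ (b ^ 2 / n) g, plU τ g) := by
  refine Continuous.prodMk (continuous_pi fun i => continuous_pi fun j => ?_)
    (continuous_pi fun i => by simp only [plU]; fun_prop)
  simp only [plJ]
  by_cases h : i = j
  · simp only [h, if_true]; fun_prop
  · simp only [h, if_false]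
    refine continuous_const.add (continuous_const.mul ?_)
    simp only [Gap.sym]
    split_ifs <;> fun_prop

/-- Continuous bounded observables are integrable in the planted family. -/
lemma integrable_obs {F : Mat m → Vec m → ℝ} (hc : Continuous fun q : Mat m × Vec m => F q.1 q.2)
    {B : ℝ} (hB : ∀ J u, |F J u| ≤ B) :
    Integrable (fun g => F (plJ (b ^ 2 / n) g) (plU τ g)) (gauss (Idx m)) :=
  Integrable.of_bound (hc.comp (continuous_sample b n τ)).aestronglyMeasurable B
    (ae_of_all _ fun g => hB _ _)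

variable {b n τ}

lemma pEv_mono {F G : Mat m → Vec m → ℝ}
    (hF : Integrable (fun g => F (plJ (b ^ 2 / n) g) (plU τ g)) (gauss (Idx m)))
    (hG : Integrable (fun g => G (plJ (b ^ 2 / n) g) (plU τ g)) (gauss (Idx m)))
    (h : ∀ J u, F J u ≤ G J u) : pEv b n m τ F ≤ pEv b n m τ G :=
  integral_mono hF hG fun g => h _ _

end Vale.Agent.P150.Weak.Gram
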