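import Vale.Agent.P150.Weak.GaussDiv

/-!
Second-chaos vectors `K[ξ, ξ] - tr K` of a kernel symmetric in its last two arguments: second and
fourth moments, from the Gaussian Poincaré inequality.
-/

open MeasureTheory ProbabilityTheory Finset
open scoped Classical

namespace Vale.Agent.P150.Weak.Gram

variable {ι κ : Type*} [Fintype ι] [Fintype κ]

/-- The linear vector `A ξ`. -/
def linV (A : κ → ι → ℝ) (p : κ) (g : ι → ℝ) : ℝ := ∑ c, A p c * g c

/-- The second-chaos vector of a kernel. -/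
def chaosV (K : κ → ι → ι → ℝ) (a : κ) (g : ι → ℝ) : ℝ :=
  (∑ c, ∑ e, K a c e * (g c * g e)) - ∑ c, K a c c

/-- Half its derivative. -/
def chaosD (K : κ → ι → ι → ℝ) (p : κ × ι) (g : ι → ℝ) : ℝ := ∑ c, K p.1 p.2 c * g c

lemma tame_linV (A : κ → ι → ℝ) (p : κ) : Tame (linV A p) :=
  Tame.sum fun c _ => (Tame.const (A p c)).mul (Tame.coord c)

lemma tame_chaosV (K : κ → ι → ι → ℝ) (a : κ) : Tame (chaosV K a) :=
  (Tame.sum fun c _ => Tame.sum fun e _ =>
    (Tame.const (K a c e)).mul ((Tame.coord c).mul (Tame.coord e))).sub (Tame.const _)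

lemma tame_chaosD (K : κ → ι → ι → ℝ) (p : κ × ι) : Tame (chaosD K p) :=
  tame_linV (fun p : κ × ι => K p.1 p.2) p

lemma hasDerivAt_coord (g : ι → ℝ) (i c : ι) (t : ℝ) :
    HasDerivAt (fun s => Function.update g i s c) (if c = i then 1 else 0) t := by
  refine (hasDerivAt_pi.1 (hasDerivAt_update g i t) c).congr_deriv ?_
  simp [Pi.single_apply]

lemma hasDerivAt_linV (A : κ → ι → ℝ) (p : κ) (g : ι → ℝ) (i : ι) (t : ℝ) :
    HasDerivAt (fun s => linV A p (Function.update g i s)) (A p i) t := by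
  refine (HasDerivAt.fun_sum fun c _ => (hasDerivAt_coord g i c t).const_mul (A p c)).congr_deriv ?_
  simp

lemma hasDerivAt_chaosV {K : κ → ι → ι → ℝ} (hK : ∀ a c e, K a c e = K a e c) (a : κ) (g : ι → ℝ)
    (i : ι) (t : ℝ) :
    HasDerivAt (fun s => chaosV K a (Function.update g i s))
      (2 * chaosD K (a, i) (Function.update g i t)) t := by
  refine ((HasDerivAt.fun_sum fun c _ => HasDerivAt.fun_sum fun e _ =>
    ((hasDerivAt_coord g i c t).mul (hasDerivAt_coord g i e t)).const_mul (K a c e)).sub_const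
      _).congr_deriv ?_
  simp only [mul_add, sum_add_distrib, ite_mul, one_mul, zero_mul, mul_ite, mul_one, mul_zero]
  rw [sum_comm (f := fun c e => if c = i then K a c e * Function.update g i t e else 0)]
  simp only [sum_ite_eq', mem_univ, if_true, chaosD, two_mul]
  congr 1
  exact sum_congr rfl fun c _ => by rw [hK]

lemma integral_coord (c : ι) : ∫ g, g c ∂gauss ι = 0 := by
  have h := ibp (Tame.const (ι := ι) 1) (Tame.const 0) (i := c) fun g t =>
    (hasDerivAt_const t (1:ℝ))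
  simpa using h

lemma integral_coord_mul (c e : ι) : ∫ g, g c * g e ∂gauss ι = if c = e then 1 else 0 := by
  have h := ibp (Tame.coord e) (Tame.const (if e = c then 1 else 0)) (i := c) fun g t =>
    hasDerivAt_coord g c e t
  rw [h, integral_const, probReal_univ, one_smul]
  simp [eq_comm]

lemma integral_linV (A : κ → ι → ℝ) (p : κ) : ∫ g, linV A p g ∂gauss ι = 0 := by
  simp only [linV]
  rw [integral_finsetSum _ fun c _ => ((Tame.const (A p c)).mul (Tame.coord c)).integrable]
  simp [integral_const_mul, integral_coord]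

lemma integral_chaosV (K : κ → ι → ι → ℝ) (a : κ) : ∫ g, chaosV K a g ∂gauss ι = 0 := by
  have h1 : ∀ c e, Tame fun g : ι → ℝ => K a c e * (g c * g e) := fun c e =>
    (Tame.const _).mul ((Tame.coord c).mul (Tame.coord e))
  simp only [chaosV]
  rw [integral_sub (Tame.sum fun c _ => Tame.sum fun e _ => h1 c e).integrable (integrable_const _),
    integral_finsetSum _ fun c _ => (Tame.sum fun e _ => h1 c e).integrable]
  simp only [integral_finsetSum _ fun e (_ : e ∈ univ) => (h1 _ e).integrable, integral_const_mul,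
    integral_coord_mul, mul_ite, mul_one, mul_zero, sum_ite_eq, mem_univ, if_true, integral_const,
    probReal_univ, one_smul, sub_self]

/-- `E|A ξ|² ≤ ‖A‖²`. -/
lemma linV_two (A : κ → ι → ℝ) :
    ∫ g, ∑ p, linV A p g ^ 2 ∂gauss ι ≤ ∑ p, ∑ c, A p c ^ 2 := by
  have h := poincare_vec (F := linV A) (D := fun i p _ => A p i) (fun p => (tame_linV A p).1)
    (fun p => (tame_linV A p).memLp_two) (fun _ _ => continuous_const)
    (fun i p g t => hasDerivAt_linV A p g i t) (fun _ _ => integrable_const _)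
  simpa [integral_linV] using h

/-- `E|A ξ|⁴ ≤ 5 ‖A‖⁴`. -/
lemma linV_four (A : κ → ι → ℝ) :
    ∫ g, (∑ p, linV A p g ^ 2) ^ 2 ∂gauss ι ≤ 5 * (∑ p, ∑ c, A p c ^ 2) ^ 2 := by
  set N := ∑ p, ∑ c, A p c ^ 2 with hN
  have hT : Tame fun g => ∑ p, linV A p g ^ 2 := Tame.sum fun p _ => (tame_linV A p).pow 2
  have hT2 : ∀ i, Tame fun g => (∑ p, linV A p g * A p i) ^ 2 := fun i =>
    (Tame.sum fun p _ => (tame_linV A p).mul (Tame.const (A p i))).pow 2
  have h := poincare_four (F := linV A) (D := fun i p _ => A p i) (fun p => (tame_linV A p).1)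
    hT.memLp_two (fun _ _ => continuous_const) (fun i p g t => hasDerivAt_linV A p g i t)
    fun i => (hT2 i).integrable
  have h2 : ∫ g, ∑ i, (∑ p, linV A p g * A p i) ^ 2 ∂gauss ι ≤ N * N := by
    refine (integral_mono (Tame.sum fun i _ => hT2 i).integrable (hT.integrable.mul_const N)
      fun g => ?_).trans ?_
    · rw [hN, sum_comm (f := fun p c => A p c ^ 2), mul_sum]
      exact sum_le_sum fun i _ => sum_mul_sq_le_sq_mul_sq _ _ _
    · rw [integral_mul_const]
      exact mul_le_mul_of_nonneg_right (linV_two A) (by positivity)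
  have h1 : (∫ g, ∑ p, linV A p g ^ 2 ∂gauss ι) ^ 2 ≤ N ^ 2 :=
    pow_le_pow_left₀ (integral_nonneg fun g => by positivity) (linV_two A) 2
  calc _ ≤ _ := h
    _ ≤ N ^ 2 + 4 * (N * N) := by linarith
    _ = _ := by ring

/-- `E|δK|² ≤ 4 ‖K‖²`. -/
lemma chaos_two {K : κ → ι → ι → ℝ} (hK : ∀ a c e, K a c e = K a e c) :
    ∫ g, ∑ a, chaosV K a g ^ 2 ∂gauss ι ≤ 4 * ∑ a, ∑ c, ∑ e, K a c e ^ 2 := by
  have h := poincare_vec (F := chaosV K) (D := fun i a g => 2 * chaosD K (a, i) g)
    (fun a => (tame_chaosV K a).1) (fun a => (tame_chaosV K a).memLp_two)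
    (fun i a => continuous_const.mul (tame_chaosD K (a, i)).1)
    (fun i a g t => hasDerivAt_chaosV hK a g i t)
    (fun i a => (((Tame.const 2).mul (tame_chaosD K (a, i))).pow 2).integrable)
  simp only [integral_chaosV, ne_eq, OfNat.ofNat_ne_zero, not_false_eq_true, zero_pow, sum_const_zero,
    zero_add] at h
  refine h.trans (le_trans (le_of_eq ?_)
    (mul_le_mul_of_nonneg_left ((linV_two fun p : κ × ι => K p.1 p.2).trans_eq ?_)
      (by norm_num : (0:ℝ) ≤ 4)))
  · rw [← integral_const_mul]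
    refine integral_congr_ae (ae_of_all _ fun g => ?_)
    simp only [mul_sum, Fintype.sum_prod_type]
    exact sum_congr rfl fun a _ => sum_congr rfl fun i _ => by rw [mul_pow]; norm_num; rfl
  · simp only [Fintype.sum_prod_type]

/-- `E|δK|⁴ ≤ 6000 ‖K‖⁴`. -/
lemma chaos_four {K : κ → ι → ι → ℝ} (hK : ∀ a c e, K a c e = K a e c) :
    ∫ g, (∑ a, chaosV K a g ^ 2) ^ 2 ∂gauss ι ≤ 6000 * (∑ a, ∑ c, ∑ e, K a c e ^ 2) ^ 2 := by
  set S := ∑ a, ∑ c, ∑ e, K a c e ^ 2 with hS
  set L := fun g => ∑ p : κ × ι, chaosD K p g ^ 2 with hL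
  set N := fun g => ∑ a, chaosV K a g ^ 2 with hN
  have hNt : Tame N := Tame.sum fun a _ => (tame_chaosV K a).pow 2
  have hLt : Tame L := Tame.sum fun p _ => (tame_chaosD K p).pow 2
  have hDt : ∀ i, Tame fun g => (∑ a, chaosV K a g * (2 * chaosD K (a, i) g)) ^ 2 := fun i =>
    (Tame.sum fun a _ => (tame_chaosV K a).mul ((Tame.const 2).mul (tame_chaosD K (a, i)))).pow 2
  have h := poincare_four (F := chaosV K) (D := fun i a g => 2 * chaosD K (a, i) g)
    (fun a => (tame_chaosV K a).1) hNt.memLp_two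
    (fun i a => continuous_const.mul (tame_chaosD K (a, i)).1)
    (fun i a g t => hasDerivAt_chaosV hK a g i t) fun i => (hDt i).integrable
  set X := ∫ g, N g ^ 2 ∂gauss ι
  have hL2 : ∫ g, L g ^ 2 ∂gauss ι ≤ 5 * S ^ 2 := by
    refine (linV_four fun p : κ × ι => K p.1 p.2).trans_eq ?_
    simp only [hS, Fintype.sum_prod_type]
  have hpt : ∀ g, ∑ i, (∑ a, chaosV K a g * (2 * chaosD K (a, i) g)) ^ 2 ≤
      1 / 32 * N g ^ 2 + 128 * L g ^ 2 := fun g => by
    have h1 : ∑ i, (∑ a, chaosV K a g * (2 * chaosD K (a, i) g)) ^ 2 ≤ 4 * (N g * L g) := by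
      rw [hL, hN]
      simp only [Fintype.sum_prod_type, sum_comm (f := fun a i => chaosD K (a, i) g ^ 2), mul_sum]
      refine sum_le_sum fun i _ => (sum_mul_sq_le_sq_mul_sq _ _ _).trans_eq ?_
      simp only [mul_pow, ← mul_sum]
      ring
    have h2 := sq_nonneg (N g - 64 * L g)
    linarith
  have hB := integral_mono (Tame.sum fun i _ => hDt i).integrable
    ((((hNt.pow 2).integrable.const_mul (1 / 32)).add ((hLt.pow 2).integrable.const_mul 128))) hpt
  simp only [Pi.add_apply] at hB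
  rw [integral_add ((hNt.pow 2).integrable.const_mul (1 / 32))
    ((hLt.pow 2).integrable.const_mul 128), integral_const_mul, integral_const_mul] at hB
  have h2 : (∫ g, N g ∂gauss ι) ^ 2 ≤ (4 * S) ^ 2 :=
    pow_le_pow_left₀ (integral_nonneg fun g => by positivity) (chaos_two hK) 2
  have hS2 : 0 ≤ S ^ 2 := sq_nonneg S
  linarith

/-- `E⟨a, δK⟩² ≤ 4 ‖K[a]‖²`. -/
lemma chaos_inner {K : κ → ι → ι → ℝ} (hK : ∀ a c e, K a c e = K a e c) (a : κ → ℝ) :
    ∫ g, (∑ k, a k * chaosV K k g) ^ 2 ∂gauss ι ≤ 4 * ∑ c, ∑ e, (∑ k, a k * K k c e) ^ 2 := by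
  have h := chaos_two (κ := Unit) (K := fun _ c e => ∑ k, a k * K k c e)
    fun _ c e => sum_congr rfl fun k _ => by rw [hK]
  simp only [univ_unique, sum_singleton] at h
  refine le_trans (le_of_eq (integral_congr_ae (ae_of_all _ fun g => ?_))) h
  simp only [chaosV, mul_sub, mul_sum, sum_mul, sum_sub_distrib]
  congr 2
  · rw [sum_comm]
    refine sum_congr rfl fun c _ => ?_
    rw [sum_comm]
    exact sum_congr rfl fun e _ => sum_congr rfl fun k _ => by ring
  · exact sum_comm

end Vale.Agent.P150.Weak.Gram
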