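import Vale.Agent.P150.Weak.Spec
import Vale.Agent.P150.Weak.Gram.Basic

/-!
The soft second moments: the operator norm of the third cumulant is at most
`‖C‖ (√‖T4‖² + 2 ‖C‖²)`, deterministically, so `T[1]` and `∇v` are `o(n²)` when `‖C‖` is tight.
-/

open MeasureTheory Finset

namespace Vale.Agent.P150.Weak.Gram

open Gap

variable {m : ℕ}

lemma ev_mul_sq_le (J : Mat m) (u : Vec m) (f g : Conf m → ℝ) :
    ev J u (fun x => f x * g x) ^ 2 ≤ ev J u (fun x => f x ^ 2) * ev J u (fun x => g x ^ 2) :=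
  sum_sq_le_sum_mul_sum_of_sq_le_mul univ
    (fun x _ => mul_nonneg (mu_pos J u x).le (sq_nonneg _))
    (fun x _ => mul_nonneg (mu_pos J u x).le (sq_nonneg _)) fun x _ => le_of_eq (by ring)

lemma ev_linear_centred (J : Mat m) (u : Vec m) (a : Vec m) :
    ev J u (fun x => ∑ i, a i * csp J u i x) = 0 := by
  have h : ∀ i, ev J u (csp J u i) = 0 := fun i => by
    show ev J u (fun x => spin x i - mg J u i) = 0
    rw [ev_sub, ev_const]; exact sub_self _
  rw [ev_sum J u univ]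
  refine sum_eq_zero fun i _ => ?_
  rw [ev_smul, show ev J u (fun x => csp J u i x) = 0 from h i, mul_zero]

lemma sq4_nonneg (J : Mat m) (u : Vec m) : 0 ≤ sq4 (cm4 J u) :=
  sum_nonneg fun i _ => sum_nonneg fun j _ => sq2_nonneg _

/-- `‖T[a]‖² ≤ ‖C‖ (√(‖T4‖²) + 2 ‖C‖²) |a|²`. -/
theorem sq2_app_le (J : Mat m) (u : Vec m) (a : Vec m) :
    sq2 (app (cm3 J u) a) ≤
      op (cm2 J u) * (√(sq4 (cm4 J u)) + 2 * op (cm2 J u) ^ 2) * sq1 a := by
  set C := cm2 J u with hC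
  set Y := op C
  set M := app (cm3 J u) a with hM
  set S := sq2 M
  have hS : 0 ≤ S := sq2_nonneg M
  have ha : 0 ≤ sq1 a := sum_nonneg fun i _ => sq_nonneg _
  have hY : 0 ≤ Y := op_nonneg C
  set h := fun x : Conf m => ∑ k, a k * csp J u k x with hh
  set Q := fun x : Conf m => ∑ i, ∑ j, M i j * (csp J u i x * csp J u j x) with hQ
  set EQ := ev J u Q
  have hSQ : S = ev J u (fun x => h x * (Q x + (-EQ))) := by
    have e1 : (fun x => h x * (Q x + (-EQ))) = fun x =>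
        (∑ i, ∑ j, ∑ k, M i j * a k * (csp J u k x * csp J u i x * csp J u j x)) + (-EQ) * h x := by
      funext x
      rw [mul_add, mul_comm (h x) (-EQ), mul_comm (h x) (Q x)]
      congr 1
      simp only [hQ, sum_mul]
      refine sum_congr rfl fun i _ => sum_congr rfl fun j _ => ?_
      simp only [hh, mul_sum]
      exact sum_congr rfl fun k _ => by ring
    rw [e1, ev_add, ev_smul, hh, ev_linear_centred, mul_zero, add_zero]
    simp only [ev_sum, ev_smul]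
    refine sum_congr rfl fun i _ => sum_congr rfl fun j _ => ?_
    rw [sq, hM, app, mul_sum]
    exact sum_congr rfl fun k _ => by rw [cm3]; ring
  have hh2 : ev J u (fun x => h x ^ 2) ≤ Y * sq1 a := by
    rw [hh, ← cm2_quad]
    refine (le_abs_self _).trans ((abs_bilin_le C a a).trans ?_)
    rw [Real.sqrt_mul_self ha]
  have hvar : ev J u (fun x => (Q x + (-EQ)) ^ 2) =
      ∑ i, ∑ j, ∑ k, ∑ l, M i j * M k l *
        (cm4 J u i j k l + C i k * C j l + C i l * C j k) := by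
    have e : (fun x => (Q x + (-EQ)) ^ 2) = fun x =>
        Q x * Q x + (-2 * EQ * Q x + EQ ^ 2) := funext fun x => by ring
    rw [e, ev_add, ev_add, ev_smul, ev_const, show ev J u Q = EQ from rfl,
      show -2 * EQ * EQ + EQ ^ 2 = -(EQ * EQ) by ring]
    have hEQ : EQ = ∑ i, ∑ j, M i j * C i j := by
      simp only [EQ, hQ, ev_sum, ev_smul, hC]; rfl
    have hQQ : ev J u (fun x => Q x * Q x) = ∑ i, ∑ j, ∑ k, ∑ l,
        M i j * M k l * ev J u (fun x => csp J u i x * csp J u j x * csp J u k x * csp J u l x) := by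
      simp only [hQ, sum_mul]
      simp only [mul_sum, ev_sum, ← ev_smul]
      exact sum_congr rfl fun i _ => sum_congr rfl fun j _ => sum_congr rfl fun k _ =>
        sum_congr rfl fun l _ => congrArg _ (funext fun x => by ring)
    have hEE : EQ * EQ = ∑ i, ∑ j, ∑ k, ∑ l, M i j * C i j * (M k l * C k l) := by
      rw [hEQ]
      simp only [sum_mul]
      simp only [mul_sum]
    rw [hQQ, hEE, ← sub_eq_add_neg]
    simp only [← sum_sub_distrib]
    exact sum_congr rfl fun i _ => sum_congr rfl fun j _ => sum_congr rfl fun k _ =>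
      sum_congr rfl fun l _ => by simp only [cm4, hC]; ring
  have h4 : |∑ i, ∑ j, ∑ k, ∑ l, M i j * M k l * cm4 J u i j k l| ≤
      √(sq4 (cm4 J u)) * S := by
    rw [← Real.sqrt_sq hS, ← Real.sqrt_mul (sq4_nonneg J u)]
    refine Real.abs_le_sqrt ?_
    have h := sum_mul_sq_le_sq_mul_sq (univ : Finset ((Fin m × Fin m) × Fin m × Fin m))
      (fun p => cm4 J u p.1.1 p.1.2 p.2.1 p.2.2) fun p => M p.1.1 p.1.2 * M p.2.1 p.2.2
    simp only [Fintype.sum_prod_type] at h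
    refine le_trans (le_of_eq ?_) (h.trans (le_of_eq ?_))
    · congr 1
      exact sum_congr rfl fun i _ => sum_congr rfl fun j _ => sum_congr rfl fun k _ =>
        sum_congr rfl fun l _ => by ring
    · congr 1
      simp only [S, sq2, sq, sum_mul, mul_sum]
      exact sum_congr rfl fun i _ => sum_congr rfl fun j _ => sum_congr rfl fun k _ =>
        sum_congr rfl fun l _ => by ring
  have hCC : ∀ N : Mat m, sq2 N = S →
      |∑ i, ∑ j, ∑ k, ∑ l, M i j * N k l * (C i k * C j l)| ≤ Y ^ 2 * S := by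
    intro N hN
    set P := fun i j => ∑ k, C i k * (∑ l, C j l * N k l)
    have hP : sq2 P ≤ (Y ^ 2) ^ 2 * S := by
      refine (sq2_mul_le C fun k j => ∑ l, C j l * N k l).trans ?_
      rw [sq (Y ^ 2), mul_assoc, ← hN]
      refine mul_le_mul_of_nonneg_left ?_ (sq_nonneg Y)
      have h := sq2_mul_le C fun l k => N k l
      simp only [sq2] at h ⊢
      rw [sum_comm, sum_comm (f := fun k l => N k l ^ 2)]
      exact h
    have e : ∑ i, ∑ j, ∑ k, ∑ l, M i j * N k l * (C i k * C j l) = ∑ i, ∑ j, M i j * P i j := by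
      simp only [P, mul_sum]
      exact sum_congr rfl fun i _ => sum_congr rfl fun j _ => sum_congr rfl fun k _ =>
        sum_congr rfl fun l _ => by ring
    rw [e, ← Real.sqrt_sq (mul_nonneg (sq_nonneg Y) hS)]
    refine Real.abs_le_sqrt ?_
    have h := sum_mul_sq_le_sq_mul_sq (univ : Finset (Fin m × Fin m))
      (fun p => M p.1 p.2) fun p => P p.1 p.2
    simp only [Fintype.sum_prod_type] at h
    refine h.trans ((mul_le_mul_of_nonneg_left hP hS).trans_eq ?_)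
    ring
  have hb2 : ev J u (fun x => (Q x + (-EQ)) ^ 2) ≤ (√(sq4 (cm4 J u)) + 2 * Y ^ 2) * S := by
    rw [hvar]
    simp only [mul_add, sum_add_distrib]
    have h1 := hCC M rfl
    have h2 := hCC (fun k l => M l k) (by simp only [sq2]; rw [sum_comm]; rfl)
    have e2 : ∑ i, ∑ j, ∑ k, ∑ l, M i j * M k l * (C i l * C j k) =
        ∑ i, ∑ j, ∑ k, ∑ l, M i j * M l k * (C i k * C j l) :=
      sum_congr rfl fun i _ => sum_congr rfl fun j _ => sum_comm
    rw [e2]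
    linarith [(abs_le.1 h4).2, (abs_le.1 h1).2, (abs_le.1 h2).2]
  have key : S * S ≤ Y * (√(sq4 (cm4 J u)) + 2 * Y ^ 2) * sq1 a * S := by
    calc S * S = ev J u (fun x => h x * (Q x + (-EQ))) ^ 2 := by rw [← hSQ, sq]
      _ ≤ _ := ev_mul_sq_le J u _ _
      _ ≤ Y * sq1 a * ((√(sq4 (cm4 J u)) + 2 * Y ^ 2) * S) :=
          mul_le_mul hh2 hb2 (ev_nonneg fun x => sq_nonneg _) (by positivity)
      _ = _ := by ring
  rcases hS.eq_or_lt with h0 | hpos
  · rw [← h0]; positivity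
  · exact le_of_mul_le_mul_right key hpos

lemma sq2_le_card (J : Mat m) (u : Vec m) : sq2 (cm2 J u) ≤ 16 * (m:ℝ) ^ 2 := by
  calc sq2 (cm2 J u) ≤ ∑ _i : Fin m, ∑ _j : Fin m, (16:ℝ) := sum_le_sum fun i _ => sum_le_sum fun j _ => by
        rw [← sq_abs]; nlinarith [abs_cm2_le J u i j, abs_nonneg (cm2 J u i j)]
    _ = _ := by simp; ring

lemma sq2_app_le_card (J : Mat m) (u : Vec m) {a : Vec m} (ha : ∀ i, |a i| ≤ 1) :
    sq2 (app (cm3 J u) a) ≤ 64 * (m:ℝ) ^ 4 := by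
  calc sq2 (app (cm3 J u) a) ≤ ∑ _i : Fin m, ∑ _j : Fin m, 64 * (m:ℝ) ^ 2 :=
        sum_le_sum fun i _ => sum_le_sum fun j _ => by
          rw [← sq_abs]
          have h : |app (cm3 J u) a i j| ≤ 8 * m := by
            calc |app (cm3 J u) a i j| ≤ ∑ k, |a k * cm3 J u k i j| := abs_sum_le_sum_abs _ _
              _ ≤ ∑ _k : Fin m, (8:ℝ) := sum_le_sum fun k _ => by
                  rw [abs_mul]
                  exact (mul_le_of_le_one_left (abs_nonneg _) (ha k)).trans (abs_cm3_le J u k i j)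
              _ = _ := by simp [mul_comm]
          nlinarith [abs_nonneg (app (cm3 J u) a i j)]
    _ = _ := by simp; ring

lemma sq4_le_card (J : Mat m) (u : Vec m) : sq4 (cm4 J u) ≤ 4096 * (m:ℝ) ^ 4 := by
  simp only [sq4, sq2]
  calc _ ≤ ∑ _i : Fin m, ∑ _j : Fin m, ∑ _k : Fin m, ∑ _l : Fin m, (4096:ℝ) := by
        refine sum_le_sum fun i _ => sum_le_sum fun j _ => sum_le_sum fun k _ =>
          sum_le_sum fun l _ => ?_
        rw [← sq_abs]; nlinarith [abs_cm4_le J u i j k l, abs_nonneg (cm4 J u i j k l)]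
    _ = _ := by simp; ring

lemma continuous_sq2_app {a : Mat m → Vec m → Vec m}
    (ha : ∀ k, Continuous fun q : Mat m × Vec m => a q.1 q.2 k) :
    Continuous fun q : Mat m × Vec m => sq2 (app (cm3 q.1 q.2) (a q.1 q.2)) := by
  simp only [sq2, app]
  exact continuous_finsetSum _ fun i _ => continuous_finsetSum _ fun j _ =>
    (continuous_finsetSum _ fun k _ => (ha k).mul (continuous_cm3 k i j)).pow 2

lemma continuous_sq2_gradV : Continuous fun q : Mat m × Vec m => sq2 (gradV q.1 q.2) := by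
  simp only [sq2, gradV, app]
  exact continuous_finsetSum _ fun i _ => continuous_finsetSum _ fun j _ =>
    ((continuous_finsetSum _ fun k _ => (continuous_mg k).mul (continuous_cm3 k i j)).add
      (continuous_finsetSum _ fun k _ => (continuous_cm2 i k).mul (continuous_cm2 k j))).pow 2

lemma continuous_sq4 : Continuous fun q : Mat m × Vec m => sq4 (cm4 q.1 q.2) := by
  simp only [sq4, sq2]
  exact continuous_finsetSum _ fun i _ => continuous_finsetSum _ fun j _ =>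
    continuous_finsetSum _ fun k _ => continuous_finsetSum _ fun l _ => (continuous_cm4 i j k l).pow 2

lemma continuous_op_cm2 : Continuous fun q : Mat m × Vec m => op (cm2 q.1 q.2) :=
  continuous_op.comp (continuous_pi fun i => continuous_pi fun j => continuous_cm2 i j)

/-- The pointwise split behind the soft bounds: on `Y ≤ A`, `√‖T4‖² ≤ B` the observable is small,
elsewhere it is paid by its square. -/
lemma soft_split {φ Y Z F A B r : ℝ} (hr : 0 < r) (hA : 0 < A) (hB : 0 < B) (hF : 0 ≤ F)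
    (h : Y ≤ A → Z ≤ B ^ 2 → φ ≤ F) (hY : 0 ≤ Y) (hZ : 0 ≤ Z) :
    φ ≤ F + r / 2 * φ ^ 2 + 1 / (2 * r) * (Y ^ 2 / A ^ 2 + Z / B ^ 2) := by
  have hp : 0 ≤ Y ^ 2 / A ^ 2 + Z / B ^ 2 := by positivity
  by_cases hg : Y ≤ A ∧ Z ≤ B ^ 2
  · have := h hg.1 hg.2
    have : 0 ≤ r / 2 * φ ^ 2 := by positivity
    have : 0 ≤ 1 / (2 * r) * (Y ^ 2 / A ^ 2 + Z / B ^ 2) := by positivity
    linarith
  · have h1 : 1 ≤ Y ^ 2 / A ^ 2 + Z / B ^ 2 := by
      rcases not_and_or.1 hg with hy | hz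
      · refine le_add_of_le_of_nonneg ?_ (by positivity)
        rw [one_le_div (by positivity)]
        exact pow_le_pow_left₀ hA.le (not_le.1 hy).le 2
      · refine le_add_of_nonneg_of_le (by positivity) ?_
        rw [one_le_div (by positivity)]
        exact (not_le.1 hz).le
    have h2 := mul_le_mul_of_nonneg_left h1 (by positivity : 0 ≤ 1 / (2 * r))
    have h3 : φ ≤ r / 2 * φ ^ 2 + 1 / (2 * r) := by
      rw [← sub_nonneg]
      have e : r / 2 * φ ^ 2 + 1 / (2 * r) - φ = (r * φ - 1) ^ 2 / (2 * r) := by field_simp; ring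
      rw [e]; positivity
    linarith

lemma integral_fun_sum3 {Ω : Type*} [MeasurableSpace Ω] {μ : Measure Ω} [IsProbabilityMeasure μ]
    (c p q : ℝ) {f g h : Ω → ℝ} (hf : Integrable f μ) (hg : Integrable g μ) (hh : Integrable h μ) :
    ∫ x, c + p * f x + q * (g x + h x) ∂μ =
      c + p * ∫ x, f x ∂μ + q * (∫ x, g x ∂μ + ∫ x, h x ∂μ) := by
  have h1 : Integrable (fun x => c + p * f x) μ := (integrable_const c).add (hf.const_mul p)
  have h2 : Integrable (fun x => q * (g x + h x)) μ := (hg.add hh).const_mul q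
  rw [integral_add h1 h2, integral_add (integrable_const c) (hf.const_mul p), integral_const_mul,
    integral_const_mul, integral_add hg hh, integral_const, probReal_univ, one_smul]

/-- The soft bound for one observable. -/
lemma soft_bound {b τ c₀ c₁ c₂ c₄ ε A δ r : ℝ} {n m : ℕ} {φ : Mat m → Vec m → ℝ}
    (hc : Continuous fun q : Mat m × Vec m => φ q.1 q.2) (h0 : ∀ J u, 0 ≤ φ J u)
    (hB : ∀ J u, φ J u ≤ c₀) (hn : 0 < n) (hr : 0 < r) (hA : 0 < A) (hδ : 0 < δ)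
    (hsmall : ∀ J u, op (cm2 J u) ≤ A → sq4 (cm4 J u) ≤ (δ * n) ^ 2 → φ J u ≤ ε * (n:ℝ) ^ 2 / 4)
    (hε : 0 ≤ ε) (h1 : pEv b n m τ (fun J u => φ J u ^ 2) ≤ c₁ * (n:ℝ) ^ 4)
    (h2 : pEv b n m τ (fun J u => op (cm2 J u) ^ 2) ≤ c₂)
    (h4 : pEv b n m τ (fun J u => sq4 (cm4 J u)) ≤ c₄)
    (hr1 : r * (n:ℝ) ^ 4 * c₁ ≤ ε * (n:ℝ) ^ 2 / 2)
    (hr2 : 1 / (2 * r) * (c₂ / A ^ 2 + c₄ / (δ * n) ^ 2) ≤ ε * (n:ℝ) ^ 2 / 4) :
    pEv b n m τ φ ≤ ε * (n:ℝ) ^ 2 := by
  have i0 := integrable_obs b n τ hc (B := c₀) fun J u => by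
    rw [abs_of_nonneg (h0 J u)]; exact hB J u
  have i1 := integrable_obs b n τ (F := fun J u => φ J u ^ 2) (hc.pow 2) (B := c₀ ^ 2) fun J u => by
    rw [abs_of_nonneg (sq_nonneg _)]; exact pow_le_pow_left₀ (h0 J u) (hB J u) 2
  have i2 := integrable_obs b n τ (F := fun J u => op (cm2 J u) ^ 2) (continuous_op_cm2.pow 2)
    (B := (4 * m) ^ 2) fun J u => by
    rw [abs_of_nonneg (sq_nonneg _)]; exact pow_le_pow_left₀ (op_nonneg _) (op_cm2_le J u) 2
  have i4 := integrable_obs b n τ (F := fun J u => sq4 (cm4 J u)) continuous_sq4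
    (B := 4096 * (m:ℝ) ^ 4) fun J u => by
    rw [abs_of_nonneg (sq4_nonneg J u)]
    exact sq4_le_card J u
  have hF : 0 ≤ ε * (n:ℝ) ^ 2 / 4 := by positivity
  have hint := integral_mono i0 (((integrable_const (ε * (n:ℝ) ^ 2 / 4)).add
    (i1.const_mul (r / 2))).add (((i2.div_const (A ^ 2)).add (i4.div_const ((δ * n) ^ 2))).const_mul
      (1 / (2 * r)))) fun g => soft_split hr hA (B := δ * n) (by positivity) hF
    (fun hy hz => hsmall _ _ hy hz) (op_nonneg _) (sq4_nonneg _ _)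
  rw [pEv] at h1 h2 h4 ⊢
  refine hint.trans ?_
  simp only [Pi.add_apply]
  rw [integral_fun_sum3 (ε * (n:ℝ) ^ 2 / 4) (r / 2) (1 / (2 * r)) i1 (i2.div_const (A ^ 2))
    (i4.div_const ((δ * n) ^ 2)), integral_div, integral_div]
  have e1 := mul_le_mul_of_nonneg_left h1 (by positivity : 0 ≤ r / 2)
  have e2 : 1 / (2 * r) * ((∫ g, op (cm2 (plJ (b ^ 2 / n) g) (plU τ g)) ^ 2 ∂gauss (Idx m)) / A ^ 2 +
      (∫ g, sq4 (cm4 (plJ (b ^ 2 / n) g) (plU τ g)) ∂gauss (Idx m)) / (δ * n) ^ 2) ≤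
      1 / (2 * r) * (c₂ / A ^ 2 + c₄ / (δ * n) ^ 2) := by gcongr
  linarith

/-- A nonnegative observable with fourth-order crude square, small where `‖C‖` and `‖T4‖` are
small, is `o(n²)` in mean. -/
def SmallWhenTight (b η Tm : ℝ) (k : ℕ) (φ : ∀ m : ℕ, Mat m → Vec m → ℝ) : Prop :=
  ∀ ε : ℝ, 0 < ε → ∃ N : ℕ, ∀ n m : ℕ, ∀ τ : ℝ,
    η ≤ τ → τ ≤ Tm → N ≤ n → m ≤ n → n ≤ m + k → pEv b n m τ (φ m) ≤ ε * (n:ℝ) ^ 2

/-- On tight events the observable is small; the crude square pays for the rest. -/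
lemma soft_general {b η Tm : ℝ} {k : ℕ} (hY : YTightSpec b) (hR : RecSpec b) (hη : 0 < η)
    {φ : ∀ m : ℕ, Mat m → Vec m → ℝ} {c₀ : ℕ → ℝ} {c₁ : ℝ}
    (hc : ∀ m, Continuous fun q : Mat m × Vec m => φ m q.1 q.2) (h0 : ∀ m J u, 0 ≤ φ m J u)
    (hB : ∀ m J u, φ m J u ≤ c₀ m)
    (hsq : ∀ n m : ℕ, ∀ τ : ℝ, 0 ≤ τ → 0 < n → m ≤ n →
      pEv b n m τ (fun J u => φ m J u ^ 2) ≤ c₁ * (n:ℝ) ^ 4)
    (hsm : ∀ n m : ℕ, m ≤ n → ∀ J u, ∀ A δ : ℝ, 0 ≤ A → 0 ≤ δ → op (cm2 J u) ≤ A →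
      √(sq4 (cm4 J u)) ≤ δ * n →
      φ m J u ≤ A * δ * (n:ℝ) ^ 2 + (2 * A ^ 3 + A ^ 4) * n) :
    SmallWhenTight b η Tm k φ := by
  intro ε hε
  obtain ⟨CY, NY, hCY⟩ := hY η Tm k hη
  obtain ⟨C4, hC4⟩ := hR.2 η Tm hη
  set c := max c₁ 1
  set r₀ := ε / (2 * c) with hr₀
  have hc0 : 0 < c := lt_max_of_lt_right one_pos
  have hr₀0 : 0 < r₀ := by positivity
  set A := Real.sqrt (4 * max CY 1 / (r₀ * ε)) with hAdef
  have hA : 0 < A := Real.sqrt_pos.2 (by positivity)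
  have hA2 : A ^ 2 = 4 * max CY 1 / (r₀ * ε) := Real.sq_sqrt (by positivity)
  set δ := ε / (8 * A) with hδdef
  have hδ : 0 < δ := by positivity
  have hev : ∀ᶠ n : ℕ in Filter.atTop, 1 ≤ n ∧ NY ≤ n ∧ 8 * (2 * A ^ 3 + A ^ 4) ≤ ε * n ∧
      4 * max C4 0 ≤ r₀ * ε * δ ^ 2 * √(n:ℝ) :=
    (Filter.eventually_ge_atTop 1).and ((Filter.eventually_ge_atTop NY).and
      (((tendsto_natCast_atTop_atTop.const_mul_atTop hε).eventually_ge_atTop _).and
      (((Real.tendsto_sqrt_atTop.comp tendsto_natCast_atTop_atTop).const_mul_atTop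
        (by positivity : 0 < r₀ * ε * δ ^ 2)).eventually_ge_atTop _)))
  obtain ⟨N, hN⟩ := Filter.eventually_atTop.1 hev
  refine ⟨N, fun n m τ h1 h2 h3 h4 h5 => ?_⟩
  obtain ⟨hn, hnY, hnA, hnB⟩ := hN n h3
  have hn' : (1:ℝ) ≤ n := by exact_mod_cast hn
  have hq : √(n:ℝ) * √(n:ℝ) = n := Real.mul_self_sqrt (by linarith)
  refine soft_bound (c₀ := c₀ m) (c₁ := c) (c₂ := max CY 1) (c₄ := max C4 0 * (n * √n))
    (A := A) (δ := δ) (r := r₀ / (n:ℝ) ^ 2) (hc m) (h0 m) (hB m) hn (by positivity) hA hδ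
    (fun J u hy hz => ?_) hε.le ?_ ((hCY n m τ h1 h2 hnY h4 h5).trans (le_max_left _ _))
    ((hC4 n m τ h1 h2 hn h4).trans (by gcongr; exact le_max_left _ _))
    (le_of_eq (by rw [hr₀]; field_simp)) ?_
  · refine (hsm n m h4 J u A δ hA.le hδ.le hy ((Real.sqrt_le_left (by positivity)).2 hz)).trans ?_
    have e : A * δ = ε / 8 := by rw [hδdef]; field_simp
    have e2 : (2 * A ^ 3 + A ^ 4) * n ≤ ε * n / 8 * n := by gcongr; linarith
    rw [e]
    linarith
  · exact (hsq n m τ (hη.le.trans h1) hn h4).trans (by gcongr; exact le_max_left _ _)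
  · have e1 : max CY 1 / A ^ 2 = r₀ * ε / 4 := by rw [hA2]; field_simp
    have e2 : max C4 0 * (n * √n) / (δ * n) ^ 2 ≤ r₀ * ε / 4 := by
      rw [div_le_iff₀ (by positivity)]
      calc max C4 0 * (n * √n) = 4 * max C4 0 * (n * √n) / 4 := by ring
        _ ≤ r₀ * ε * δ ^ 2 * √n * (n * √n) / 4 := by gcongr
        _ = r₀ * ε / 4 * (δ * n) ^ 2 := by linear_combination (r₀ * ε * δ ^ 2 * n / 4) * hq
    calc _ ≤ 1 / (2 * (r₀ / (n:ℝ) ^ 2)) * (r₀ * ε / 4 + r₀ * ε / 4) := by rw [e1]; gcongr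
      _ = _ := by field_simp; ring

lemma sq2_app_small {n : ℕ} (hmn : m ≤ n) (J : Mat m) (u : Vec m) {a : Vec m}
    (ha : ∀ i, |a i| ≤ 1) {A δ : ℝ} (hA : 0 ≤ A) (hδ : 0 ≤ δ) (hy : op (cm2 J u) ≤ A)
    (hz : √(sq4 (cm4 J u)) ≤ δ * n) :
    sq2 (app (cm3 J u) a) ≤ A * δ * (n:ℝ) ^ 2 + (2 * A ^ 3 + A ^ 4) * n := by
  have ha' : sq1 a ≤ n := by
    calc sq1 a ≤ ∑ _i : Fin m, (1:ℝ) := sum_le_sum fun i _ => by
          rw [← sq_abs]; exact pow_le_one₀ (abs_nonneg _) (ha i)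
      _ ≤ _ := by simpa using hmn
  refine (sq2_app_le J u a).trans ?_
  have := op_nonneg (cm2 J u)
  calc op (cm2 J u) * (√(sq4 (cm4 J u)) + 2 * op (cm2 J u) ^ 2) * sq1 a
      ≤ A * (δ * n + 2 * A ^ 2) * n := by
        gcongr
        exact sum_nonneg fun i _ => sq_nonneg _
    _ ≤ _ := by nlinarith [pow_nonneg hA 4, Nat.cast_nonneg (α := ℝ) n]

/-- The square of the covariance matrix. -/
noncomputable def sqC (J : Mat m) (u : Vec m) : Mat m :=
  fun i j => ∑ k, cm2 J u i k * cm2 J u k j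

lemma sq2_sqC_le (J : Mat m) (u : Vec m) : sq2 (sqC J u) ≤ sq2 (cm2 J u) ^ 2 := by
  rw [sq]
  calc sq2 (sqC J u) ≤ ∑ i, ∑ j, (∑ k, cm2 J u i k ^ 2) * ∑ k, cm2 J u k j ^ 2 :=
        sum_le_sum fun i _ => sum_le_sum fun j _ => sum_mul_sq_le_sq_mul_sq _ _ _
    _ = _ := by
        rw [← sum_mul_sum, sum_comm (f := fun j k => cm2 J u k j ^ 2)]
        rfl

lemma app_small {b η Tm : ℝ} {k : ℕ} (hY : YTightSpec b) (hR : RecSpec b) (hη : 0 < η)
    {a : ∀ m : ℕ, Mat m → Vec m → Vec m} {C : ℝ}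
    (hc : ∀ m i, Continuous fun q : Mat m × Vec m => a m q.1 q.2 i)
    (ha : ∀ m J u i, |a m J u i| ≤ 1)
    (h : ∀ n m : ℕ, ∀ τ : ℝ, 0 ≤ τ → 0 < n → m ≤ n →
      pEv b n m τ (fun J u => sq2 (app (cm3 J u) (a m J u)) ^ 2) ≤ C * ((n:ℝ) ^ 2) ^ 2) :
    SmallWhenTight b η Tm k fun m J u => sq2 (app (cm3 J u) (a m J u)) :=
  soft_general hY hR hη (c₀ := fun m => 64 * (m:ℝ) ^ 4) (c₁ := C)
    (fun m => continuous_sq2_app (hc m)) (fun _ _ _ => sq2_nonneg _)
    (fun m J u => sq2_app_le_card J u (ha m J u))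
    (fun n m τ h1 h2 h3 => (h n m τ h1 h2 h3).trans_eq (by rw [← pow_mul]))
    (fun n m hmn J u A δ hA hδ hy hz => sq2_app_small hmn J u (ha m J u) hA hδ hy hz)

lemma continuous_sq2_sqC : Continuous fun q : Mat m × Vec m => sq2 (sqC q.1 q.2) := by
  simp only [sq2, sqC]
  exact continuous_finsetSum _ fun i _ => continuous_finsetSum _ fun j _ =>
    (continuous_finsetSum _ fun k _ => (continuous_cm2 i k).mul (continuous_cm2 k j)).pow 2

lemma continuous_sq2_cm2 : Continuous fun q : Mat m × Vec m => sq2 (cm2 q.1 q.2) := by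
  simp only [sq2]
  exact continuous_finsetSum _ fun i _ => continuous_finsetSum _ fun j _ =>
    (continuous_cm2 i j).pow 2

lemma sqC_small {b η Tm : ℝ} {k : ℕ} (hY : YTightSpec b) (hR : RecSpec b) (hG : GrowSpec b)
    (hη : 0 < η) : SmallWhenTight b η Tm k fun m J u => sq2 (sqC J u) := by
  obtain ⟨Cg, hCg⟩ := hG
  refine soft_general hY hR hη (c₀ := fun m => (16 * (m:ℝ) ^ 2) ^ 2) (c₁ := (Cg * 4) ^ 4)
    (fun m => continuous_sq2_sqC) (fun _ _ _ => sq2_nonneg _) (fun m J u => ?_) (fun n m τ h1 h2 h3 => ?_) (fun n m hmn J u A δ hA hδ hy hz => ?_)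
  · exact (sq2_sqC_le J u).trans (pow_le_pow_left₀ (sq2_nonneg _) (sq2_le_card J u) 2)
  · obtain ⟨hg, -, -⟩ := hCg n m 4 τ h1 (by norm_num) h2 h3
    refine le_trans (pEv_mono (G := fun J u => sq2 (cm2 J u) ^ 4)
      (integrable_obs b n τ (F := fun J u => sq2 (sqC J u) ^ 2) (continuous_sq2_sqC.pow 2)
        (B := ((16 * (m:ℝ) ^ 2) ^ 2) ^ 2) fun J u => ?_) (integrable_obs b n τ
        (F := fun J u => sq2 (cm2 J u) ^ 4) (continuous_sq2_cm2.pow 4) (B := (16 * (m:ℝ) ^ 2) ^ 4)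
        fun J u => ?_) fun J u => ?_) (hg.trans_eq (by push_cast; ring))
    · rw [abs_of_nonneg (sq_nonneg _)]
      exact pow_le_pow_left₀ (sq2_nonneg _) ((sq2_sqC_le J u).trans
        (pow_le_pow_left₀ (sq2_nonneg _) (sq2_le_card J u) 2)) 2
    · rw [abs_of_nonneg (pow_nonneg (sq2_nonneg _) 4)]
      exact pow_le_pow_left₀ (sq2_nonneg _) (sq2_le_card J u) 4
    · calc sq2 (sqC J u) ^ 2 ≤ (sq2 (cm2 J u) ^ 2) ^ 2 :=
            pow_le_pow_left₀ (sq2_nonneg _) (sq2_sqC_le J u) 2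
        _ = _ := by ring
  · have h0 := op_nonneg (cm2 J u)
    have hmn' : (m:ℝ) ≤ n := by exact_mod_cast hmn
    calc sq2 (sqC J u) ≤ op (cm2 J u) ^ 2 * sq2 (cm2 J u) := sq2_mul_le _ _
      _ ≤ A ^ 2 * (n * A ^ 2) := by
          refine mul_le_mul (pow_le_pow_left₀ h0 hy 2) ((sq2_le_op _).trans ?_) (sq2_nonneg _)
            (sq_nonneg A)
          gcongr
      _ ≤ _ := by
          nlinarith [mul_nonneg (mul_nonneg hA hδ) (sq_nonneg (n:ℝ)),
            mul_nonneg (pow_nonneg hA 3) (Nat.cast_nonneg (α := ℝ) n)]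

/-- **The soft second moments.** -/
theorem softSpec {b : ℝ} (hY : YTightSpec b) (hR : RecSpec b) (hC : CrudeSpec b)
    (hG : GrowSpec b) : SoftSpec b := by
  intro η Tm ε k hη hε
  obtain ⟨Cc, hCc⟩ := hC 2
  obtain ⟨N1, hN1⟩ := app_small (k := k) (Tm := Tm) hY hR hη (a := fun m _ _ _ => (1:ℝ)) (C := Cc)
    (fun _ _ => continuous_const) (fun _ _ _ _ => by simp)
    (fun n m τ h1 h2 h3 => (hCc n m τ h1 h2 h3).2.2.1) ε hε
  obtain ⟨N2, hN2⟩ := app_small (k := k) (Tm := Tm) hY hR hη (a := fun m J u => mg J u) (C := Cc)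
    (fun _ i => continuous_mg i) (fun _ J u => abs_mg_le J u)
    (fun n m τ h1 h2 h3 => (hCc n m τ h1 h2 h3).2.2.2.1) (ε / 4) (by linarith)
  obtain ⟨N3, hN3⟩ := sqC_small (k := k) (Tm := Tm) hY hR hG hη (ε / 4) (by linarith)
  refine ⟨max N1 (max N2 N3), fun n m τ h1 h2 h3 h4 h5 => ?_⟩
  simp only [max_le_iff] at h3
  refine ⟨hN1 n m τ h1 h2 h3.1 h4 h5, ?_⟩
  have a2 := hN2 n m τ h1 h2 h3.2.1 h4 h5
  have a3 := hN3 n m τ h1 h2 h3.2.2 h4 h5
  have i2 := integrable_obs b n τ (F := fun J u => sq2 (app (cm3 J u) (mg J u)))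
    (continuous_sq2_app continuous_mg) (B := 64 * (m:ℝ) ^ 4) fun J u => by
    rw [abs_of_nonneg (sq2_nonneg _)]; exact sq2_app_le_card J u (abs_mg_le J u)
  have i3 := integrable_obs b n τ (F := fun J u => sq2 (sqC J u)) continuous_sq2_sqC
    (B := (16 * (m:ℝ) ^ 2) ^ 2) fun J u => by
    rw [abs_of_nonneg (sq2_nonneg _)]
    exact (sq2_sqC_le J u).trans (pow_le_pow_left₀ (sq2_nonneg _) (sq2_le_card J u) 2)
  have hg : ∀ J u, sq2 (gradV (m := m) J u) ≤
      2 * sq2 (app (cm3 J u) (mg J u)) + 2 * sq2 (sqC J u) := fun J u => by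
    simp only [sq2, mul_sum, ← sum_add_distrib]
    refine sum_le_sum fun i _ => sum_le_sum fun j _ => ?_
    simp only [gradV, sqC]
    exact add_sq_le.trans (le_of_eq (mul_add _ _ _))
  have ig := integrable_obs b n τ continuous_sq2_gradV
    (B := 2 * (64 * (m:ℝ) ^ 4) + 2 * (16 * (m:ℝ) ^ 2) ^ 2) fun J u => by
    rw [abs_of_nonneg (sq2_nonneg _)]
    refine (hg J u).trans ?_
    gcongr
    · exact sq2_app_le_card J u (abs_mg_le J u)
    · exact (sq2_sqC_le J u).trans (pow_le_pow_left₀ (sq2_nonneg _) (sq2_le_card J u) 2)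
  rw [pEv] at a2 a3 ⊢
  refine (integral_mono ig ((i2.const_mul 2).add (i3.const_mul 2)) fun g => hg _ _).trans ?_
  simp only [Pi.add_apply]
  rw [integral_add (i2.const_mul 2) (i3.const_mul 2), integral_const_mul, integral_const_mul]
  linarith

end Vale.Agent.P150.Weak.Gram
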