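import Vale.Agent.P150.Weak.Gram.Basic

/-!
Three-tensors as Euclidean vectors: the norm, the projection on a ball, and zero extension.
-/

open MeasureTheory Finset
open scoped RealInnerProductSpace

namespace Vale.Agent.P150.Weak.Gram

variable {m : ℕ}

/-- Three-tensors. -/
abbrev Ten (m : ℕ) := Fin m → Mat m

/-- A three-tensor as a Euclidean vector. -/
noncomputable def vec3 (K : Ten m) : EuclideanSpace ℝ (Fin m × Fin m × Fin m) :=
  WithLp.toLp 2 fun p => K p.1 p.2.1 p.2.2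

/-- The Frobenius norm of a three-tensor. -/
noncomputable def nrm (K : Ten m) : ℝ := ‖vec3 K‖

lemma nrm_nonneg (K : Ten m) : 0 ≤ nrm K := norm_nonneg _

lemma nrm_sq (K : Ten m) : nrm K ^ 2 = sq3 K := by
  simp [nrm, vec3, EuclideanSpace.real_norm_sq_eq, sq3, sq2, Fintype.sum_prod_type]

lemma vec3_add (K L : Ten m) : vec3 (K + L) = vec3 K + vec3 L := rfl

lemma vec3_sub (K L : Ten m) : vec3 (K - L) = vec3 K - vec3 L := rfl

lemma vec3_smul (c : ℝ) (K : Ten m) : vec3 (c • K) = c • vec3 K := rfl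

lemma nrm_add_le (K L : Ten m) : nrm (K + L) ≤ nrm K + nrm L := by
  simpa [nrm, vec3_add] using norm_add_le (vec3 K) (vec3 L)

lemma nrm_sub_le (K L : Ten m) : nrm (K - L) ≤ nrm K + nrm L := by
  simpa [nrm, vec3_sub] using norm_sub_le (vec3 K) (vec3 L)

lemma nrm_smul (c : ℝ) (K : Ten m) : nrm (c • K) = |c| * nrm K := by
  simp [nrm, vec3_smul, norm_smul]

lemma nrm_smul_le {c : ℝ} (h0 : 0 ≤ c) (h1 : c ≤ 1) (K : Ten m) : nrm (c • K) ≤ nrm K := by
  rw [nrm_smul, abs_of_nonneg h0]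
  exact mul_le_of_le_one_left (nrm_nonneg _) h1

lemma sq3_nonneg (K : Ten m) : 0 ≤ sq3 K := sum_nonneg fun i _ => sq2_nonneg _

lemma continuous_nrm : Continuous (nrm (m := m)) := by
  unfold nrm vec3
  fun_prop

/-- The projection on the ball of radius `R`. -/
noncomputable def clip (R : ℝ) (K : Ten m) : Ten m := (R / max R (nrm K)) • K

lemma clip_scal {R : ℝ} (hR : 0 < R) (K : Ten m) :
    0 ≤ R / max R (nrm K) ∧ R / max R (nrm K) ≤ 1 :=
  ⟨div_nonneg hR.le (hR.le.trans (le_max_left _ _)),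
    div_le_one_of_le₀ (le_max_left _ _) (hR.le.trans (le_max_left _ _))⟩

lemma nrm_clip {R : ℝ} (hR : 0 < R) (K : Ten m) : nrm (clip R K) = min R (nrm K) := by
  rw [clip, nrm_smul, abs_of_nonneg (clip_scal hR K).1]
  rcases le_total (nrm K) R with h | h
  · rw [max_eq_left h, div_self hR.ne', one_mul, min_eq_right h]
  · rw [max_eq_right h, min_eq_left h, div_mul_cancel₀ _ (hR.trans_le h).ne']

lemma nrm_clip_sub_self {R : ℝ} (hR : 0 < R) (K : Ten m) :
    nrm (K - clip R K) = max (nrm K - R) 0 := by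
  have e : K - clip R K = (1 - R / max R (nrm K)) • K := by rw [clip, sub_smul, one_smul]
  rw [e, nrm_smul, abs_of_nonneg (sub_nonneg.2 (clip_scal hR K).2)]
  rcases le_total (nrm K) R with h | h
  · rw [max_eq_left h, div_self hR.ne', sub_self, zero_mul, max_eq_right (sub_nonpos.2 h)]
  · rw [max_eq_right h, max_eq_left (sub_nonneg.2 h), sub_mul, one_mul,
      div_mul_cancel₀ _ (hR.trans_le h).ne']

/-- The projection on a ball does not expand distances. -/
lemma nrm_clip_sub_le {R : ℝ} (hR : 0 < R) (K L : Ten m) :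
    nrm (clip R K - clip R L) ≤ nrm (K - L) := by
  have hK := nrm_clip hR K
  have hL := nrm_clip hR L
  obtain ⟨hc0, hc1⟩ := clip_scal hR K
  obtain ⟨hd0, hd1⟩ := clip_scal hR L
  rw [clip, nrm_smul, abs_of_nonneg hc0] at hK
  rw [clip, nrm_smul, abs_of_nonneg hd0] at hL
  simp only [clip]
  set c := R / max R (nrm K)
  set d := R / max R (nrm L)
  refine le_of_sq_le_sq ?_ (nrm_nonneg _)
  simp only [nrm, vec3_sub, vec3_smul] at hK hL ⊢
  set x := vec3 K
  set y := vec3 L
  rw [norm_sub_sq_real, norm_sub_sq_real, real_inner_smul_left, real_inner_smul_right, norm_smul,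
    norm_smul, Real.norm_eq_abs, Real.norm_eq_abs, abs_of_nonneg hc0, abs_of_nonneg hd0]
  have hxy : ⟪x, y⟫ ≤ ‖x‖ * ‖y‖ := real_inner_le_norm x y
  have hcd : c * d ≤ 1 := mul_le_one₀ hc1 hd0 hd1
  have hlip : (c * ‖x‖ - d * ‖y‖) ^ 2 ≤ (‖x‖ - ‖y‖) ^ 2 := by
    rw [hK, hL, ← sq_abs (‖x‖ - ‖y‖), ← sq_abs (min R ‖x‖ - min R ‖y‖)]
    refine pow_le_pow_left₀ (abs_nonneg _) ?_ 2
    exact (abs_min_sub_min_le_max R ‖x‖ R ‖y‖).trans (by simp)
  have hkey := mul_le_mul_of_nonneg_left hxy (sub_nonneg.2 hcd)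
  linarith

lemma continuous_clip {R : ℝ} (hR : 0 < R) : Continuous (clip (m := m) R) := by
  refine Continuous.smul (Continuous.div continuous_const
    (continuous_const.max continuous_nrm) fun K => ?_) continuous_id
  exact (hR.trans_le (le_max_left _ _)).ne'

/-- A tensor of the other spins, extended by zero at the spin `i`. -/
noncomputable def emb (i : Fin (m + 1)) (K : Ten m) : Ten (m + 1) :=
  Fin.insertNth i 0 fun a => Fin.insertNth i 0 fun c => Fin.insertNth i 0 (K a c)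

lemma emb_zero (i : Fin (m + 1)) (K : Ten m) (x y z : Fin (m + 1))
    (h : x = i ∨ y = i ∨ z = i) : emb i K x y z = 0 := by
  simp only [emb]
  rcases Fin.eq_self_or_eq_succAbove i x with rfl | ⟨a, rfl⟩
  · simp
  rcases Fin.eq_self_or_eq_succAbove i y with rfl | ⟨c, rfl⟩
  · simp
  rcases Fin.eq_self_or_eq_succAbove i z with rfl | ⟨e, rfl⟩
  · simp
  · simp [Fin.succAbove_ne] at h

lemma emb_succ (i : Fin (m + 1)) (K : Ten m) (a c e : Fin m) :
    emb i K (i.succAbove a) (i.succAbove c) (i.succAbove e) = K a c e := by simp [emb]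

lemma sq3_emb (i : Fin (m + 1)) (K : Ten m) : sq3 (emb i K) = sq3 K := by
  simp only [sq3, sq2, Fin.sum_univ_succAbove _ i]
  simp [emb]

lemma nrm_emb (i : Fin (m + 1)) (K : Ten m) : nrm (emb i K) = nrm K := by
  rw [← Real.sqrt_sq (nrm_nonneg _), nrm_sq, sq3_emb, ← nrm_sq, Real.sqrt_sq (nrm_nonneg _)]

lemma emb_sub (i : Fin (m + 1)) (K L : Ten m) : emb i (K - L) = emb i K - emb i L := by
  funext x y z
  simp only [Pi.sub_apply, emb]
  rcases Fin.eq_self_or_eq_succAbove i x with rfl | ⟨a, rfl⟩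
  · simp
  rcases Fin.eq_self_or_eq_succAbove i y with rfl | ⟨c, rfl⟩
  · simp
  rcases Fin.eq_self_or_eq_succAbove i z with rfl | ⟨e, rfl⟩ <;> simp

end Vale.Agent.P150.Weak.Gram
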