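import Vale.Agent.P150.Weak.Upd
import Vale.Agent.P150.Weak.Found.Slice
import Vale.Agent.P150.Weak.Found.Split
import Vale.Agent.P150.Weak.GaussShift
import Vale.Agent.P150.Weak.Gram.Soft
import Vale.Agent.P150.Weak.Gram.Tensor

/-!
Averages over a planted row added to the fields: the kernel `K₊ = E T(h + x)`, its Poincaré bound
and its comparison with `K₋ = E T(h - x)`.
-/

open MeasureTheory ProbabilityTheory Finset

namespace Vale.Agent.P150.Weak.Gram

open Gap

variable {m l : ℕ}

/-- A planted row with mean and variance `v`. -/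
noncomputable def row (v : ℝ) (r : Vec m) : Vec m := fun k => v + √v * r k

lemma row_apply (v : ℝ) (r : Vec m) (k : Fin m) : row v r k = v + √v * r k := rfl

@[fun_prop]
lemma continuous_row (v : ℝ) : Continuous fun r : Vec m => row v r := by unfold row; fun_prop

/-- The componentwise Gaussian average of a random tensor. -/
noncomputable def avT (F : Vec m → Ten l) : Ten l := fun a c e => ∫ r, F r a c e ∂gauss (Fin m)

section avT

variable {F G : Vec m → Ten l} {B : ℝ}

lemma continuous_sq3_comp {X : Type*} [TopologicalSpace X] {K : X → Ten l}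
    (h : ∀ a c e, Continuous fun x => K x a c e) : Continuous fun x => sq3 (K x) := by
  simp only [sq3, sq2]
  exact continuous_finsetSum _ fun a _ => continuous_finsetSum _ fun c _ =>
    continuous_finsetSum _ fun e _ => (h a c e).pow 2

lemma sq_integral_le {f : Vec m → ℝ} (hc : Continuous f) {C : ℝ} (hC : ∀ r, |f r| ≤ C) :
    (∫ r, f r ∂gauss (Fin m)) ^ 2 ≤ ∫ r, f r ^ 2 ∂gauss (Fin m) := by
  have hi : Integrable f (gauss (Fin m)) := integrable_gauss_bound hc hC
  have h2 : Integrable (fun r => f r ^ 2) (gauss (Fin m)) :=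
    integrable_gauss_bound (hc.pow 2) (B := C ^ 2) fun r => by
      rw [abs_pow]; exact pow_le_pow_left₀ (abs_nonneg _) (hC r) 2
  set c := ∫ r, f r ∂gauss (Fin m) with hc'
  have h := integral_nonneg (μ := gauss (Fin m)) (f := fun r => (f r - c) ^ 2) fun r => sq_nonneg _
  have e : (fun r => (f r - c) ^ 2) = fun r => f r ^ 2 + ((-2 * c) * f r + c ^ 2) :=
    funext fun r => by ring
  have i3 : Integrable (fun r => (-2 * c) * f r + c ^ 2) (gauss (Fin m)) :=
    (hi.const_mul _).add (integrable_const _)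
  rw [e, integral_add h2 i3, integral_add (hi.const_mul _) (integrable_const _),
    integral_const_mul, integral_const, probReal_univ, one_smul, ← hc'] at h
  linarith

variable (hc : ∀ a c e, Continuous fun r => F r a c e) (hB : ∀ r a c e, |F r a c e| ≤ B)

include hc hB

lemma sq3_le_of_bound (r : Vec m) : sq3 (F r) ≤ (l:ℝ) ^ 3 * B ^ 2 := by
  calc sq3 (F r) ≤ ∑ _a : Fin l, ∑ _c : Fin l, ∑ _e : Fin l, B ^ 2 := by
        refine sum_le_sum fun a _ => sum_le_sum fun c _ => sum_le_sum fun e _ => ?_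
        rw [← sq_abs]; exact pow_le_pow_left₀ (abs_nonneg _) (hB r a c e) 2
    _ = _ := by simp; ring

lemma integrable_comp3 (a c e : Fin l) : Integrable (fun r => F r a c e) (gauss (Fin m)) :=
  integrable_gauss_bound (hc a c e) fun r => hB r a c e

lemma abs_avT_le (a c e : Fin l) : |avT F a c e| ≤ B := by
  have := norm_integral_le_of_norm_le_const (μ := gauss (Fin m)) (f := fun r => F r a c e) (C := B)
    (ae_of_all _ fun r => hB r a c e)
  rw [probReal_univ, mul_one] at this
  exact this

lemma integral_sq3 :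
    ∫ r, sq3 (F r) ∂gauss (Fin m) = ∑ a, ∑ c, ∑ e, ∫ r, F r a c e ^ 2 ∂gauss (Fin m) := by
  have hi : ∀ a c e, Integrable (fun r => F r a c e ^ 2) (gauss (Fin m)) := fun a c e =>
    integrable_gauss_bound ((hc a c e).pow 2) (B := B ^ 2) fun r => by
      rw [abs_pow]; exact pow_le_pow_left₀ (abs_nonneg _) (hB r a c e) 2
  simp only [sq3, sq2]
  rw [integral_finsetSum _ fun a _ => integrable_finsetSum _ fun c _ =>
    integrable_finsetSum _ fun e _ => hi a c e]
  refine sum_congr rfl fun a _ => ?_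
  rw [integral_finsetSum _ fun c _ => integrable_finsetSum _ fun e _ => hi a c e]
  exact sum_congr rfl fun c _ => integral_finsetSum _ fun e _ => hi a c e

lemma sq3_avT_le : sq3 (avT F) ≤ ∫ r, sq3 (F r) ∂gauss (Fin m) := by
  rw [integral_sq3 hc hB]
  exact sum_le_sum fun a _ => sum_le_sum fun c _ => sum_le_sum fun e _ =>
    sq_integral_le (hc a c e) fun r => hB r a c e

lemma integrable_nrm : Integrable (fun r => nrm (F r)) (gauss (Fin m)) :=
  integrable_gauss_bound (continuous_nrm.comp (continuous_pi fun a => continuous_pi fun c =>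
    continuous_pi fun e => hc a c e)) (B := √((l:ℝ) ^ 3 * B ^ 2)) fun r => by
    rw [abs_of_nonneg (nrm_nonneg _)]
    refine Real.le_sqrt_of_sq_le ?_
    rw [nrm_sq]; exact sq3_le_of_bound hc hB r

lemma nrm_avT_le : nrm (avT F) ≤ ∫ r, nrm (F r) ∂gauss (Fin m) := by
  set K := avT F with hK
  have hI : 0 ≤ ∫ r, nrm (F r) ∂gauss (Fin m) := integral_nonneg fun r => nrm_nonneg _
  have hi : ∀ a c e, Integrable (fun r => K a c e * F r a c e) (gauss (Fin m)) := fun a c e =>
    (integrable_comp3 hc hB a c e).const_mul _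
  have h1 : nrm K ^ 2 = ∫ r, ∑ a, ∑ c, ∑ e, K a c e * F r a c e ∂gauss (Fin m) := by
    rw [integral_finsetSum _ fun a _ => integrable_finsetSum _ fun c _ =>
      integrable_finsetSum _ fun e _ => hi a c e, nrm_sq]
    refine sum_congr rfl fun a _ => ?_
    rw [integral_finsetSum _ fun c _ => integrable_finsetSum _ fun e _ => hi a c e]
    refine sum_congr rfl fun c _ => ?_
    rw [integral_finsetSum _ fun e _ => hi a c e]
    refine sum_congr rfl fun e _ => ?_
    rw [integral_const_mul, sq]
    rfl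
  have h2 : nrm K ^ 2 ≤ nrm K * ∫ r, nrm (F r) ∂gauss (Fin m) := by
    rw [h1, ← integral_const_mul]
    refine integral_mono (integrable_finsetSum _ fun a _ => integrable_finsetSum _ fun c _ =>
      integrable_finsetSum _ fun e _ => hi a c e) ((integrable_nrm hc hB).const_mul _) fun r => ?_
    refine le_trans (le_of_eq ?_) (real_inner_le_norm (vec3 K) (vec3 (F r)))
    simp [vec3, PiLp.inner_apply, Fintype.sum_prod_type, mul_comm]
  rcases (nrm_nonneg K).eq_or_lt with h | h
  · rw [← h]; exact hI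
  · exact le_of_mul_le_mul_left (by rwa [← sq]) h

lemma exc_avT_le (R : ℝ) :
    max (nrm (avT F) - R) 0 ^ 2 ≤ ∫ r, max (nrm (F r) - R) 0 ^ 2 ∂gauss (Fin m) := by
  have hcn : Continuous fun r => nrm (F r) := continuous_nrm.comp (continuous_pi fun a =>
    continuous_pi fun c => continuous_pi fun e => hc a c e)
  have hcm : Continuous fun r => max (nrm (F r) - R) 0 :=
    (hcn.sub continuous_const).max continuous_const
  have hbd : ∀ r, |max (nrm (F r) - R) 0| ≤ √((l:ℝ) ^ 3 * B ^ 2) + |R| := fun r => by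
    have h := sq3_le_of_bound hc hB r
    rw [← nrm_sq] at h
    have hn : nrm (F r) ≤ √((l:ℝ) ^ 3 * B ^ 2) := Real.le_sqrt_of_sq_le h
    rw [abs_of_nonneg (le_max_right _ _)]
    refine max_le ?_ (by positivity)
    linarith [neg_abs_le R]
  have him := integrable_gauss_bound hcm hbd
  have h : max (nrm (avT F) - R) 0 ≤ ∫ r, max (nrm (F r) - R) 0 ∂gauss (Fin m) := by
    refine max_le ?_ (integral_nonneg fun r => le_max_right _ _)
    calc nrm (avT F) - R ≤ (∫ r, nrm (F r) ∂gauss (Fin m)) - R := by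
          linarith [nrm_avT_le hc hB]
      _ = ∫ r, (nrm (F r) - R) ∂gauss (Fin m) := by
          rw [integral_sub (integrable_nrm hc hB) (integrable_const _)]; simp
      _ ≤ _ := integral_mono ((integrable_nrm hc hB).sub (integrable_const _)) him
          fun r => le_max_left _ _
  exact (pow_le_pow_left₀ (le_max_right _ _) h 2).trans (sq_integral_le hcm hbd)

lemma sq2_app_avT_le (a : Vec l) :
    sq2 (app (avT F) a) ≤ ∫ r, sq2 (app (F r) a) ∂gauss (Fin m) := by
  have hfc : ∀ i j, Continuous fun r => app (F r) a i j := fun i j =>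
    continuous_finsetSum _ fun k _ => (hc k i j).const_smul (a k)
  have hfb : ∀ i j r, |app (F r) a i j| ≤ ∑ k, |a k| * B := fun i j r =>
    (abs_sum_le_sum_abs _ _).trans (sum_le_sum fun k _ => by
      rw [abs_mul]; exact mul_le_mul_of_nonneg_left (hB r k i j) (abs_nonneg _))
  have h2 : ∀ i j, Integrable (fun r => app (F r) a i j ^ 2) (gauss (Fin m)) := fun i j =>
    integrable_gauss_bound ((hfc i j).pow 2) (B := (∑ k, |a k| * B) ^ 2) fun r => by
      rw [abs_pow]; exact pow_le_pow_left₀ (abs_nonneg _) (hfb i j r) 2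
  have e : ∀ i j, app (avT F) a i j = ∫ r, app (F r) a i j ∂gauss (Fin m) := fun i j => by
    simp only [app]
    rw [integral_finsetSum _ fun k _ => (integrable_comp3 hc hB k i j).const_mul _]
    simp only [integral_const_mul]
    rfl
  simp only [sq2]
  rw [integral_finsetSum _ fun i _ => integrable_finsetSum _ fun j _ => h2 i j]
  refine sum_le_sum fun i _ => ?_
  rw [integral_finsetSum _ fun j _ => h2 i j]
  exact sum_le_sum fun j _ => by rw [e]; exact sq_integral_le (hfc i j) (hfb i j)

omit hc hB in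
lemma avT_sub {C : ℝ} (hc : ∀ a c e, Continuous fun r => F r a c e)
    (hB : ∀ r a c e, |F r a c e| ≤ B) (hc' : ∀ a c e, Continuous fun r => G r a c e)
    (hC : ∀ r a c e, |G r a c e| ≤ C) : avT F - avT G = avT fun r => F r - G r := by
  funext a c e
  exact (integral_sub (integrable_comp3 hc hB a c e) (integrable_comp3 hc' hC a c e)).symm

end avT

/-- Continuity of an average over a row. -/
lemma continuous_avT {X : Type*} [TopologicalSpace X] [FirstCountableTopology X]
    {F : X → Vec m → Ten l} (hc : ∀ a c e, Continuous fun q : X × Vec m => F q.1 q.2 a c e) {B : ℝ}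
    (hB : ∀ x r a c e, |F x r a c e| ≤ B) (a c e : Fin l) :
    Continuous fun x => avT (F x) a c e :=
  continuous_of_dominated
    (fun x => ((hc a c e).comp (Continuous.prodMk_right x)).aestronglyMeasurable)
    (fun x => ae_of_all _ fun r => hB x r a c e) (integrable_const B)
    (ae_of_all _ fun r => (hc a c e).comp (Continuous.prodMk_left r))

/-- Continuity of the average of an observable over a row added to the fields. -/
lemma continuous_avg {φ : Mat m → Vec m → ℝ} (hc : Continuous fun q : Mat m × Vec m => φ q.1 q.2)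
    {B : ℝ} (hB : ∀ J u, |φ J u| ≤ B) (v : ℝ) :
    Continuous fun q : Mat m × Vec m => ∫ r, φ q.1 (q.2 + row v r) ∂gauss (Fin m) :=
  continuous_of_dominated
    (fun q => (hc.comp (f := fun r : Vec m => (q.1, q.2 + row v r))
      (by fun_prop)).aestronglyMeasurable)
    (fun q => ae_of_all _ fun r => hB _ _) (integrable_const B)
    (ae_of_all _ fun r => hc.comp (f := fun q : Mat m × Vec m => (q.1, q.2 + row v r)) (by fun_prop))

lemma abs_avg_le {φ : Mat m → Vec m → ℝ} {B : ℝ} (hB : ∀ J u, |φ J u| ≤ B) (v : ℝ) (J : Mat m)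
    (u : Vec m) : |∫ r, φ J (u + row v r) ∂gauss (Fin m)| ≤ B := by
  have := norm_integral_le_of_norm_le_const (μ := gauss (Fin m))
    (f := fun r => φ J (u + row v r)) (C := B) (ae_of_all _ fun r => hB _ _)
  rw [probReal_univ, mul_one] at this
  exact this

/-- `K₊ = E T(h + x)`. -/
noncomputable def kP (v : ℝ) (G : Mat m) (h : Vec m) : Ten m := avT fun r => cm3 G (h + row v r)

/-- `K₋ = E T(h - x)`. -/
noncomputable def kM (v : ℝ) (G : Mat m) (h : Vec m) : Ten m := avT fun r => cm3 G (h - row v r)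

lemma continuous_cm3_add (v : ℝ) (G : Mat m) (h : Vec m) (a c e : Fin m) :
    Continuous fun r : Vec m => cm3 G (h + row v r) a c e :=
  (continuous_cm3 a c e).comp (f := fun r : Vec m => (G, h + row v r)) (by fun_prop)

lemma continuous_cm3_subRow (v : ℝ) (G : Mat m) (h : Vec m) (a c e : Fin m) :
    Continuous fun r : Vec m => cm3 G (h - row v r) a c e :=
  (continuous_cm3 a c e).comp (f := fun r : Vec m => (G, h - row v r)) (by fun_prop)

lemma continuous_kP (v : ℝ) (a c e : Fin m) :
    Continuous fun q : Mat m × Vec m => kP v q.1 q.2 a c e :=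
  continuous_avT (F := fun (q : Mat m × Vec m) r => cm3 q.1 (q.2 + row v r))
    (fun a c e => (continuous_cm3 a c e).comp
      (f := fun p : (Mat m × Vec m) × Vec m => (p.1.1, p.1.2 + row v p.2)) (by fun_prop))
    (fun q r => abs_cm3_le _ _) a c e

lemma continuous_kM (v : ℝ) (a c e : Fin m) :
    Continuous fun q : Mat m × Vec m => kM v q.1 q.2 a c e :=
  continuous_avT (F := fun (q : Mat m × Vec m) r => cm3 q.1 (q.2 - row v r))
    (fun a c e => (continuous_cm3 a c e).comp
      (f := fun p : (Mat m × Vec m) × Vec m => (p.1.1, p.1.2 - row v p.2)) (by fun_prop))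
    (fun q r => abs_cm3_le _ _) a c e

lemma abs_kP_le (v : ℝ) (G : Mat m) (h : Vec m) (a c e : Fin m) : |kP v G h a c e| ≤ 8 :=
  abs_avT_le (continuous_cm3_add v G h) (fun _ => abs_cm3_le _ _) a c e

lemma abs_kM_le (v : ℝ) (G : Mat m) (h : Vec m) (a c e : Fin m) : |kM v G h a c e| ≤ 8 :=
  abs_avT_le (continuous_cm3_subRow v G h) (fun _ => abs_cm3_le _ _) a c e

lemma kP_symm (v : ℝ) (G : Mat m) (h : Vec m) (a c e : Fin m) :
    kP v G h a c e = kP v G h a e c :=
  integral_congr_ae (ae_of_all _ fun _ => cm3_swap23 _ _ _ _ _)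

lemma kM_symm (v : ℝ) (G : Mat m) (h : Vec m) (a c e : Fin m) :
    kM v G h a c e = kM v G h a e c :=
  integral_congr_ae (ae_of_all _ fun _ => cm3_swap23 _ _ _ _ _)

/-- **Poincaré**: `E ‖T(h + x) - K₊‖² ≤ v E ‖T4(h + x)‖²`. -/
lemma kP_var {v : ℝ} (hv : 0 ≤ v) (G : Mat m) (h : Vec m) :
    ∫ r, sq3 (cm3 G (h + row v r) - kP v G h) ∂gauss (Fin m) ≤
      v * ∫ r, sq4 (cm4 G (h + row v r)) ∂gauss (Fin m) := by
  let F : Fin m × Fin m × Fin m → Vec m → ℝ := fun p r =>
    cm3 G (h + row v r) p.1 p.2.1 p.2.2 - kP v G h p.1 p.2.1 p.2.2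
  let D : Fin m → Fin m × Fin m × Fin m → Vec m → ℝ := fun i p r =>
    √v * cm4 G (h + row v r) p.1 p.2.1 p.2.2 i
  have hF : ∀ p, Continuous (F p) := fun p => (continuous_cm3_add v G h _ _ _).sub continuous_const
  have hFb : ∀ p r, |F p r| ≤ 16 := fun p r => (abs_sub _ _).trans (by
    linarith [abs_cm3_le G (h + row v r) p.1 p.2.1 p.2.2, abs_kP_le v G h p.1 p.2.1 p.2.2])
  have hD : ∀ i p, Continuous (D i p) := fun i p => continuous_const.mul
    ((continuous_cm4 _ _ _ _).comp (f := fun r : Vec m => (G, h + row v r)) (by fun_prop))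
  have hDb : ∀ i p r, |D i p r| ≤ √v * 64 := fun i p r => by
    rw [abs_mul, abs_of_nonneg (Real.sqrt_nonneg v)]
    exact mul_le_mul_of_nonneg_left (abs_cm4_le ..) (Real.sqrt_nonneg v)
  have hd : ∀ i p g t, HasDerivAt (fun s => F p (Function.update g i s))
      (D i p (Function.update g i t)) t := by
    intro i p g t
    have e : ∀ s, h + row v (Function.update g i s) =
        Function.update (h + row v g) i (h i + (v + √v * s)) := fun s => by
      funext k
      rcases eq_or_ne k i with rfl | hk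
      · simp [row_apply]
      · simp [row_apply, hk]
    have h1 : HasDerivAt (fun s => h i + (v + √v * s)) (√v) t := by
      simpa using (((hasDerivAt_id t).const_mul (√v)).const_add v).const_add (h i)
    simp only [F, D, e]
    refine (((hasDerivAt_cm3 G (h + row v g) p.1 p.2.1 p.2.2 i _).comp t h1).sub_const
      _).congr_deriv ?_
    ring
  have hP := poincare_vec (F := F) (D := D) hF
    (fun p => MemLp.of_bound (hF p).aestronglyMeasurable 16 (ae_of_all _ (hFb p))) hD
    (fun i p g t => by simpa only [update_eq_upd] using hd i p g t)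
    (fun i p => integrable_gauss_bound ((hD i p).pow 2) (B := (√v * 64) ^ 2) fun r => by
      rw [abs_pow]; exact pow_le_pow_left₀ (abs_nonneg _) (hDb i p r) 2)
  have h0 : ∀ p, ∫ r, F p r ∂gauss (Fin m) = 0 := fun p => by
    simp only [F]
    rw [integral_sub (integrable_comp3 (continuous_cm3_add v G h) (fun _ => abs_cm3_le _ _) _ _ _)
      (integrable_const _), integral_const, probReal_univ, one_smul]
    exact sub_self _
  simp only [h0, ne_eq, OfNat.ofNat_ne_zero, not_false_eq_true, zero_pow, sum_const_zero,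
    zero_add] at hP
  rw [← integral_const_mul]
  refine le_trans (le_of_eq (integral_congr_ae (ae_of_all _ fun r => ?_)))
    (hP.trans (le_of_eq (integral_congr_ae (ae_of_all _ fun r => ?_))))
  · simp [F, sq3, sq2, Fintype.sum_prod_type]
  · simp [D, sq4, sq2, Fintype.sum_prod_type, mul_sum, mul_pow, Real.sq_sqrt hv]

lemma measurePreserving_negRow : MeasurePreserving (fun r : Vec m => fun k => -r k)
    (gauss (Fin m)) (gauss (Fin m)) :=
  measurePreserving_pi _ _ fun _ =>
    ⟨measurable_neg, by simpa using gaussianReal_map_neg (μ := 0) (v := 1)⟩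

/-- The law of `h - x` is the law of `h + x` shifted by `-2√v`. -/
lemma integral_subRow {v : ℝ} (hv : 0 ≤ v) (h : Vec m) {φ : Vec m → ℝ} (hc : Continuous φ) :
    ∫ r, φ (h - row v r) ∂gauss (Fin m) =
      ∫ r, φ (h + row v fun k => -2 * √v + r k) ∂gauss (Fin m) := by
  rw [← integral_comp_mp measurePreserving_negRow
    (F := fun r => φ (h - row v r))
    (hc.comp (f := fun r : Vec m => h - row v r) (by fun_prop)).aestronglyMeasurable]
  refine integral_congr_ae (ae_of_all _ fun r => congrArg φ (funext fun k => ?_))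
  simp only [Pi.add_apply, Pi.sub_apply, row_apply]
  linear_combination (2:ℝ) * Real.mul_self_sqrt hv

/-- The cost of the shift. -/
noncomputable def shiftA (v : ℝ) (m : ℕ) : ℝ := Real.exp (4 * v * m) - 1

lemma shiftA_nonneg {v : ℝ} (hv : 0 ≤ v) : 0 ≤ shiftA v m :=
  sub_nonneg.2 (Real.one_le_exp (by positivity))

lemma sum_theta {v : ℝ} (hv : 0 ≤ v) : ∑ _k : Fin m, (-2 * √v) ^ 2 = 4 * v * m := by
  simp [mul_pow, Real.sq_sqrt hv]; ring

/-- `‖K₊ - K₋‖²` against the variance of `T(h + x)`. -/
lemma kP_sub_kM {v : ℝ} (hv : 0 ≤ v) (G : Mat m) (h : Vec m) :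
    sq3 (kP v G h - kM v G h) ≤
      shiftA v m * ∫ r, sq3 (cm3 G (h + row v r) - kP v G h) ∂gauss (Fin m) := by
  have hc : ∀ a c e, Continuous fun r => (cm3 G (h + row v r) - kP v G h) a c e := fun a c e =>
    (continuous_cm3_add v G h a c e).sub continuous_const
  have hb : ∀ r a c e, |(cm3 G (h + row v r) - kP v G h) a c e| ≤ 16 := fun r a c e =>
    (abs_sub _ _).trans (by linarith [abs_cm3_le G (h + row v r) a c e, abs_kP_le v G h a c e])
  rw [integral_sq3 hc hb, mul_sum]
  refine sum_le_sum fun a _ => ?_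
  rw [mul_sum]
  refine sum_le_sum fun c _ => ?_
  rw [mul_sum]
  refine sum_le_sum fun e _ => ?_
  set ψ := fun r : Vec m => (cm3 G (h + row v r) - kP v G h) a c e with hψ
  have hi : Integrable (fun r => cm3 G (h + row v r) a c e) (gauss (Fin m)) :=
    integrable_comp3 (continuous_cm3_add v G h) (fun _ => abs_cm3_le _ _) a c e
  have hmean : ∫ r, ψ r ∂gauss (Fin m) = 0 := by
    simp only [hψ, Pi.sub_apply]
    rw [integral_sub hi (integrable_const _), integral_const, probReal_univ, one_smul]
    exact sub_self _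
  have hshift : ∫ r, ψ (fun k => -2 * √v + r k) ∂gauss (Fin m) =
      kM v G h a c e - kP v G h a c e := by
    simp only [hψ, Pi.sub_apply]
    have hi' : Integrable (fun r : Vec m => cm3 G (h + row v fun k => -2 * √v + r k) a c e)
        (gauss (Fin m)) :=
      integrable_gauss_bound ((continuous_cm3_add v G h a c e).comp
        (f := fun r : Vec m => fun k => -2 * √v + r k) (by fun_prop)) fun r => abs_cm3_le ..
    rw [integral_sub hi' (integrable_const _), integral_const, probReal_univ, one_smul]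
    have hφ : Continuous fun x : Vec m => cm3 G x a c e :=
      (continuous_cm3 a c e).comp (f := fun x : Vec m => (G, x)) (by fun_prop)
    have e1 := integral_subRow hv h (φ := fun x => cm3 G x a c e) hφ
    rw [← e1]
    simp only [kM, avT]
  have hL : MemLp ψ 2 (gauss (Fin m)) :=
    MemLp.of_bound (hc a c e).aestronglyMeasurable 16 (ae_of_all _ fun r => hb r a c e)
  have h1 := shift_le (fun _ : Fin m => -2 * √v) (hc a c e) hL
  have h2 := shift_le (fun _ : Fin m => -2 * √v) (φ := fun r => -ψ r) (hc a c e).neg hL.neg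
  simp only [integral_neg, neg_sq] at h2
  rw [hmean, hshift, zero_add, sum_theta hv] at h1
  rw [hmean, hshift, neg_zero, zero_add, sum_theta hv] at h2
  set Q := ∫ r, ψ r ^ 2 ∂gauss (Fin m) with hQ
  have hQ0 : 0 ≤ Q := integral_nonneg fun r => sq_nonneg _
  have habs : |kP v G h a c e - kM v G h a c e| ≤ √(shiftA v m) * √Q :=
    abs_le.2 ⟨by unfold shiftA; linarith, by unfold shiftA; linarith⟩
  calc (kP v G h - kM v G h) a c e ^ 2 = |kP v G h a c e - kM v G h a c e| ^ 2 := by
        rw [sq_abs]; rfl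
    _ ≤ (√(shiftA v m) * √Q) ^ 2 := pow_le_pow_left₀ (abs_nonneg _) habs 2
    _ = _ := by rw [mul_pow, Real.sq_sqrt (shiftA_nonneg hv), Real.sq_sqrt hQ0]

/-- Bounded observables at `h - x` against `h + x`. -/
lemma avg_subRow_le {v t : ℝ} (hv : 0 ≤ v) (ht : 0 < t) (h : Vec m) {φ : Vec m → ℝ}
    (hc : Continuous φ) (h0 : ∀ x, 0 ≤ φ x) (h1 : ∀ x, φ x ≤ 1) :
    ∫ r, φ (h - row v r) ∂gauss (Fin m) ≤
      (1 + 1 / (2 * t)) * ∫ r, φ (h + row v r) ∂gauss (Fin m) + t * shiftA v m / 2 := by
  set f := fun r : Vec m => φ (h + row v r) with hf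
  have hfc : Continuous f := hc.comp (f := fun r : Vec m => h + row v r) (by fun_prop)
  have hfb : ∀ r, |f r| ≤ 1 := fun r => by rw [abs_of_nonneg (h0 _)]; exact h1 _
  have key := shift_le (fun _ : Fin m => -2 * √v) hfc
    (MemLp.of_bound hfc.aestronglyMeasurable 1 (ae_of_all _ hfb))
  rw [sum_theta hv] at key
  rw [integral_subRow hv h hc]
  refine key.trans ?_
  set y := ∫ r, f r ∂gauss (Fin m) with hy
  have hy0 : 0 ≤ y := integral_nonneg fun r => h0 _
  have hsq : ∫ r, f r ^ 2 ∂gauss (Fin m) ≤ y := by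
    refine integral_mono (integrable_gauss_bound (hfc.pow 2) (B := 1) fun r => ?_)
      (integrable_gauss_bound hfc hfb) fun r => ?_
    · rw [abs_pow]; exact pow_le_one₀ (abs_nonneg _) (hfb r)
    · have := h0 (h + row v r); have := h1 (h + row v r)
      simp only [hf]; nlinarith
  have hA := shiftA_nonneg (m := m) hv
  have e : y + (t * shiftA v m / 2 + y / (2 * t)) =
      (1 + 1 / (2 * t)) * y + t * shiftA v m / 2 := by ring
  have hs : √(shiftA v m) * √(∫ r, f r ^ 2 ∂gauss (Fin m)) ≤
      t * shiftA v m / 2 + y / (2 * t) := by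
    refine (mul_le_mul_of_nonneg_left (Real.sqrt_le_sqrt hsq) (Real.sqrt_nonneg _)).trans ?_
    rw [← sub_nonneg]
    have e2 : t * shiftA v m / 2 + y / (2 * t) - √(shiftA v m) * √y =
        (t * √(shiftA v m) - √y) ^ 2 / (2 * t) := by
      rw [sub_sq, mul_pow, Real.sq_sqrt hA, Real.sq_sqrt hy0]
      field_simp
      ring
    rw [e2]; positivity
  unfold shiftA at hs e ⊢
  linarith

section planted

variable {b : ℝ} {n : ℕ} {τ : ℝ}

/-- An observable of the subsystem and the row. -/
theorem pEv_row (i : Fin (m + 1)) {F : Mat (m + 1) → Vec (m + 1) → ℝ}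
    (ψ : Mat m → Vec m → Vec m → ℝ)
    (hF : Integrable (fun g => F (plJ (b ^ 2 / n) g) (plU τ g)) (gauss (Idx (m + 1))))
    (hψ : ∀ g : Idx (m + 1) → ℝ, F (plJ (b ^ 2 / n) g) (plU τ g) =
      ψ (sub i (plJ (b ^ 2 / n) g)) (subU i (plU τ g)) (rowOf i (plJ (b ^ 2 / n) g))) :
    pEv b n (m + 1) τ F =
      ∫ g, ∫ r, ψ (plJ (b ^ 2 / n) g) (plU τ g) (row (b ^ 2 / n) r) ∂gauss (Fin m) ∂gauss (Idx m) := by
  rw [pEv_split i hF]
  simp only [hψ, sub_plJ, subU_plU, rowOf_plJ, integral_const, probReal_univ, one_smul]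
  rfl

/-- An observable of the subsystem alone. -/
theorem pEv_sub (i : Fin (m + 1)) {φ : Mat m → Vec m → ℝ}
    (hc : Continuous fun q : Mat m × Vec m => φ q.1 q.2) {B : ℝ} (hB : ∀ J u, |φ J u| ≤ B) :
    pEv b n (m + 1) τ (fun J u => φ (sub i J) (subU i u)) = pEv b n m τ φ := by
  have hcF : Continuous fun q : Mat (m + 1) × Vec (m + 1) => φ (sub i q.1) (subU i q.2) :=
    hc.comp (f := fun q : Mat (m + 1) × Vec (m + 1) => (sub i q.1, subU i q.2))
      (by unfold sub subU; fun_prop)
  rw [pEv_row (F := fun J u => φ (sub i J) (subU i u)) i (fun G h _ => φ G h)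
    (integrable_planted (F := fun J u => φ (sub i J) (subU i u)) hcF (fun J u => hB _ _) _ _)
    fun g => rfl]
  simp [pEv]

/-- The average over a row added to the fields raises `τ`. -/
theorem pEv_avg (hτ : 0 ≤ τ) {φ : Mat m → Vec m → ℝ}
    (hc : Continuous fun q : Mat m × Vec m => φ q.1 q.2) {B : ℝ} (hB : ∀ J u, |φ J u| ≤ B) :
    pEv b n m τ (fun G h => ∫ r, φ G (h + row (b ^ 2 / n) r) ∂gauss (Fin m)) =
      pEv b n m (τ + b ^ 2 / n) φ := by
  refine pEv_shift hτ hc (Integrable.of_bound (Continuous.aestronglyMeasurable ?_) B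
    (ae_of_all _ fun q => hB _ _))
  exact hc.comp (f := fun q : (Idx m → ℝ) × Vec m =>
    (plJ (b ^ 2 / n) q.1, plU τ q.1 + fun a => b ^ 2 / n + √(b ^ 2 / n) * q.2 a)) (by fun_prop)

end planted

end Vale.Agent.P150.Weak.Gram
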