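import Vale.Agent.P150.Weak.Gram.Pairs

/-!
**The Gram step**: the chaos matrix tends to zero in operator norm, in probability. Each row's
kernel is replaced by `K₊` clipped at radius `√(M n)` (an error small in Frobenius norm), and the
Gram matrix of the clipped rows is small in Frobenius norm, since two rows are almost orthogonal.
-/

open MeasureTheory ProbabilityTheory Finset

namespace Vale.Agent.P150.Weak.Gram

open Gap

variable {m : ℕ}

attribute [local irreducible] cm2 cm3 cm4 kP kM mg vw op plJ plU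

/-- `E ψ = o(n)`: the norm of the third cumulant as a map of vectors is `o(√n)`. -/
theorem psi_small {b : ℝ} (hrec : RecSpec b) (hui : UISpec b) (hY : YTightSpec b) {η ε : ℝ}
    (Tm : ℝ) (k : ℕ) (hη : 0 < η) (hε : 0 < ε) :
    ∃ N : ℕ, ∀ n m : ℕ, ∀ τ : ℝ, η ≤ τ → τ ≤ Tm → N ≤ n → m ≤ n → n ≤ m + k →
      pEv b n m τ psi ≤ ε * n := by
  obtain ⟨M₀, N₁, hM⟩ := hui η Tm (ε / 4) k hη (by positivity)
  obtain ⟨CY, N₂, hCY⟩ := hY η Tm k hη
  obtain ⟨C4, hC4⟩ := hrec.2 η Tm hη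
  set M := max M₀ 0 with hMdef
  have hM0 : 0 ≤ M := le_max_right _ _
  set A := 1 + 4 * (M * |CY|) / ε with hAdef
  have hA1 : 1 ≤ A := le_add_of_nonneg_right (by positivity)
  have hA0 : 0 < A := lt_of_lt_of_le one_pos hA1
  set δ := ε / (4 * A) with hδdef
  have hδ : 0 < δ := by positivity
  obtain ⟨N₃, hN₃⟩ := exists_sqrt_ge (A * |C4| / (2 * δ) + 2 * A ^ 3) (show 0 < ε / 4 by positivity)
  refine ⟨max (max N₁ N₂) N₃, fun n m τ h1 h2 hN hm hk => ?_⟩
  simp only [max_le_iff] at hN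
  obtain ⟨⟨hn1, hn2⟩, hn3⟩ := hN
  obtain ⟨hn, hs, -⟩ := hN₃ n hn3
  have hnR : (0:ℝ) < n := by exact_mod_cast hn
  set L := δ * n with hLdef
  have hL : 0 < L := by positivity
  have hU := hM n m τ h1 h2 hn1 hm hk
  have hYb := (hCY n m τ h1 h2 hn2 hm hk).trans (le_abs_self CY)
  have h4 := (hC4 n m τ h1 h2 hn hm).trans
    (mul_le_mul_of_nonneg_right (le_abs_self C4) (by positivity))
  have hm3 : Measurable fun g : Idx m → ℝ => sq3 (cm3 (plJ (b ^ 2 / n) g) (plU τ g)) :=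
    ((continuous_sq3'.comp continuous_cm3').comp (continuous_sample b n τ)).measurable
  have iU : Integrable (fun g => if M₀ * n < sq3 (cm3 (plJ (b ^ 2 / n) g) (plU τ g)) then
      sq3 (cm3 (plJ (b ^ 2 / n) g) (plU τ g)) else 0) (gauss (Idx m)) := by
    refine Integrable.of_bound (Measurable.ite (measurableSet_lt measurable_const hm3) hm3
      measurable_const).aestronglyMeasurable ((m:ℝ) ^ 3 * 8 ^ 2) (ae_of_all _ fun g => ?_)
    rw [Real.norm_eq_abs]
    split_ifs
    · rw [abs_of_nonneg (sq3_nonneg _)]; exact sq3_cm3_le _ _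
    · rw [abs_zero]; positivity
  have iY := integrable_planted (F := fun J u => op (cm2 J u) ^ 2)
    (continuous_op_cm2 (m := m) |>.pow 2) (B := (4 * (m:ℝ)) ^ 2) (fun J u => by
      rw [abs_of_nonneg (sq_nonneg _)]; exact pow_le_pow_left₀ (op_nonneg _) (op_cm2_le J u) 2)
    (b ^ 2 / n) τ
  have i4 := integrable_planted (F := fun J u => sq4 (cm4 J u)) (continuous_sq4 (m := m))
    (B := 4096 * (m:ℝ) ^ 4) (fun J u => by
      rw [abs_of_nonneg (sq4_nonneg J u)]; exact sq4_le_card J u) (b ^ 2 / n) τ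
  have j1 : Integrable (fun g => (if M₀ * n < sq3 (cm3 (plJ (b ^ 2 / n) g) (plU τ g)) then
      sq3 (cm3 (plJ (b ^ 2 / n) g) (plU τ g)) else 0) +
      M * n / A ^ 2 * op (cm2 (plJ (b ^ 2 / n) g) (plU τ g)) ^ 2) (gauss (Idx m)) :=
    iU.add (iY.const_mul _)
  have j2 : Integrable (fun g => A / (2 * L) * sq4 (cm4 (plJ (b ^ 2 / n) g) (plU τ g)) +
      (A * L / 2 + 2 * A ^ 3)) (gauss (Idx m)) := (i4.const_mul _).add (integrable_const _)
  rw [pEv] at hU hYb h4 ⊢
  refine le_trans (integral_mono_of_nonneg (ae_of_all _ fun g => psi_nonneg _ _) (j1.add j2)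
    (ae_of_all _ fun g => ?_)) ?_
  · simp only [Pi.add_apply]
    set J := plJ (b ^ 2 / (n:ℝ)) g
    set u := plU τ g
    have hz := sq4_nonneg J u
    have hy := op_nonneg (cm2 J u)
    have ht := sq3_nonneg (cm3 J u)
    have hrhs : 0 ≤ A / (2 * L) * sq4 (cm4 J u) + (A * L / 2 + 2 * A ^ 3) := by positivity
    have hMY : 0 ≤ M * n / A ^ 2 * op (cm2 J u) ^ 2 := by positivity
    by_cases hA : op (cm2 J u) ≤ A
    · have hu0 : 0 ≤ (if M₀ * n < sq3 (cm3 J u) then sq3 (cm3 J u) else 0) := by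
        split_ifs <;> [exact ht; exact le_rfl]
      have h5 : op (cm2 J u) * (√(sq4 (cm4 J u)) + 2 * op (cm2 J u) ^ 2) ≤
          A / (2 * L) * sq4 (cm4 J u) + (A * L / 2 + 2 * A ^ 3) := by
        refine (mul_le_mul hA (add_le_add le_rfl
          (mul_le_mul_of_nonneg_left (pow_le_pow_left₀ hy hA 2) zero_le_two))
          (by positivity) hA0.le).trans ?_
        have h6 : √(sq4 (cm4 J u)) * 1 ≤ 1 / L / 2 * √(sq4 (cm4 J u)) ^ 2 + 1 ^ 2 / (2 * (1 / L)) :=
          amgm (by positivity)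
        rw [Real.sq_sqrt hz, mul_one] at h6
        have h7 := mul_le_mul_of_nonneg_left h6 hA0.le
        have e : A * (1 / L / 2 * sq4 (cm4 J u) + 1 ^ 2 / (2 * (1 / L))) =
            A / (2 * L) * sq4 (cm4 J u) + A * L / 2 := by field_simp
        rw [e] at h7
        linarith
      have hp : psi J u ≤ op (cm2 J u) * (√(sq4 (cm4 J u)) + 2 * op (cm2 J u) ^ 2) := min_le_left _ _
      linarith
    · have h1A : 1 ≤ op (cm2 J u) ^ 2 / A ^ 2 := by
        rw [one_le_div (by positivity)]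
        exact pow_le_pow_left₀ hA0.le (not_le.1 hA).le 2
      have h5 : sq3 (cm3 J u) ≤ (if M₀ * n < sq3 (cm3 J u) then sq3 (cm3 J u) else 0) +
          M * n / A ^ 2 * op (cm2 J u) ^ 2 := by
        split_ifs with hc
        · linarith
        · have h8 := mul_le_mul_of_nonneg_left h1A (mul_nonneg hM0 hnR.le)
          have h9 : M₀ * n ≤ M * n := mul_le_mul_of_nonneg_right (le_max_left _ _) hnR.le
          have e : M * n * (op (cm2 J u) ^ 2 / A ^ 2) = M * n / A ^ 2 * op (cm2 J u) ^ 2 := by ring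
          linarith [not_lt.1 hc]
      have hp : psi J u ≤ sq3 (cm3 J u) := min_le_right _ _
      linarith
  simp only [Pi.add_apply]
  rw [integral_add j1 j2, integral_add iU (iY.const_mul _),
    integral_add (i4.const_mul _) (integrable_const _), integral_const_mul, integral_const_mul,
    integral_const, probReal_univ, one_smul]
  have e1 : M * n / A ^ 2 * |CY| ≤ ε / 4 * n := by
    have h : M * |CY| / A ^ 2 ≤ ε / 4 := by
      rw [div_le_iff₀ (by positivity)]
      calc M * |CY| ≤ ε / 4 * A := by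
            rw [hAdef, mul_add, mul_one]
            have e : ε / 4 * (4 * (M * |CY|) / ε) = M * |CY| := by field_simp
            rw [e]; linarith
        _ ≤ ε / 4 * A ^ 2 :=
            mul_le_mul_of_nonneg_left (le_self_pow₀ hA1 two_ne_zero) (by positivity)
    calc M * n / A ^ 2 * |CY| = M * |CY| / A ^ 2 * n := by ring
      _ ≤ _ := mul_le_mul_of_nonneg_right h hnR.le
  have e2 : A / (2 * L) * (|C4| * (n * √(n:ℝ))) + (A * L / 2 + 2 * A ^ 3) ≤ ε / 2 * n := by
    have hsn : 0 ≤ √(n:ℝ) := Real.sqrt_nonneg _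
    have hs1 : 1 ≤ √(n:ℝ) := Real.one_le_sqrt.2 (by exact_mod_cast hn)
    have e : A / (2 * L) * (|C4| * (n * √(n:ℝ))) = A * |C4| / (2 * δ) * √(n:ℝ) := by
      rw [hLdef]; field_simp
    have e' : A * L / 2 = ε / 8 * n := by rw [hLdef, hδdef]; field_simp; ring
    have h3 : 2 * A ^ 3 ≤ 2 * A ^ 3 * √(n:ℝ) := le_mul_of_one_le_right (by positivity) hs1
    have h10 := mul_le_mul_of_nonneg_right hs hsn
    rw [mul_assoc (ε / 4), Real.mul_self_sqrt hnR.le] at h10
    have : 0 ≤ ε * n := by positivity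
    rw [e, e']; linarith
  have h11 := mul_le_mul_of_nonneg_left hYb (show 0 ≤ M * n / A ^ 2 by positivity)
  have h12 := mul_le_mul_of_nonneg_left h4 (show 0 ≤ A / (2 * L) by positivity)
  linarith

section total

variable {b : ℝ} {n : ℕ} {τ : ℝ}

/-- The Frobenius part: the kernel against its clipped `K₊`. -/
lemma pEv_rest_row {R X E : ℝ} (hR : 0 < R) (hτ : 0 ≤ τ) (hmn : m ≤ n) (i : Fin (m + 1))
    (h4 : pEv b n m (τ + b ^ 2 / n) (fun J u => sq4 (cm4 J u)) ≤ X)
    (hE : pEv b n m τ (fun G h => exc R (kP (b ^ 2 / n) G h)) ≤ E) :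
    pEv b n (m + 1) τ (fun J u => sq1 (rowK (b ^ 2 / n)
        (fun G h => kB (b ^ 2 / n) G h - clip R (kP (b ^ 2 / n) G h)) i J u)) ≤
      4 * (b ^ 2 / n) ^ 2 * ((Real.exp (4 * b ^ 2) - 1) / 2 * (b ^ 2 / n * X) + 2 * E) := by
  set v := b ^ 2 / (n:ℝ) with hvdef
  have hv : 0 ≤ v := by positivity
  refine (rowK_two (b := b) (n := n) (τ := τ) ((kern_kB v).sub ((kern_kP v).clip hR)) i).trans
    (mul_le_mul_of_nonneg_left ?_ (by positivity))
  have hA0 : 0 ≤ (Real.exp (4 * b ^ 2) - 1) / 2 :=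
    div_nonneg (sub_nonneg.2 (Real.one_le_exp (by positivity))) zero_le_two
  have iV := (integrable_planted (F := fun (G : Mat m) (h : Vec m) => varP v G h)
    (continuous_varP v) (B := (m:ℝ) ^ 3 * 16 ^ 2) (abs_varP_le v) v τ).const_mul
      ((Real.exp (4 * b ^ 2) - 1) / 2)
  have iE := (integrable_planted (F := fun (G : Mat m) (h : Vec m) => exc R (kP v G h))
    ((continuous_exc R).comp (continuous_kP' v)) (B := (m:ℝ) ^ 3 * 8 ^ 2) (fun G h => by
      rw [abs_of_nonneg (exc_nonneg _ _)]; exact (exc_le R hR.le _).trans (sq3_kP_le v G h))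
    v τ).const_mul 2
  have hV := (pEv_varP (b := b) (n := n) (m := m) hτ).trans
    (mul_le_mul_of_nonneg_left h4 (by positivity))
  rw [pEv, ← hvdef] at hV hE ⊢
  refine le_trans (integral_mono_of_nonneg (ae_of_all _ fun g => sq3_nonneg _) (iV.add iE)
    (ae_of_all _ fun g => ?_)) ?_
  · simp only [Pi.add_apply]
    set G := plJ v g
    set h := plU τ g
    have e1 : sq3 (kB v G h - clip R (kP v G h)) ≤
        1 / 2 * sq3 (kP v G h - kM v G h) + 2 * sq3 (kP v G h - clip R (kP v G h)) := by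
      simp only [sq3, sq2, mul_sum, ← sum_add_distrib]
      refine sum_le_sum fun a _ => sum_le_sum fun c _ => sum_le_sum fun e _ => ?_
      simp only [Pi.sub_apply, kB]
      set P := kP v G h a c e
      set Q := kM v G h a c e
      set C := clip R (kP v G h) a c e
      have e : (P + Q) / 2 - C = (Q - P) / 2 + (P - C) := by ring
      rw [e]
      linarith [sq_nonneg ((Q - P) / 2 - (P - C))]
    have e2 : sq3 (kP v G h - clip R (kP v G h)) = exc R (kP v G h) := by
      rw [← nrm_sq, nrm_clip_sub_self hR, exc]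
    have e3 : sq3 (kP v G h - kM v G h) ≤ (Real.exp (4 * b ^ 2) - 1) * varP v G h :=
      (kP_sub_kM hv G h).trans (mul_le_mul_of_nonneg_right (shiftA_le hmn)
        (integral_nonneg fun r => sq3_nonneg _))
    linarith
  · simp only [Pi.add_apply]
    rw [integral_add iV iE, integral_const_mul, integral_const_mul]
    exact add_le_add (mul_le_mul_of_nonneg_left hV hA0) (mul_le_mul_of_nonneg_left hE zero_le_two)

/-- The diagonal and off-diagonal of the Gram matrix. -/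
lemma sq2_gram_split (A : Mat (m + 2)) :
    sq2 (gramM A) = ∑ l, sq1 (A l) ^ 2 + ∑ l, ∑ p, (∑ j, A (Fin.succAbove l p) j * A l j) ^ 2 := by
  simp only [sq2]
  rw [sum_comm, ← sum_add_distrib]
  refine sum_congr rfl fun l _ => ?_
  rw [Fin.sum_univ_succAbove _ l]
  simp only [gramM, sq1, ← sq]

/-- The mean square of the Gram matrix of the clipped rows. -/
lemma pEv_gram_total {M s : ℝ} (hb : 0 < b) (hn : 0 < n) (hmn : m + 2 ≤ n) (hM : 1 ≤ M)
    (hs : 0 < s) (hτ : 0 ≤ τ) (hψ : pEv b n (m + 1) (τ + b ^ 2 / n) psi ≤ s ^ 2 * n)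
    (hlam : ∀ p, pEv b n (m + 1) (τ + b ^ 2 / n)
      (fun J u => sq3 (cm3 J u - lam (b ^ 2 / n) p J u)) ≤ s ^ 2 * n) :
    pEv b n (m + 2) τ (fun J u =>
        sq2 (gramM fun i => gRow (b ^ 2 / n) √(M * n) i J u)) ≤
      6000 * b ^ 8 * M ^ 2 / n + 60000 * b ^ 8 * M ^ 2 * s := by
  have hnR : (0:ℝ) < n := by exact_mod_cast hn
  set v := b ^ 2 / (n:ℝ) with hvdef
  set R := √(M * n) with hRdef
  have hR : 0 < R := Real.sqrt_pos.2 (by positivity)
  have hR2 : R ^ 2 = M * n := Real.sq_sqrt (by positivity)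
  have hK : Kern fun G h => clip R (kP (m := m + 1) v G h) := (kern_kP v).clip hR
  have d1 : ∀ l, Integrable (fun g => sq1 (gRow v R l (plJ v g) (plU τ g)) ^ 2)
      (gauss (Idx (m + 2))) := fun l =>
    ((Tame.sum fun j _ => (tame_rowK hK v τ l j).pow 2).pow 2).integrable
  have d2 : ∀ (l : Fin (m + 2)) (p : Fin (m + 1)), Integrable (fun g =>
      (∑ j, gRow v R (l.succAbove p) (plJ v g) (plU τ g) j *
        gRow v R l (plJ v g) (plU τ g) j) ^ 2) (gauss (Idx (m + 2))) := fun l p =>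
    ((Tame.sum fun j _ => (tame_rowK hK v τ (l.succAbove p) j).mul
      (tame_rowK hK v τ l j)).pow 2).integrable
  have b1 : ∀ l, ∫ g, sq1 (gRow v R l (plJ v g) (plU τ g)) ^ 2 ∂gauss (Idx (m + 2)) ≤
      6000 * v ^ 4 * (M * n) ^ 2 := fun l => by
    rw [← hR2]
    exact pEv_four_clip (b := b) (n := n) (τ := τ) (kern_kP (m := m + 1) v) hR l
  have b2 : ∀ (l : Fin (m + 2)) (p : Fin (m + 1)), ∫ g, (∑ j, gRow v R (l.succAbove p) (plJ v g) (plU τ g) j *
      gRow v R l (plJ v g) (plU τ g) j) ^ 2 ∂gauss (Idx (m + 2)) ≤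
      60000 * (v ^ 4 * (n:ℝ) ^ 2 * (M ^ 2 * s)) := fun l p =>
    pair_bound hb hn hM hs hτ l p hψ (hlam p)
  rw [pEv, ← hvdef]
  simp only [sq2_gram_split]
  rw [integral_add (integrable_finsetSum _ fun l _ => d1 l)
    (integrable_finsetSum _ fun l _ => integrable_finsetSum _ fun p _ => d2 l p),
    integral_finsetSum _ fun l _ => d1 l,
    integral_finsetSum _ fun l _ => integrable_finsetSum _ fun p _ => d2 l p]
  simp only [integral_finsetSum _ fun p (_ : p ∈ univ) => d2 _ p]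
  refine le_trans (add_le_add (sum_le_sum fun l _ => b1 l)
    (sum_le_sum fun l _ => sum_le_sum fun p _ => b2 l p)) ?_
  simp only [sum_const, card_univ, Fintype.card_fin, nsmul_eq_mul]
  have hm2 : ((m + 2 : ℕ):ℝ) ≤ n := by exact_mod_cast hmn
  have hm1 : ((m + 1 : ℕ):ℝ) ≤ n := by exact_mod_cast (by omega : m + 1 ≤ n)
  refine add_le_add ((mul_le_mul_of_nonneg_right hm2 (by positivity)).trans_eq ?_)
    ((mul_le_mul hm2 (mul_le_mul_of_nonneg_right hm1 (by positivity)) (by positivity)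
      hnR.le).trans_eq ?_)
  · rw [hvdef]; field_simp
  · rw [hvdef]; field_simp

/-- Markov: the operator norm through the two Frobenius quantities. -/
lemma pPr_op_le {δ R : ℝ} (hδ : 0 < δ) (hR : 0 < R) :
    pPr b n (m + 1) τ (fun J u => δ < op (chaosPart b n J u)) ≤
      4 / δ ^ 2 * ∑ i, pEv b n (m + 1) τ (fun J u => sq1 (rowK (b ^ 2 / n)
        (fun G h => kB (b ^ 2 / n) G h - clip R (kP (b ^ 2 / n) G h)) i J u)) +
      16 / δ ^ 4 * pEv b n (m + 1) τ
        (fun J u => sq2 (gramM fun i => gRow (b ^ 2 / n) R i J u)) := by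
  set v := b ^ 2 / (n:ℝ) with hvdef
  set D := fun (G : Mat m) (h : Vec m) => kB v G h - clip R (kP v G h) with hDdef
  have hD : Kern D := (kern_kB v).sub ((kern_kP v).clip hR)
  have hK : Kern fun G h => clip R (kP (m := m) v G h) := (kern_kP v).clip hR
  set f := fun g : Idx (m + 1) → ℝ => 4 / δ ^ 2 * ∑ i, sq1 (rowK v D i (plJ v g) (plU τ g)) +
    16 / δ ^ 4 * sq2 (gramM fun i => gRow v R i (plJ v g) (plU τ g)) with hf
  have i1 : Integrable (fun g => ∑ i, sq1 (rowK v D i (plJ v g) (plU τ g)))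
      (gauss (Idx (m + 1))) :=
    (Tame.sum fun i _ => Tame.sum fun j _ => (tame_rowK hD v τ i j).pow 2).integrable
  have i2 : Integrable (fun g => sq2 (gramM fun i => gRow v R i (plJ v g) (plU τ g)))
      (gauss (Idx (m + 1))) :=
    (Tame.sum fun i _ => Tame.sum fun l _ => (Tame.sum fun j _ =>
      (tame_rowK hK v τ i j).mul (tame_rowK hK v τ l j)).pow 2).integrable
  have hf0 : ∀ g, 0 ≤ f g := fun g => add_nonneg
    (mul_nonneg (by positivity) (sum_nonneg fun i _ => sum_nonneg fun j _ => sq_nonneg _))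
    (mul_nonneg (by positivity) (sq2_nonneg _))
  have hsub : {g | δ < op (chaosPart b n (plJ v g) (plU τ g))} ⊆ {g | 1 ≤ f g} := by
    intro g hg
    simp only [Set.mem_setOf_eq] at hg ⊢
    set X : Mat (m + 1) := fun i => rowK v D i (plJ v g) (plU τ g)
    set Y : Mat (m + 1) := fun i => gRow v R i (plJ v g) (plU τ g)
    have e : op (chaosPart b n (plJ v g) (plU τ g)) ≤ op X + op Y := by
      refine le_trans ?_ (op_add_le X Y)
      refine le_trans (le_of_eq (congrArg op ?_))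
        (op_diag_le _ (abs_mg_le (plJ v g) (plU τ g)))
      funext i j
      simp only [chaosPart, ← hvdef, chaosRow_eq, X, Y, hDdef, gRow, rowK_sub, Pi.sub_apply,
        sub_add_cancel]
    have h12 : δ / 2 ≤ op X ∨ δ / 2 ≤ op Y := by
      by_contra h
      rw [not_or, not_le, not_le] at h
      linarith
    have a0 : 0 ≤ 4 / δ ^ 2 * ∑ i, sq1 (X i) :=
      mul_nonneg (by positivity) (sum_nonneg fun i _ => sum_nonneg fun j _ => sq_nonneg _)
    have b0 : 0 ≤ 16 / δ ^ 4 * sq2 (gramM Y) := mul_nonneg (by positivity) (sq2_nonneg _)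
    rcases h12 with h | h
    · have h2 := (pow_le_pow_left₀ (by positivity) h 2).trans (op_sq_le X)
      have h3 := mul_le_mul_of_nonneg_left h2 (by positivity : 0 ≤ 4 / δ ^ 2)
      have e1 : 4 / δ ^ 2 * (δ / 2) ^ 2 = 1 := by field_simp; ring
      rw [e1] at h3
      calc (1:ℝ) ≤ 4 / δ ^ 2 * sq2 X := h3
        _ ≤ f g := le_add_of_nonneg_right b0
    · have h2 := (pow_le_pow_left₀ (by positivity) h 4).trans (op_four_le Y)
      have h3 := mul_le_mul_of_nonneg_left h2 (by positivity : 0 ≤ 16 / δ ^ 4)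
      have e1 : 16 / δ ^ 4 * (δ / 2) ^ 4 = 1 := by field_simp; ring
      rw [e1] at h3
      calc (1:ℝ) ≤ 16 / δ ^ 4 * sq2 (gramM Y) := h3
        _ ≤ f g := le_add_of_nonneg_left a0
  have hi : Integrable f (gauss (Idx (m + 1))) := (i1.const_mul _).add (i2.const_mul _)
  have hM := mul_meas_ge_le_integral_of_nonneg (ae_of_all _ hf0) hi 1
  rw [one_mul] at hM
  rw [pPr, ← hvdef]
  refine (measureReal_mono hsub (measure_ne_top _ _)).trans (hM.trans (le_of_eq ?_))
  have hi1 : ∀ i, Integrable (fun g => sq1 (rowK v D i (plJ v g) (plU τ g)))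
      (gauss (Idx (m + 1))) := fun i =>
    (Tame.sum fun j _ => (tame_rowK hD v τ i j).pow 2).integrable
  simp only [hf, pEv, ← hvdef]
  rw [integral_add (i1.const_mul _) (i2.const_mul _), integral_const_mul, integral_const_mul,
    integral_finsetSum _ fun i _ => hi1 i]

end total

/-- **The Gram step**. -/
theorem gramSpec {b : ℝ} (hb : 0 < b) (hrec : RecSpec b) (hui : UISpec b) (hY : YTightSpec b)
    (hsl : SliceSpec b) : GramSpec b := by
  intro η Tm ε δ k hη hε hδ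
  set e1 := ε * δ ^ 2 / (128 * b ^ 4) with he1def
  have he1 : 0 < e1 := by positivity
  obtain ⟨M₀, N₁, hM⟩ := hui η (Tm + b ^ 2) e1 (k + 1) hη he1
  obtain ⟨C4, hC4⟩ := hrec.2 η (Tm + b ^ 2) hη
  set M := max M₀ 1 with hMdef
  have hM1 : 1 ≤ M := le_max_right _ _
  set s := ε * δ ^ 4 / (64 * 60000 * b ^ 8 * M ^ 2) with hsdef
  have hs : 0 < s := by positivity
  obtain ⟨N₂, hpsi⟩ := psi_small hrec hui hY (Tm + b ^ 2) (k + 1) hη (pow_pos hs 2)
  obtain ⟨N₃, hlam⟩ := removal hrec hui hY hsl (Tm + b ^ 2) (k + 1) hη (pow_pos hs 2)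
  obtain ⟨N₄, hN₄⟩ := exists_sqrt_ge (max
    (8 * b ^ 6 * (Real.exp (4 * b ^ 2) - 1) * |C4| / δ ^ 2)
    (16 * 6000 * b ^ 8 * M ^ 2 / δ ^ 4)) (show 0 < ε / 4 by positivity)
  refine ⟨max (max N₁ N₂) (max (max N₃ N₄) (k + 2)), fun n m τ h1 h2 hN hm hk => ?_⟩
  simp only [max_le_iff] at hN
  obtain ⟨⟨hn1, hn2⟩, ⟨hn3, hn4⟩, hn5⟩ := hN
  obtain ⟨hn, hsA, hsB⟩ := hN₄ n hn4
  simp only [max_le_iff] at hsA hsB
  obtain ⟨m', rfl⟩ : ∃ m', m = m' + 1 := ⟨m - 1, by omega⟩
  have hnR : (0:ℝ) < n := by exact_mod_cast hn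
  have hτ : 0 ≤ τ := hη.le.trans h1
  have hv0 : 0 ≤ b ^ 2 / (n:ℝ) := by positivity
  have hvb : b ^ 2 / (n:ℝ) ≤ b ^ 2 := div_le_self (sq_nonneg b) (by exact_mod_cast hn)
  set R := √(M * n) with hRdef
  have hR : 0 < R := Real.sqrt_pos.2 (by positivity)
  have hMn : M₀ * n ≤ R ^ 2 := by
    rw [hRdef, Real.sq_sqrt (by positivity)]
    exact mul_le_mul_of_nonneg_right (le_max_left _ _) hnR.le
  have hE : pEv b n (m' + 1) τ (fun G h => exc R (kP (b ^ 2 / n) G h)) ≤ e1 * n :=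
    (pEv_exc_kP hR.le hτ).trans (pEv_exc hR.le hMn
      (hM n (m' + 1) _ (by linarith) (by linarith) hn1 (by omega) (by omega)))
  have hX := (hC4 n (m' + 1) (τ + b ^ 2 / n) (by linarith) (by linarith) hn (by omega)).trans
    (mul_le_mul_of_nonneg_right (le_abs_self C4) (by positivity))
  have hrest := fun i => pEv_rest_row (b := b) (n := n) (τ := τ) hR hτ
    (show m' + 1 ≤ n by omega) i hX hE
  have hgram := pEv_gram_total (b := b) (n := n) (τ := τ) hb hn (show m' + 2 ≤ n by omega) hM1 hs hτ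
    (hpsi n (m' + 1) _ (by linarith) (by linarith) hn2 (by omega) (by omega))
    (fun p => hlam n m' _ (by linarith) (by linarith) hn3 (by omega) (by omega) p)
  refine (pPr_op_le hδ hR).trans (le_trans (add_le_add
    (mul_le_mul_of_nonneg_left (sum_le_sum fun i _ => hrest i) (by positivity))
    (mul_le_mul_of_nonneg_left hgram (by positivity))) ?_)
  simp only [sum_const, card_univ, Fintype.card_fin, nsmul_eq_mul]
  have hAb : 0 ≤ Real.exp (4 * b ^ 2) - 1 := sub_nonneg.2 (Real.one_le_exp (by positivity))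
  have hmR : ((m' + 1 + 1 : ℕ):ℝ) ≤ n := by exact_mod_cast (by omega : m' + 1 + 1 ≤ n)
  have hsn : 0 < √(n:ℝ) := Real.sqrt_pos.2 hnR
  set A := Real.exp (4 * b ^ 2) - 1
  have t1 : 4 / δ ^ 2 * (((m' + 1 + 1 : ℕ):ℝ) * (4 * (b ^ 2 / n) ^ 2 *
      (A / 2 * (b ^ 2 / n * (|C4| * (n * √(n:ℝ)))) + 2 * (e1 * n)))) ≤
      8 * b ^ 6 * A * |C4| / δ ^ 2 / √(n:ℝ) + 32 * b ^ 4 * e1 / δ ^ 2 := by
    refine le_trans (mul_le_mul_of_nonneg_left (mul_le_mul_of_nonneg_right hmR (by positivity))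
      (by positivity)) (le_of_eq ?_)
    field_simp
    linear_combination (16 * b ^ 2 * A * |C4|) * Real.mul_self_sqrt hnR.le
  have t2 : 32 * b ^ 4 * e1 / δ ^ 2 = ε / 4 := by rw [he1def]; field_simp; ring
  have t3 : 16 / δ ^ 4 * (60000 * b ^ 8 * M ^ 2 * s) = ε / 4 := by
    rw [hsdef]; field_simp; ring
  have t4 : 8 * b ^ 6 * A * |C4| / δ ^ 2 / √(n:ℝ) ≤ ε / 4 := (div_le_iff₀ hsn).2 hsA.1
  have t5 : 16 / δ ^ 4 * (6000 * b ^ 8 * M ^ 2 / n) ≤ ε / 4 := by
    have e : 16 / δ ^ 4 * (6000 * b ^ 8 * M ^ 2 / n) = 16 * 6000 * b ^ 8 * M ^ 2 / δ ^ 4 / n := by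
      ring
    rw [e]; exact (div_le_iff₀ hnR).2 hsB.2
  rw [mul_add (16 / δ ^ 4)]
  linarith

end Vale.Agent.P150.Weak.Gram
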