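import Vale.Agent.P150.Weak.Gram.Rows

/-!
The kernels of the Gram route and the mean square inner product of two clipped chaos rows.
-/

open MeasureTheory ProbabilityTheory Finset

namespace Vale.Agent.P150.Weak.Gram

open Gap

variable {m : ℕ}

attribute [local irreducible] cm2 cm3 cm4 kP kM mg vw op plJ plU

/-- `(K₊ + K₋) / 2`. -/
noncomputable def kB (v : ℝ) (G : Mat m) (h : Vec m) : Ten m :=
  fun a c e => (kP v G h a c e + kM v G h a c e) / 2

lemma kbar_eq (v : ℝ) (i : Fin (m + 1)) (J : Mat (m + 1)) (u : Vec (m + 1)) :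
    kbar v i J u = kB v (sub i J) (subU i u) := by
  funext a c e
  have hp := integrable_comp3 (continuous_cm3_add v (sub i J) (subU i u))
    (fun _ => abs_cm3_le _ _) a c e
  have hm := integrable_comp3 (continuous_cm3_subRow v (sub i J) (subU i u))
    (fun _ => abs_cm3_le _ _) a c e
  rw [kB, kP, kM]
  simp only [avT, kbar]
  rw [integral_div]
  congr 1
  exact integral_add hp hm

lemma chaosRow_eq (v : ℝ) (J : Mat (m + 1)) (u : Vec (m + 1)) (i : Fin (m + 1)) :
    chaosRow v J u i = rowK v (kB v) i J u := by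
  simp only [chaosRow, rowK, kbar_eq]

lemma kern_kP (v : ℝ) : Kern (kP (m := m) v) :=
  ⟨continuous_kP' v, ⟨8, abs_kP_le v⟩, kP_symm v⟩

lemma kern_kB (v : ℝ) : Kern (kB (m := m) v) := by
  refine ⟨continuous_pi fun a => continuous_pi fun c => continuous_pi fun e =>
    ((continuous_kP v a c e).add (continuous_kM v a c e)).div_const 2,
    ⟨8, fun G h a c e => ?_⟩, fun G h a c e => ?_⟩
  · simp only [kB, abs_le]
    have h1 := abs_le.1 (abs_kP_le v G h a c e)
    have h2 := abs_le.1 (abs_kM_le v G h a c e)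
    constructor <;> linarith
  · simp only [kB]
    rw [kP_symm, kM_symm]

lemma lam_zero (v : ℝ) (p : Fin (m + 1)) (G : Mat (m + 1)) (h : Vec (m + 1))
    (a c e : Fin (m + 1)) (hz : a = p ∨ c = p ∨ e = p) : lam v p G h a c e = 0 :=
  emb_zero p _ a c e hz

lemma abs_lam_le (v : ℝ) (p : Fin (m + 1)) (G : Mat (m + 1)) (h : Vec (m + 1))
    (a c e : Fin (m + 1)) : |lam v p G h a c e| ≤ 8 := by
  rcases Fin.eq_self_or_eq_succAbove p a with rfl | ⟨a', rfl⟩
  · rw [lam_zero v a G h a c e (Or.inl rfl), abs_zero]; norm_num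
  rcases Fin.eq_self_or_eq_succAbove p c with rfl | ⟨c', rfl⟩
  · rw [lam_zero v c G h _ c e (Or.inr (Or.inl rfl)), abs_zero]; norm_num
  rcases Fin.eq_self_or_eq_succAbove p e with rfl | ⟨e', rfl⟩
  · rw [lam_zero v e G h _ _ e (Or.inr (Or.inr rfl)), abs_zero]; norm_num
  · rw [lam, emb_succ]; exact abs_kP_le ..

lemma lam_symm (v : ℝ) (p : Fin (m + 1)) (G : Mat (m + 1)) (h : Vec (m + 1))
    (a c e : Fin (m + 1)) : lam v p G h a c e = lam v p G h a e c := by
  rcases Fin.eq_self_or_eq_succAbove p a with rfl | ⟨a', rfl⟩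
  · rw [lam_zero v a G h a c e (Or.inl rfl), lam_zero v a G h a e c (Or.inl rfl)]
  rcases Fin.eq_self_or_eq_succAbove p c with rfl | ⟨c', rfl⟩
  · rw [lam_zero v c G h _ c e (Or.inr (Or.inl rfl)), lam_zero v c G h _ e c (Or.inr (Or.inr rfl))]
  rcases Fin.eq_self_or_eq_succAbove p e with rfl | ⟨e', rfl⟩
  · rw [lam_zero v e G h _ _ e (Or.inr (Or.inr rfl)), lam_zero v e G h _ e _ (Or.inr (Or.inl rfl))]
  · rw [lam, emb_succ, emb_succ]; exact kP_symm ..

lemma continuous_lamRow (v : ℝ) (p : Fin (m + 1)) (G : Mat (m + 1)) (h : Vec (m + 1))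
    (a c e : Fin (m + 1)) :
    Continuous fun r : Vec (m + 1) => lam v p G (h + row v r) a c e := by
  have h3 : Continuous fun q : Mat (m + 1) × Vec (m + 1) => lam v p q.1 q.2 a c e :=
    (continuous_apply e).comp ((continuous_apply c).comp ((continuous_apply a).comp
      (continuous_lam v p)))
  exact h3.comp (f := fun r : Vec (m + 1) => (G, h + row v r)) (by fun_prop)

/-- The average over a row of the kernel without the spin `p`. -/
noncomputable def lbar (v : ℝ) (p : Fin (m + 1)) (G : Mat (m + 1)) (h : Vec (m + 1)) : Ten (m + 1) :=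
  avT fun r => lam v p G (h + row v r)

/-- The clipped kernel that does not see the spin `p`. -/
noncomputable def lf (v R : ℝ) (p : Fin (m + 1)) (G : Mat (m + 1)) (h : Vec (m + 1)) : Ten (m + 1) :=
  clip R (lbar v p G h)

lemma kern_lbar (v : ℝ) (p : Fin (m + 1)) : Kern (lbar v p) := by
  refine ⟨continuous_pi fun a => continuous_pi fun c => continuous_pi fun e =>
    continuous_avT (F := fun (q : Mat (m + 1) × Vec (m + 1)) r => lam v p q.1 (q.2 + row v r))
      (fun a c e => ?_) (fun q r => abs_lam_le v p _ _) a c e,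
    ⟨8, fun G h a c e => abs_avT_le (continuous_lamRow v p G h) (fun r => abs_lam_le v p _ _) a c e⟩,
    fun G h a c e => integral_congr_ae (ae_of_all _ fun r => lam_symm v p _ _ a c e)⟩
  have h3 : Continuous fun q : Mat (m + 1) × Vec (m + 1) => lam v p q.1 q.2 a c e :=
    (continuous_apply e).comp ((continuous_apply c).comp ((continuous_apply a).comp
      (continuous_lam v p)))
  exact h3.comp (f := fun q : (Mat (m + 1) × Vec (m + 1)) × Vec (m + 1) =>
    (q.1.1, q.1.2 + row v q.2)) (by fun_prop)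

lemma lf_zero (v R : ℝ) (p : Fin (m + 1)) (G : Mat (m + 1)) (h : Vec (m + 1))
    (a c e : Fin (m + 1)) (hz : a = p ∨ c = p ∨ e = p) : lf v R p G h a c e = 0 := by
  show R / max R (nrm (lbar v p G h)) * lbar v p G h a c e = 0
  simp [lbar, avT, lam_zero v p G _ a c e hz]

lemma lf_indep (v R : ℝ) (p : Fin (m + 1)) (G G' : Mat (m + 1)) (h h' : Vec (m + 1))
    (hG : sub p G = sub p G') (hh : subU p h = subU p h') : lf v R p G h = lf v R p G' h' := by
  have e : ∀ r, subU p (h + row v r) = subU p (h' + row v r) := fun r => by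
    show subU p h + subU p (row v r) = subU p h' + subU p (row v r)
    rw [hh]
  simp only [lf, lbar, lam, hG, e]

section pair

variable {b : ℝ} {n : ℕ} {τ : ℝ} {R : ℝ}

/-- A clipped chaos row. -/
noncomputable def gRow (v R : ℝ) (i : Fin (m + 1)) (J : Mat (m + 1)) (u : Vec (m + 1)) :
    Vec (m + 1) :=
  rowK v (fun G h => clip R (kP v G h)) i J u

lemma sq3_clip_le (hR : 0 < R) (K : Ten m) : sq3 (clip R K) ≤ R ^ 2 := by
  rw [← nrm_sq, nrm_clip hR]
  exact pow_le_pow_left₀ (le_min hR.le (nrm_nonneg _)) (min_le_left _ _) 2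

lemma pEv_four_clip {Kf : Mat m → Vec m → Ten m} (hK : Kern Kf) (hR : 0 < R) (i : Fin (m + 1)) :
    pEv b n (m + 1) τ (fun J u =>
        sq1 (rowK (b ^ 2 / n) (fun G h => clip R (Kf G h)) i J u) ^ 2) ≤
      6000 * (b ^ 2 / n) ^ 4 * (R ^ 2) ^ 2 := by
  have hK' := hK.clip hR
  refine (rowK_four hK' i).trans (mul_le_mul_of_nonneg_left ?_ (by positivity))
  have hi := integrable_planted (F := fun G h => sq3 (clip R (Kf G h)) ^ 2)
    ((continuous_sq3'.comp hK'.cont).pow 2) (B := (R ^ 2) ^ 2) (fun G h => by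
      rw [abs_of_nonneg (sq_nonneg _)]
      exact pow_le_pow_left₀ (sq3_nonneg _) (sq3_clip_le hR _) 2) (b ^ 2 / n) τ
  rw [pEv]
  refine (integral_mono hi (integrable_const ((R ^ 2) ^ 2)) fun g =>
    pow_le_pow_left₀ (sq3_nonneg _) (sq3_clip_le hR _) 2).trans_eq ?_
  simp

lemma pEv_wgt_sq (hτ : 0 ≤ τ) (R : ℝ) :
    pEv b n m τ (fun G h => wgt (b ^ 2 / n) R G h ^ 2) ≤
      R ^ 2 * pEv b n m (τ + b ^ 2 / n) psi := by
  set v := b ^ 2 / (n:ℝ) with hvdef
  have iW := integrable_planted (F := fun (G : Mat m) (h : Vec m) => wgt v R G h ^ 2)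
    ((continuous_wgt v R).pow 2) (B := (R ^ 2) ^ 2) (fun G h => by
      rw [abs_of_nonneg (sq_nonneg _)]
      exact pow_le_pow_left₀ (wgt_nonneg v R G h) (wgt_le v R G h) 2) v τ
  have iA := (integrable_planted
    (F := fun (G : Mat m) (h : Vec m) => ∫ r, psi G (h + row v r) ∂gauss (Fin m))
    (continuous_avg (φ := fun G h => psi G h) continuous_psi abs_psi_le v)
    (B := (m:ℝ) ^ 3 * 8 ^ 2) (fun G h => abs_avg_le (φ := fun G h => psi G h) abs_psi_le v G h)
    v τ).const_mul (R ^ 2)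
  rw [← pEv_avg (φ := fun (G : Mat m) (h : Vec m) => psi G h) hτ continuous_psi abs_psi_le, pEv,
    pEv, ← hvdef, ← integral_const_mul]
  refine integral_mono iW iA fun g => ?_
  simp only [sq]
  rw [mul_comm (R * R)]
  exact mul_le_mul (min_le_left _ _) (by rw [← sq]; exact wgt_le v R _ _) (wgt_nonneg v R _ _)
    (integral_nonneg fun r => psi_nonneg _ _)

lemma amgm {a x y : ℝ} (ha : 0 < a) : x * y ≤ a / 2 * x ^ 2 + y ^ 2 / (2 * a) := by
  rw [← sub_nonneg]
  have e : a / 2 * x ^ 2 + y ^ 2 / (2 * a) - x * y = (a * x - y) ^ 2 / (2 * a) := by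
    field_simp; ring
  rw [e]; positivity

/-- The inner product with the row that does not see `i`. -/
lemma pair_first (hR : 0 < R) (hτ : 0 ≤ τ) {a : ℝ} (ha : 0 < a) (l : Fin (m + 2))
    (p : Fin (m + 1)) :
    pEv b n (m + 2) τ (fun J u => (∑ j, gRow (b ^ 2 / n) R (l.succAbove p) J u j *
        rowK (b ^ 2 / n) (lf (b ^ 2 / n) R p) l J u j) ^ 2) ≤
      4 * (b ^ 2 / n) ^ 2 * (a / 2 * (R ^ 2 * pEv b n (m + 1) (τ + b ^ 2 / n) psi) +
        6000 * (b ^ 2 / n) ^ 4 * (R ^ 2) ^ 2 / (2 * a)) := by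
  set v := b ^ 2 / (n:ℝ) with hvdef
  set i := l.succAbove p with hidef
  have hL : Kern (lf v R p) := (kern_lbar v p).clip hR
  have hT : ∀ j, Tame fun g : Idx (m + 2) → ℝ => rowK v (lf v R p) l (plJ v g) (plU τ g) j :=
    fun j => tame_rowK hL v τ l j
  have hI : ∀ g r t, rowK v (lf v R p) l (plJ v (join i g r t)) (plU τ (join i g r t)) =
      rowK v (lf v R p) l (plJ v (join i g 0 0)) (plU τ (join i g 0 0)) := fun g r t =>
    rowK_indep (fun G h a c e => lf_zero v R p G h a c e)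
      (fun G G' h h' => lf_indep v R p G G' h h') v l
      (by rw [sub_plJ, sub_plJ]) (by rw [subU_plU, subU_plU])
  refine (rowK_inner ((kern_kP v).clip hR) i (h := rowK v (lf v R p) l) hT hI).trans
    (mul_le_mul_of_nonneg_left ?_ (by positivity))
  have hW : Continuous fun q : Mat (m + 2) × Vec (m + 2) =>
      wgt v R (sub i q.1) (subU i q.2) ^ 2 :=
    ((continuous_wgt v R).comp (f := fun q : Mat (m + 2) × Vec (m + 2) =>
      (sub i q.1, subU i q.2)) (by fun_prop)).pow 2
  have hWb : ∀ J u, |wgt v R (sub i J) (subU i u) ^ 2| ≤ (R ^ 2) ^ 2 := fun J u => by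
    rw [abs_of_nonneg (sq_nonneg _)]
    exact pow_le_pow_left₀ (wgt_nonneg v R _ _) (wgt_le v R _ _) 2
  have iW := (integrable_planted (F := fun J u => wgt v R (sub i J) (subU i u) ^ 2) hW hWb
    v τ).const_mul (a / 2)
  have iH : Integrable (fun g => sq1 (rowK v (lf v R p) l (plJ v g) (plU τ g)) ^ 2 / (2 * a))
      (gauss (Idx (m + 2))) :=
    (((Tame.sum fun j _ => (hT j).pow 2).pow 2).integrable).div_const _
  have h4 := pEv_four_clip (b := b) (n := n) (τ := τ) (kern_lbar v p) hR l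
  have h2 := pEv_wgt_sq (b := b) (n := n) (m := m + 1) hτ R
  rw [← pEv_sub i (φ := fun G h => wgt v R G h ^ 2) ((continuous_wgt v R).pow 2)
    (B := (R ^ 2) ^ 2) (fun G h => by
      rw [abs_of_nonneg (sq_nonneg _)]
      exact pow_le_pow_left₀ (wgt_nonneg v R _ _) (wgt_le v R _ _) 2)] at h2
  rw [pEv, ← hvdef] at h4 h2
  rw [pEv, ← hvdef]
  refine le_trans (integral_mono_of_nonneg (ae_of_all _ fun g => sq2_nonneg _) (iW.add iH)
    (ae_of_all _ fun g => ?_)) ?_
  · refine (sq2_app_clip_le v hR _ _ _).trans (le_trans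
      (mul_le_mul_of_nonneg_left ?_ (wgt_nonneg v R _ _)) (amgm ha))
    exact sum_rest_le (fun z => rowK v (lf v R p) l (plJ v g) (plU τ g) z) i
  · simp only [Pi.add_apply]
    rw [integral_add iW iH, integral_const_mul, integral_div]
    refine add_le_add (mul_le_mul_of_nonneg_left h2 (by positivity))
      (div_le_div_of_nonneg_right ?_ (by positivity))
    exact h4

lemma sq3_diff_le (v : ℝ) (hR : 0 < R) (p : Fin (m + 1)) (G : Mat (m + 1)) (h : Vec (m + 1)) :
    sq3 (clip R (kP v G h) - lf v R p G h) ^ 2 ≤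
      4 * R ^ 2 * ∫ r, sq3 (cm3 G (h + row v r) - lam v p G (h + row v r)) ∂gauss (Fin (m + 1)) := by
  set X := sq3 (clip R (kP v G h) - lf v R p G h)
  have hX0 : 0 ≤ X := sq3_nonneg _
  have h1 : X ≤ 4 * R ^ 2 := by
    simp only [X, lf]
    rw [← nrm_sq]
    have hn := nrm_sub_le (clip R (kP v G h)) (clip R (lbar v p G h))
    rw [nrm_clip hR, nrm_clip hR] at hn
    calc _ ≤ (2 * R) ^ 2 := pow_le_pow_left₀ (nrm_nonneg _) (by
          linarith [min_le_left R (nrm (kP v G h)), min_le_left R (nrm (lbar v p G h))]) 2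
      _ = _ := by ring
  have h2 : X ≤ sq3 (kP v G h - lbar v p G h) := by
    simp only [X, lf]
    rw [← nrm_sq, ← nrm_sq]
    exact pow_le_pow_left₀ (nrm_nonneg _) (nrm_clip_sub_le hR _ _) 2
  have h3 : sq3 (kP v G h - lbar v p G h) ≤
      ∫ r, sq3 (cm3 G (h + row v r) - lam v p G (h + row v r)) ∂gauss (Fin (m + 1)) := by
    rw [kP, lbar, avT_sub (continuous_cm3_add v G h) (fun r => abs_cm3_le _ _)
      (continuous_lamRow v p G h) (fun r => abs_lam_le v p _ _)]
    exact sq3_avT_le (B := 16) (fun a c e => (continuous_cm3_add v G h a c e).sub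
      (continuous_lamRow v p G h a c e)) fun r a c e => (abs_sub _ _).trans (by
        linarith [abs_cm3_le G (h + row v r) a c e, abs_lam_le v p G (h + row v r) a c e])
  calc X ^ 2 = X * X := sq X
    _ ≤ 4 * R ^ 2 * X := mul_le_mul_of_nonneg_right h1 hX0
    _ ≤ _ := mul_le_mul_of_nonneg_left (h2.trans h3) (by positivity)

/-- Replacing a row by the one that does not see `i`. -/
lemma pair_second (hR : 0 < R) (hτ : 0 ≤ τ) {t : ℝ} (ht : 0 < t) (l : Fin (m + 2))
    (p : Fin (m + 1)) :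
    pEv b n (m + 2) τ (fun J u => (∑ j, gRow (b ^ 2 / n) R (l.succAbove p) J u j *
        (gRow (b ^ 2 / n) R l J u j - rowK (b ^ 2 / n) (lf (b ^ 2 / n) R p) l J u j)) ^ 2) ≤
      t / 2 * (6000 * (b ^ 2 / n) ^ 4 * (R ^ 2) ^ 2) +
        6000 * (b ^ 2 / n) ^ 4 * (4 * R ^ 2 * pEv b n (m + 1) (τ + b ^ 2 / n)
          fun J u => sq3 (cm3 J u - lam (b ^ 2 / n) p J u)) / (2 * t) := by
  set v := b ^ 2 / (n:ℝ) with hvdef
  set i := l.succAbove p with hidef
  have hK : Kern fun G h => clip R (kP (m := m + 1) v G h) := (kern_kP v).clip hR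
  have hD := hK.sub ((kern_lbar v p).clip hR)
  set D := fun G h => clip R (kP v G h) - clip R (lbar v p G h) with hDdef
  have i1 : Integrable (fun g => t / 2 * sq1 (gRow v R i (plJ v g) (plU τ g)) ^ 2)
      (gauss (Idx (m + 2))) :=
    (((Tame.sum fun j _ => (tame_rowK hK v τ i j).pow 2).pow 2).integrable).const_mul _
  have i2 : Integrable (fun g => sq1 (rowK v D l (plJ v g) (plU τ g)) ^ 2 / (2 * t))
      (gauss (Idx (m + 2))) :=
    (((Tame.sum fun j _ => (tame_rowK hD v τ l j).pow 2).pow 2).integrable).div_const _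
  have h1 := pEv_four_clip (b := b) (n := n) (τ := τ) (kern_kP (m := m + 1) v) hR i
  have h2 := rowK_four (b := b) (n := n) (τ := τ) hD l
  have hB : ∀ J u, |sq3 (cm3 J u - lam v p J u)| ≤ ((m + 1 : ℕ):ℝ) ^ 3 * 16 ^ 2 := fun J u => by
    rw [abs_of_nonneg (sq3_nonneg _)]
    exact sq3_le_of_bound (m := m + 1) (F := fun _ => cm3 J u - lam v p J u)
      (fun _ _ _ => continuous_const) (fun _ x y z => (abs_sub _ _).trans
        (by linarith [abs_cm3_le J u x y z, abs_lam_le v p J u x y z])) 0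
  have hc : Continuous fun q : Mat (m + 1) × Vec (m + 1) => sq3 (cm3 q.1 q.2 - lam v p q.1 q.2) :=
    continuous_sq3'.comp (continuous_cm3'.sub (continuous_lam v p))
  have hS : pEv b n (m + 1) τ (fun G h => sq3 (D G h) ^ 2) ≤
      4 * R ^ 2 * pEv b n (m + 1) (τ + v) fun J u => sq3 (cm3 J u - lam v p J u) := by
    have iA := (integrable_planted (F := fun G h => ∫ r,
        sq3 (cm3 G (h + row v r) - lam v p G (h + row v r)) ∂gauss (Fin (m + 1)))
      (continuous_avg (φ := fun J u => sq3 (cm3 J u - lam v p J u)) hc hB v)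
      (B := ((m + 1 : ℕ):ℝ) ^ 3 * 16 ^ 2)
      (fun G h => abs_avg_le (φ := fun J u => sq3 (cm3 J u - lam v p J u)) hB v G h)
      v τ).const_mul (4 * R ^ 2)
    rw [← pEv_avg (φ := fun J u => sq3 (cm3 J u - lam v p J u)) hτ hc hB, pEv, pEv, ← hvdef,
      ← integral_const_mul]
    exact integral_mono_of_nonneg (ae_of_all _ fun g => sq_nonneg _) iA
      (ae_of_all _ fun g => sq3_diff_le v hR p _ _)
  have h2' := h2.trans (mul_le_mul_of_nonneg_left hS (by positivity))
  rw [pEv, ← hvdef] at h1 h2'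
  rw [pEv, ← hvdef]
  refine le_trans (integral_mono_of_nonneg (ae_of_all _ fun g => sq_nonneg _) (i1.add i2)
    (ae_of_all _ fun g => ?_)) ?_
  · refine (sum_mul_sq_le_sq_mul_sq univ _ _).trans (le_trans (le_of_eq ?_) (amgm ht))
    simp only [hDdef, rowK_sub]
    rfl
  · simp only [Pi.add_apply]
    rw [integral_add i1 i2, integral_const_mul, integral_div]
    exact add_le_add (mul_le_mul_of_nonneg_left h1 (by positivity))
      (div_le_div_of_nonneg_right h2' (by positivity))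

/-- The mean square inner product of two rows. -/
theorem pair_bound {M s : ℝ} (hb : 0 < b) (hn : 0 < n) (hM : 1 ≤ M) (hs : 0 < s) (hτ : 0 ≤ τ)
    (l : Fin (m + 2)) (p : Fin (m + 1))
    (hψ : pEv b n (m + 1) (τ + b ^ 2 / n) psi ≤ s ^ 2 * n)
    (hlam : pEv b n (m + 1) (τ + b ^ 2 / n)
      (fun J u => sq3 (cm3 J u - lam (b ^ 2 / n) p J u)) ≤ s ^ 2 * n) :
    pEv b n (m + 2) τ (fun J u => (∑ j, gRow (b ^ 2 / n) √(M * n) (l.succAbove p) J u j *
        gRow (b ^ 2 / n) √(M * n) l J u j) ^ 2) ≤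
      60000 * ((b ^ 2 / n) ^ 4 * (n:ℝ) ^ 2 * (M ^ 2 * s)) := by
  have hnR : (0:ℝ) < n := by exact_mod_cast hn
  set v := b ^ 2 / (n:ℝ) with hvdef
  have hv : 0 < v := by positivity
  set R := √(M * n) with hRdef
  have hR : 0 < R := Real.sqrt_pos.2 (by positivity)
  have hR2 : R ^ 2 = M * n := Real.sq_sqrt (by positivity)
  set i := l.succAbove p
  have hA := pair_first (b := b) (n := n) (τ := τ) hR hτ (show 0 < v ^ 2 / s by positivity) l p
  have hB := pair_second (b := b) (n := n) (τ := τ) hR hτ hs l p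
  rw [← hvdef] at hA hB
  have hA' : pEv b n (m + 2) τ (fun J u => (∑ j, gRow v R i J u j *
      rowK v (lf v R p) l J u j) ^ 2) ≤ 4 * v ^ 2 * (v ^ 2 / s / 2 * (M * n * (s ^ 2 * n)) +
        6000 * v ^ 4 * (M * n) ^ 2 / (2 * (v ^ 2 / s))) := by
    rw [← hR2]
    refine hA.trans (mul_le_mul_of_nonneg_left (add_le_add ?_ le_rfl) (by positivity))
    exact mul_le_mul_of_nonneg_left (mul_le_mul_of_nonneg_left hψ (sq_nonneg R)) (by positivity)
  have hB' : pEv b n (m + 2) τ (fun J u => (∑ j, gRow v R i J u j *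
      (gRow v R l J u j - rowK v (lf v R p) l J u j)) ^ 2) ≤
      s / 2 * (6000 * v ^ 4 * (M * n) ^ 2) +
        6000 * v ^ 4 * (4 * (M * n) * (s ^ 2 * n)) / (2 * s) := by
    rw [← hR2]
    refine hB.trans (add_le_add le_rfl (div_le_div_of_nonneg_right ?_ (by positivity)))
    exact mul_le_mul_of_nonneg_left (mul_le_mul_of_nonneg_left hlam (by positivity)) (by positivity)
  have hK : Kern fun G h => clip R (kP (m := m + 1) v G h) := (kern_kP v).clip hR
  have hL : Kern (lf v R p) := (kern_lbar v p).clip hR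
  have i1 : Integrable (fun g => 2 * (∑ j, gRow v R i (plJ v g) (plU τ g) j *
      rowK v (lf v R p) l (plJ v g) (plU τ g) j) ^ 2) (gauss (Idx (m + 2))) :=
    (((Tame.sum fun j _ => (tame_rowK hK v τ i j).mul (tame_rowK hL v τ l j)).pow 2).integrable
      ).const_mul 2
  have i2 : Integrable (fun g => 2 * (∑ j, gRow v R i (plJ v g) (plU τ g) j *
      (gRow v R l (plJ v g) (plU τ g) j - rowK v (lf v R p) l (plJ v g) (plU τ g) j)) ^ 2)
      (gauss (Idx (m + 2))) :=
    (((Tame.sum fun j _ => (tame_rowK hK v τ i j).mul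
      ((tame_rowK hK v τ l j).sub (tame_rowK hL v τ l j))).pow 2).integrable).const_mul 2
  rw [pEv, ← hvdef] at hA' hB'
  rw [pEv, ← hvdef]
  refine le_trans (integral_mono_of_nonneg (ae_of_all _ fun g => sq_nonneg _) (i1.add i2)
    (ae_of_all _ fun g => ?_)) ?_
  · simp only [Pi.add_apply]
    set x := ∑ j, gRow v R i (plJ v g) (plU τ g) j * rowK v (lf v R p) l (plJ v g) (plU τ g) j
    set y := ∑ j, gRow v R i (plJ v g) (plU τ g) j *
      (gRow v R l (plJ v g) (plU τ g) j - rowK v (lf v R p) l (plJ v g) (plU τ g) j)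
    have e : ∑ j, gRow v R i (plJ v g) (plU τ g) j * gRow v R l (plJ v g) (plU τ g) j = x + y := by
      rw [← sum_add_distrib]; exact sum_congr rfl fun j _ => by ring
    rw [e]; linarith [sq_nonneg (x - y)]
  · simp only [Pi.add_apply]
    rw [integral_add i1 i2, integral_const_mul, integral_const_mul]
    refine le_trans (add_le_add (mul_le_mul_of_nonneg_left hA' zero_le_two)
      (mul_le_mul_of_nonneg_left hB' zero_le_two)) ?_
    have e : 2 * (4 * v ^ 2 * (v ^ 2 / s / 2 * (M * n * (s ^ 2 * n)) +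
        6000 * v ^ 4 * (M * n) ^ 2 / (2 * (v ^ 2 / s)))) +
        2 * (s / 2 * (6000 * v ^ 4 * (M * n) ^ 2) +
          6000 * v ^ 4 * (4 * (M * n) * (s ^ 2 * n)) / (2 * s)) =
        v ^ 4 * (n:ℝ) ^ 2 * ((24004 * M + 30000 * M ^ 2) * s) := by
      field_simp; ring
    rw [e]
    have hM2 : 24004 * M + 30000 * M ^ 2 ≤ 60000 * M ^ 2 := by
      linarith [mul_le_mul_of_nonneg_left hM (by linarith : (0:ℝ) ≤ M)]
    have := mul_le_mul_of_nonneg_left (mul_le_mul_of_nonneg_right hM2 hs.le)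
      (by positivity : 0 ≤ v ^ 4 * (n:ℝ) ^ 2)
    linarith

end pair

end Vale.Agent.P150.Weak.Gram
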