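import Vale.Agent.P150.Weak.Found.Slice
import Vale.Agent.P150.Weak.Found.Split

/-!
The inverse spin variance `1 / w` has all moments: it is at most exponential in the local field.
-/

open MeasureTheory ProbabilityTheory Finset

namespace Vale.Agent.P150.Weak.Gram

open Gap

variable {m : ℕ}

/-- `1 / w_p ≤ exp (2 (|h_p| + Σ |J_pa|))`. -/
lemma inv_vw_le {J : Mat (m + 1)} (hJ : IsCoupling J) (u : Vec (m + 1)) (p : Fin (m + 1)) :
    1 / vw J u p ≤ Real.exp (2 * (|u p| + ∑ a, |rowOf p J a|)) := by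
  set E := Real.exp (2 * (|u p| + ∑ a, |rowOf p J a|)) with hE
  have hE1 : 1 ≤ E := Real.one_le_exp (by positivity)
  set A := ∑ y : Conf m, wt J u (Fin.insertNth p true y) with hA
  set B := ∑ y : Conf m, wt J u (Fin.insertNth p false y) with hB
  have hA0 : 0 < A := sum_pos (fun y _ => Real.exp_pos _) univ_nonempty
  have hB0 : 0 < B := sum_pos (fun y _ => Real.exp_pos _) univ_nonempty
  have hd : ∀ y : Conf m, |expo J u (Fin.insertNth p true y) - expo J u (Fin.insertNth p false y)| ≤
      2 * (|u p| + ∑ a, |rowOf p J a|) := by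
    intro y
    rw [expo_insertNth hJ, expo_insertNth hJ]
    have e : ∀ s : ℝ, expo (sub p J) (subU p u + s • rowOf p J) y =
        expo (sub p J) (subU p u) y + s * ∑ a, rowOf p J a * spin y a := by
      intro s
      simp only [expo, Pi.add_apply, Pi.smul_apply, smul_eq_mul, add_mul, sum_add_distrib, mul_sum,
        mul_assoc]
      ring
    simp only [e, if_true, Bool.false_eq_true, if_false]
    have h1 : |∑ a, rowOf p J a * spin y a| ≤ ∑ a, |rowOf p J a| :=
      (abs_sum_le_sum_abs _ _).trans_eq (sum_congr rfl fun a _ => by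
        rw [abs_mul, abs_spin', mul_one])
    rw [abs_le] at h1 ⊢
    constructor <;> nlinarith [le_abs_self (u p), neg_abs_le (u p), h1.1, h1.2]
  have hAB : A ≤ E * B := by
    rw [mul_sum]
    refine sum_le_sum fun y _ => ?_
    rw [hE, wt, wt, ← Real.exp_add, Real.exp_le_exp]
    linarith [(abs_le.1 (hd y)).2]
  have hBA : B ≤ E * A := by
    rw [mul_sum]
    refine sum_le_sum fun y _ => ?_
    rw [hE, wt, wt, ← Real.exp_add, Real.exp_le_exp]
    linarith [(abs_le.1 (hd y)).1]
  have hm : mg J u p = (A - B) / (A + B) := by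
    simp only [mg, ev, mu, div_mul_eq_mul_div, ← sum_div]
    rw [sum_split p (fun x => wt J u x * spin x p), sum_split p (wt J u)]
    simp only [spin_insertNth_self, if_true, Bool.false_eq_true, if_false, mul_one, mul_neg,
      sum_neg_distrib, ← hA, ← hB, sub_eq_add_neg]
  rw [div_le_iff₀ (vw_pos J u p), vw, hm]
  have e : 1 - ((A - B) / (A + B)) ^ 2 = 4 * A * B / (A + B) ^ 2 := by field_simp; ring
  rw [e, ← mul_div_assoc, one_le_div (by positivity)]
  nlinarith [mul_le_mul_of_nonneg_left hAB hA0.le, mul_le_mul_of_nonneg_left hBA hB0.le,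
    mul_le_mul_of_nonneg_right hE1 (mul_nonneg hA0.le hB0.le)]

lemma continuous_vw (p : Fin m) : Continuous fun q : Mat m × Vec m => vw q.1 q.2 p :=
  continuous_const.sub ((continuous_mg p).pow 2)

lemma continuous_inv_vw (p : Fin m) : Continuous fun q : Mat m × Vec m => 1 / vw q.1 q.2 p :=
  continuous_const.div (continuous_vw p) fun q => (vw_pos _ _ p).ne'

lemma integrable_exp_abs (c : ℝ) :
    Integrable (fun x : ℝ => Real.exp (c * |x|)) (gaussianReal 0 1) := by
  refine ((integrable_exp_mul_gaussianReal c).add (integrable_exp_mul_gaussianReal (-c))).mono'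
    (by fun_prop) (ae_of_all _ fun x => ?_)
  rw [Real.norm_eq_abs, Real.abs_exp, Pi.add_apply]
  rcases abs_cases x with ⟨h, -⟩ | ⟨h, -⟩ <;> rw [h]
  · linarith [Real.exp_pos (-c * x)]
  · rw [mul_neg, ← neg_mul]; linarith [Real.exp_pos (c * x)]

lemma integrable_exp_sum_abs {ι : Type*} [Fintype ι] (a c : ℝ) :
    Integrable (fun g : ι → ℝ => Real.exp (a + c * ∑ k, |g k|)) (gauss ι) := by
  have h : Integrable (fun g : ι → ℝ => ∏ k, Real.exp (c * |g k|)) (gauss ι) :=
    Integrable.fintype_prod (f := fun _ x => Real.exp (c * |x|)) fun _ => integrable_exp_abs c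
  refine (h.const_mul (Real.exp a)).congr (ae_of_all _ fun g => ?_)
  simp only [← Real.exp_sum, ← Real.exp_add, mul_sum]

/-- `1 / w_p` is integrable in the planted family. -/
lemma integrable_inv_vw (v τ : ℝ) (p : Fin (m + 1)) :
    Integrable (fun g => 1 / vw (plJ v g) (plU τ g) p) (gauss (Idx (m + 1))) := by
  refine (integrable_exp_sum_abs (2 * (|τ| + m * |v|)) (2 * (√τ + m * √v))).mono'
    ((continuous_inv_vw p).comp (f := fun g : Idx (m + 1) → ℝ => (plJ v g, plU τ g))
      (by fun_prop)).aestronglyMeasurable (ae_of_all _ fun g => ?_)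
  set S := ∑ k, |g k| with hS
  have hk : ∀ k, |g k| ≤ S := fun k =>
    single_le_sum (f := fun k => |g k|) (fun j _ => abs_nonneg _) (mem_univ k)
  have hS0 : 0 ≤ S := sum_nonneg fun j _ => abs_nonneg _
  rw [Real.norm_eq_abs, abs_of_nonneg (one_div_nonneg.2 (vw_pos _ _ p).le)]
  refine (inv_vw_le (isCoupling_plJ v g) _ p).trans (Real.exp_le_exp.2 ?_)
  have hu : |plU τ g p| ≤ |τ| + √τ * S := by
    refine (abs_add_le _ _).trans (add_le_add le_rfl ?_)
    rw [abs_mul, abs_of_nonneg (Real.sqrt_nonneg τ)]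
    exact mul_le_mul_of_nonneg_left (hk _) (Real.sqrt_nonneg τ)
  have hJ : ∀ a, |rowOf p (plJ v g) a| ≤ |v| + √v * S := by
    intro a
    simp only [rowOf, plJ, if_neg (Fin.succAbove_ne p a).symm]
    refine (abs_add_le _ _).trans (add_le_add le_rfl ?_)
    rw [abs_mul, abs_of_nonneg (Real.sqrt_nonneg v)]
    refine mul_le_mul_of_nonneg_left ?_ (Real.sqrt_nonneg v)
    unfold Gap.sym
    split_ifs
    · exact hk _
    · exact hk _
    · simpa using hS0
  have hsum : ∑ a, |rowOf p (plJ v g) a| ≤ (m:ℝ) * (|v| + √v * S) := by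
    refine (sum_le_sum fun a _ => hJ a).trans_eq ?_
    simp [mul_add]
  linarith

end Vale.Agent.P150.Weak.Gram
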