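import Vale.Agent.P150.Weak.Gram.Kplus
import Vale.Agent.P150.Weak.Gram.Weight

/-!
Removing a spin: the third cumulant is, up to `o(√n)` in mean square, the kernel `K₊` of the system
without the spin, extended by zero.
-/

open MeasureTheory ProbabilityTheory Finset

namespace Vale.Agent.P150.Weak.Gram

open Gap

variable {m : ℕ}

attribute [local irreducible] cm2 cm3 cm4 kP mg vw op plJ plU

/-- `K₊` of the system without the spin `p`, extended by zero. -/
noncomputable def lam (v : ℝ) (p : Fin (m + 1)) (G : Mat (m + 1)) (h : Vec (m + 1)) : Ten (m + 1) :=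
  emb p (kP v (sub p G) (subU p h))

/-- The excess of `‖T‖` over `ρ`, squared. -/
noncomputable def exc (ρ : ℝ) (T : Ten m) : ℝ := max (nrm T - ρ) 0 ^ 2

lemma exc_nonneg (ρ : ℝ) (T : Ten m) : 0 ≤ exc ρ T := sq_nonneg _

lemma continuous_exc (ρ : ℝ) : Continuous (exc (m := m) ρ) :=
  ((continuous_nrm.sub continuous_const).max continuous_const).pow 2

lemma exc_le (ρ : ℝ) (hρ : 0 ≤ ρ) (T : Ten m) : exc ρ T ≤ sq3 T := by
  rw [exc, ← nrm_sq]
  exact pow_le_pow_left₀ (le_max_right _ _) (max_le (by linarith) (nrm_nonneg T)) 2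

lemma exc_le_ui {ρ c : ℝ} (hρ : 0 ≤ ρ) (hc : c ≤ ρ ^ 2) (T : Ten m) :
    exc ρ T ≤ if c < sq3 T then sq3 T else 0 := by
  split_ifs with h
  · exact exc_le ρ hρ T
  · have h1 : nrm T ≤ ρ := le_of_sq_le_sq (by rw [nrm_sq]; linarith [not_lt.1 h]) hρ
    rw [exc, max_eq_right (sub_nonpos.2 h1), sq, zero_mul]

lemma sq3_cm3_le (J : Mat m) (u : Vec m) : sq3 (cm3 J u) ≤ (m:ℝ) ^ 3 * 8 ^ 2 :=
  sq3_le_of_bound (m := m) (F := fun _ => cm3 J u) (fun _ _ _ => continuous_const)
    (fun _ a c e => abs_cm3_le J u a c e) 0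

lemma sq3_kP_le (v : ℝ) (G : Mat m) (h : Vec m) : sq3 (kP v G h) ≤ (m:ℝ) ^ 3 * 8 ^ 2 :=
  sq3_le_of_bound (m := m) (F := fun _ => kP v G h) (fun _ _ _ => continuous_const)
    (fun _ a c e => abs_kP_le v G h a c e) 0

lemma continuous_cm3' : Continuous fun q : Mat m × Vec m => cm3 q.1 q.2 :=
  continuous_pi fun a => continuous_pi fun c => continuous_pi fun e => continuous_cm3 a c e

lemma continuous_kP' (v : ℝ) : Continuous fun q : Mat m × Vec m => kP v q.1 q.2 :=
  continuous_pi fun a => continuous_pi fun c => continuous_pi fun e => continuous_kP v a c e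

lemma continuous_sq3' : Continuous (sq3 (m := m)) :=
  continuous_sq3_comp fun _ _ _ => by fun_prop

lemma continuous_emb (p : Fin (m + 1)) : Continuous (emb p : Ten m → Ten (m + 1)) := by
  refine continuous_pi fun x => continuous_pi fun y => continuous_pi fun z => ?_
  rcases Fin.eq_self_or_eq_succAbove p x with rfl | ⟨a, rfl⟩
  · simp only [emb_zero x _ x y z (Or.inl rfl)]; exact continuous_const
  rcases Fin.eq_self_or_eq_succAbove p y with rfl | ⟨c, rfl⟩
  · simp only [emb_zero y _ _ y z (Or.inr (Or.inl rfl))]; exact continuous_const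
  rcases Fin.eq_self_or_eq_succAbove p z with rfl | ⟨e, rfl⟩
  · simp only [emb_zero z _ _ _ z (Or.inr (Or.inr rfl))]; exact continuous_const
  · simp only [emb_succ]; fun_prop

lemma continuous_lam (v : ℝ) (p : Fin (m + 1)) :
    Continuous fun q : Mat (m + 1) × Vec (m + 1) => lam v p q.1 q.2 :=
  (continuous_emb p).comp ((continuous_kP' v).comp
    (f := fun q : Mat (m + 1) × Vec (m + 1) => (sub p q.1, subU p q.2)) (by unfold sub subU; fun_prop))

@[fun_prop]
lemma continuous_subMat (p : Fin (m + 1)) : Continuous fun J : Mat (m + 1) => sub p J := by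
  unfold sub; fun_prop

@[fun_prop]
lemma continuous_subVec (p : Fin (m + 1)) : Continuous fun u : Vec (m + 1) => subU p u := by
  unfold subU; fun_prop

@[fun_prop]
lemma continuous_rowVec (p : Fin (m + 1)) : Continuous fun J : Mat (m + 1) => rowOf p J := by
  unfold rowOf; fun_prop

/-- Continuity of a row average of a function of couplings, fields and row. -/
lemma continuous_avg3 {ψ : Mat m → Vec m → Vec m → ℝ}
    (hc : Continuous fun q : (Mat m × Vec m) × Vec m => ψ q.1.1 q.1.2 q.2) {B : ℝ}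
    (hB : ∀ G h x, |ψ G h x| ≤ B) (v : ℝ) :
    Continuous fun q : Mat m × Vec m => ∫ r, ψ q.1 q.2 (row v r) ∂gauss (Fin m) :=
  continuous_of_dominated
    (fun q => (hc.comp (f := fun r : Vec m => (q, row v r)) (by fun_prop)).aestronglyMeasurable)
    (fun q => ae_of_all _ fun r => hB _ _ _) (integrable_const B)
    (ae_of_all _ fun r => hc.comp (f := fun q : Mat m × Vec m => (q, row v r)) (by fun_prop))

lemma abs_avg3_le {ψ : Mat m → Vec m → Vec m → ℝ} {B : ℝ} (hB : ∀ G h x, |ψ G h x| ≤ B) (v : ℝ)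
    (G : Mat m) (h : Vec m) : |∫ r, ψ G h (row v r) ∂gauss (Fin m)| ≤ B := by
  have := norm_integral_le_of_norm_le_const (μ := gauss (Fin m))
    (f := fun r => ψ G h (row v r)) (C := B) (ae_of_all _ fun r => hB _ _ _)
  rw [probReal_univ, mul_one] at this
  exact this

section planted

variable {b : ℝ} {n : ℕ} {τ : ℝ}

lemma pEv_exc {ρ c ε : ℝ} (hρ : 0 ≤ ρ) (hc : c ≤ ρ ^ 2)
    (hU : pEv b n m τ (fun J u => if c < sq3 (cm3 J u) then sq3 (cm3 J u) else 0) ≤ ε) :
    pEv b n m τ (fun J u => exc ρ (cm3 J u)) ≤ ε := by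
  refine le_trans (integral_mono ?_ ?_ fun g => exc_le_ui hρ hc _) hU
  · exact integrable_planted (F := fun J u => exc ρ (cm3 J u))
      ((continuous_exc ρ).comp continuous_cm3') (B := (m:ℝ) ^ 3 * 8 ^ 2) (fun J u => by
        rw [abs_of_nonneg (exc_nonneg _ _)]
        exact (exc_le ρ hρ _).trans (sq3_cm3_le J u)) _ _
  · have hm : Measurable fun g : Idx m → ℝ => sq3 (cm3 (plJ (b ^ 2 / n) g) (plU τ g)) :=
      ((continuous_sq3'.comp continuous_cm3').comp (continuous_sample b n τ)).measurable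
    refine Integrable.of_bound (Measurable.ite (measurableSet_lt measurable_const hm) hm
      measurable_const).aestronglyMeasurable ((m:ℝ) ^ 3 * 8 ^ 2) (ae_of_all _ fun g => ?_)
    rw [Real.norm_eq_abs]
    split_ifs
    · rw [abs_of_nonneg (sq3_nonneg _)]; exact sq3_cm3_le _ _
    · rw [abs_zero]; positivity

lemma pEv_exc_kP {ρ : ℝ} (hρ : 0 ≤ ρ) (hτ : 0 ≤ τ) :
    pEv b n m τ (fun G h => exc ρ (kP (b ^ 2 / n) G h)) ≤
      pEv b n m (τ + b ^ 2 / n) fun J u => exc ρ (cm3 J u) := by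
  have hc : Continuous fun q : Mat m × Vec m => exc ρ (cm3 q.1 q.2) :=
    (continuous_exc ρ).comp continuous_cm3'
  have hB : ∀ J u, |exc ρ (cm3 J u : Ten m)| ≤ (m:ℝ) ^ 3 * 8 ^ 2 := fun J u => by
    rw [abs_of_nonneg (exc_nonneg _ _)]
    exact (exc_le ρ hρ _).trans (sq3_cm3_le J u)
  have hcA : Continuous fun q : Mat m × Vec m =>
      ∫ r, exc ρ (cm3 q.1 (q.2 + row (b ^ 2 / (n:ℝ)) r)) ∂gauss (Fin m) :=
    continuous_avg (φ := fun J u => exc ρ (cm3 J u)) hc hB _
  have hcK : Continuous fun q : Mat m × Vec m => exc ρ (kP (b ^ 2 / (n:ℝ)) q.1 q.2) :=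
    (continuous_exc ρ).comp (continuous_kP' _)
  have hBK : ∀ G h, |exc ρ (kP (b ^ 2 / (n:ℝ)) G h : Ten m)| ≤ (m:ℝ) ^ 3 * 8 ^ 2 := fun G h => by
    rw [abs_of_nonneg (exc_nonneg _ _)]
    exact (exc_le ρ hρ _).trans (sq3_kP_le _ G h)
  have hBA : ∀ G h, |∫ r, exc ρ (cm3 G (h + row (b ^ 2 / (n:ℝ)) r)) ∂gauss (Fin m)| ≤
      (m:ℝ) ^ 3 * 8 ^ 2 := fun G h => abs_avg_le (φ := fun J u => exc ρ (cm3 J u)) hB _ G h
  have iK := integrable_planted (F := fun G h => exc ρ (kP (b ^ 2 / (n:ℝ)) G h)) hcK hBK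
    (b ^ 2 / n) τ
  have iA := integrable_planted
    (F := fun G h => ∫ r, exc ρ (cm3 G (h + row (b ^ 2 / (n:ℝ)) r)) ∂gauss (Fin m)) hcA hBA
    (b ^ 2 / n) τ
  have hle : ∀ G h, exc ρ (kP (b ^ 2 / (n:ℝ)) G h) ≤
      ∫ r, exc ρ (cm3 G (h + row (b ^ 2 / (n:ℝ)) r)) ∂gauss (Fin m) := fun G h => by
    rw [kP]
    exact exc_avT_le (continuous_cm3_add _ G h) (fun _ => abs_cm3_le _ _) ρ
  rw [← pEv_avg (φ := fun J u => exc ρ (cm3 J u)) hτ hc hB, pEv, pEv]
  exact integral_mono iK iA fun g => hle _ _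

/-- The variance of `T(h + x)` around `K₊`. -/
noncomputable def varP (v : ℝ) (G : Mat m) (h : Vec m) : ℝ :=
  ∫ r, sq3 (cm3 G (h + row v r) - kP v G h) ∂gauss (Fin m)

lemma abs_sq3_dev_le (v : ℝ) (G : Mat m) (h x : Vec m) :
    |sq3 (cm3 G x - kP v G h)| ≤ (m:ℝ) ^ 3 * 16 ^ 2 := by
  rw [abs_of_nonneg (sq3_nonneg _)]
  exact sq3_le_of_bound (m := m) (F := fun _ => cm3 G x - kP v G h)
    (fun _ _ _ => continuous_const) (fun _ a c e => (abs_sub _ _).trans
      (by linarith [abs_cm3_le G x a c e, abs_kP_le v G h a c e])) 0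

lemma continuous_varP (v : ℝ) : Continuous fun q : Mat m × Vec m => varP v q.1 q.2 :=
  continuous_avg3 (ψ := fun G h x => sq3 (cm3 G (h + x) - kP v G h))
    (continuous_sq3'.comp
      ((continuous_cm3'.comp (f := fun q : (Mat m × Vec m) × Vec m => (q.1.1, q.1.2 + q.2))
        (by fun_prop)).sub ((continuous_kP' v).comp continuous_fst)))
    (fun G h x => abs_sq3_dev_le v G h (h + x)) v

lemma abs_varP_le (v : ℝ) (G : Mat m) (h : Vec m) : |varP v G h| ≤ (m:ℝ) ^ 3 * 16 ^ 2 :=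
  abs_avg3_le (ψ := fun G h x => sq3 (cm3 G (h + x) - kP v G h))
    (fun G h x => abs_sq3_dev_le v G h (h + x)) v G h

lemma pEv_varP (hτ : 0 ≤ τ) :
    pEv b n m τ (varP (b ^ 2 / n)) ≤
      b ^ 2 / n * pEv b n m (τ + b ^ 2 / n) fun J u => sq4 (cm4 J u) := by
  have hB : ∀ J u, |sq4 (cm4 J u : Fin m → Fin m → Mat m)| ≤ 4096 * (m:ℝ) ^ 4 := fun J u => by
    rw [abs_of_nonneg (sq4_nonneg J u)]; exact sq4_le_card J u
  have hcA : Continuous fun q : Mat m × Vec m =>
      ∫ r, sq4 (cm4 q.1 (q.2 + row (b ^ 2 / (n:ℝ)) r)) ∂gauss (Fin m) :=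
    continuous_avg (φ := fun J u => sq4 (cm4 J u)) continuous_sq4 hB _
  have hBA : ∀ G h, |∫ r, sq4 (cm4 G (h + row (b ^ 2 / (n:ℝ)) r)) ∂gauss (Fin m)| ≤
      4096 * (m:ℝ) ^ 4 := fun G h => abs_avg_le (φ := fun J u => sq4 (cm4 J u)) hB _ G h
  have iV := integrable_planted (F := fun (G : Mat m) (h : Vec m) => varP (b ^ 2 / (n:ℝ)) G h)
    (continuous_varP (b ^ 2 / (n:ℝ))) (B := (m:ℝ) ^ 3 * 16 ^ 2) (abs_varP_le (b ^ 2 / (n:ℝ))) (b ^ 2 / (n:ℝ)) τ
  have iA := (integrable_planted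
    (F := fun G h => ∫ r, sq4 (cm4 G (h + row (b ^ 2 / (n:ℝ)) r)) ∂gauss (Fin m)) hcA hBA
    (b ^ 2 / n) τ).const_mul (b ^ 2 / (n:ℝ))
  have hle : ∀ G h, varP (b ^ 2 / (n:ℝ)) G h ≤
      b ^ 2 / n * ∫ r, sq4 (cm4 G (h + row (b ^ 2 / (n:ℝ)) r)) ∂gauss (Fin m) := fun G h =>
    kP_var (by positivity) G h
  rw [← pEv_avg (φ := fun J u => sq4 (cm4 J u)) hτ continuous_sq4 hB, pEv, pEv,
    ← integral_const_mul]
  exact integral_mono iV iA fun g => hle _ _

lemma vm_le (hmn : m ≤ n) : b ^ 2 / (n:ℝ) * m ≤ b ^ 2 := by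
  rcases Nat.eq_zero_or_pos n with rfl | hn
  · simp; positivity
  · rw [div_mul_eq_mul_div, div_le_iff₀ (by positivity)]
    exact mul_le_mul_of_nonneg_left (by exact_mod_cast hmn) (sq_nonneg b)

lemma shiftA_le (hmn : m ≤ n) : shiftA (b ^ 2 / n) m ≤ Real.exp (4 * b ^ 2) - 1 := by
  unfold shiftA
  have := vm_le (b := b) hmn
  exact sub_le_sub_right (Real.exp_le_exp.2 (by linarith)) _

end planted

/-- The capped deviation of the subsystem cumulant from `K₊`. -/
noncomputable def dev (v θ : ℝ) (G : Mat m) (h x : Vec m) : ℝ :=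
  min 1 (sq3 (cm3 G x - kP v G h) / θ)

lemma dev_nonneg {θ : ℝ} (hθ : 0 < θ) (v : ℝ) (G : Mat m) (h x : Vec m) : 0 ≤ dev v θ G h x :=
  le_min zero_le_one (div_nonneg (sq3_nonneg _) hθ.le)

lemma abs_dev_le {θ : ℝ} (hθ : 0 < θ) (v : ℝ) (G : Mat m) (h x : Vec m) : |dev v θ G h x| ≤ 1 := by
  rw [abs_of_nonneg (dev_nonneg hθ v G h x)]; exact min_le_left _ _

lemma continuous_dev (v θ : ℝ) :
    Continuous fun q : (Mat m × Vec m) × Vec m => dev v θ q.1.1 q.1.2 q.2 :=
  continuous_const.min ((continuous_sq3'.comp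
    ((continuous_cm3'.comp (f := fun q : (Mat m × Vec m) × Vec m => (q.1.1, q.2)) (by fun_prop)).sub
      ((continuous_kP' v).comp continuous_fst))).div_const _)

section planted

variable {b : ℝ} {n : ℕ} {τ : ℝ}

/-- The mean deviations on the two slices. -/
lemma pEv_dev {θ t : ℝ} (hθ : 0 < θ) (ht : 0 < t) (hτ : 0 ≤ τ) (hmn : m ≤ n) (p : Fin (m + 1)) :
    pEv b n (m + 1) τ (fun J u =>
        dev (b ^ 2 / n) θ (sub p J) (subU p u) (subU p u + rowOf p J)) ≤
      1 / θ * (b ^ 2 / n * pEv b n m (τ + b ^ 2 / n) fun J u => sq4 (cm4 J u)) ∧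
    pEv b n (m + 1) τ (fun J u =>
        dev (b ^ 2 / n) θ (sub p J) (subU p u) (subU p u - rowOf p J)) ≤
      (1 + 1 / (2 * t)) *
          (1 / θ * (b ^ 2 / n * pEv b n m (τ + b ^ 2 / n) fun J u => sq4 (cm4 J u))) +
        t * (Real.exp (4 * b ^ 2) - 1) / 2 := by
  set v := b ^ 2 / (n:ℝ)
  have hv : 0 ≤ v := by positivity
  set S := b ^ 2 / (n:ℝ) * pEv b n m (τ + b ^ 2 / n) fun J u => sq4 (cm4 J u) with hS
  have hsub : Continuous fun q : Mat (m + 1) × Vec (m + 1) => (sub p q.1, subU p q.2) := by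
    unfold sub subU; fun_prop
  have hrow : Continuous fun q : Mat (m + 1) × Vec (m + 1) => rowOf p q.1 := by
    unfold rowOf; fun_prop
  have hplus : Continuous fun q : Mat m × Vec m =>
      ∫ r, dev v θ q.1 q.2 (q.2 + row v r) ∂gauss (Fin m) :=
    continuous_avg3 (ψ := fun G h x => dev v θ G h (h + x))
      ((continuous_dev v θ).comp (f := fun q : (Mat m × Vec m) × Vec m => (q.1, q.1.2 + q.2))
        (by fun_prop)) (fun G h x => abs_dev_le hθ v G h _) v
  have hminus : Continuous fun q : Mat m × Vec m =>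
      ∫ r, dev v θ q.1 q.2 (q.2 - row v r) ∂gauss (Fin m) :=
    continuous_avg3 (ψ := fun G h x => dev v θ G h (h - x))
      ((continuous_dev v θ).comp (f := fun q : (Mat m × Vec m) × Vec m => (q.1, q.1.2 - q.2))
        (by fun_prop)) (fun G h x => abs_dev_le hθ v G h _) v
  have hbp : ∀ G h, |∫ r, dev v θ G h (h + row v r) ∂gauss (Fin m)| ≤ 1 := fun G h =>
    abs_avg3_le (ψ := fun G h x => dev v θ G h (h + x)) (fun G h x => abs_dev_le hθ v G h _) v G h
  have hbm : ∀ G h, |∫ r, dev v θ G h (h - row v r) ∂gauss (Fin m)| ≤ 1 := fun G h =>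
    abs_avg3_le (ψ := fun G h x => dev v θ G h (h - x)) (fun G h x => abs_dev_le hθ v G h _) v G h
  have ip := integrable_planted (F := fun G h => ∫ r, dev v θ G h (h + row v r) ∂gauss (Fin m))
    hplus hbp v τ
  have im := integrable_planted (F := fun G h => ∫ r, dev v θ G h (h - row v r) ∂gauss (Fin m))
    hminus hbm v τ
  have hj : ∀ G h, ∫ r, dev v θ G h (h + row v r) ∂gauss (Fin m) ≤ 1 / θ * varP v G h := by
    intro G h
    have c1 : Continuous fun r : Vec m => dev v θ G h (h + row v r) :=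
      (continuous_dev v θ).comp (f := fun r : Vec m => ((G, h), h + row v r)) (by fun_prop)
    have c2 : Continuous fun r : Vec m => sq3 (cm3 G (h + row v r) - kP v G h) :=
      continuous_sq3_comp fun a c e => (continuous_cm3_add v G h a c e).sub continuous_const
    have i1 : Integrable (fun r : Vec m => dev v θ G h (h + row v r)) (gauss (Fin m)) :=
      integrable_gauss_bound c1 fun r => abs_dev_le hθ v G h _
    have i2 : Integrable (fun r : Vec m => 1 / θ * sq3 (cm3 G (h + row v r) - kP v G h))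
        (gauss (Fin m)) :=
      (integrable_gauss_bound c2 fun r => abs_sq3_dev_le v G h _).const_mul _
    rw [varP, ← integral_const_mul]
    refine integral_mono i1 i2 fun r => ?_
    simp only [dev, one_div_mul_eq_div]
    exact min_le_right _ _
  have iv := integrable_planted (F := fun (G : Mat m) (h : Vec m) => varP v G h) (continuous_varP v)
    (B := (m:ℝ) ^ 3 * 16 ^ 2) (abs_varP_le v) v τ
  have h1 : ∫ g, (∫ r, dev v θ (plJ v g) (plU τ g) (plU τ g + row v r) ∂gauss (Fin m))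
      ∂gauss (Idx m) ≤ 1 / θ * S := by
    refine le_trans (integral_mono ip (iv.const_mul (1 / θ)) fun g => hj _ _) ?_
    rw [integral_const_mul]
    refine mul_le_mul_of_nonneg_left ?_ (by positivity)
    have h := pEv_varP (b := b) (n := n) (m := m) hτ
    rw [pEv] at h
    exact h
  constructor
  · rw [pEv_row (F := fun J u => dev v θ (sub p J) (subU p u) (subU p u + rowOf p J)) p
      (fun G h x => dev v θ G h (h + x)) (integrable_planted
      (F := fun J u => dev v θ (sub p J) (subU p u) (subU p u + rowOf p J))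
      ((continuous_dev v θ).comp (f := fun q : Mat (m + 1) × Vec (m + 1) =>
        ((sub p q.1, subU p q.2), subU p q.2 + rowOf p q.1)) (by fun_prop))
      (fun J u => abs_dev_le hθ v _ _ _) _ _) fun g => rfl]
    exact h1
  · rw [pEv_row (F := fun J u => dev v θ (sub p J) (subU p u) (subU p u - rowOf p J)) p
      (fun G h x => dev v θ G h (h - x)) (integrable_planted
      (F := fun J u => dev v θ (sub p J) (subU p u) (subU p u - rowOf p J))
      ((continuous_dev v θ).comp (f := fun q : Mat (m + 1) × Vec (m + 1) =>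
        ((sub p q.1, subU p q.2), subU p q.2 - rowOf p q.1)) (by fun_prop))
      (fun J u => abs_dev_le hθ v _ _ _) _ _) fun g => rfl]
    have it : Integrable (fun g => (1 + 1 / (2 * t)) *
        ∫ r, dev v θ (plJ v g) (plU τ g) (plU τ g + row v r) ∂gauss (Fin m)) (gauss (Idx m)) :=
      ip.const_mul _
    refine le_trans (integral_mono im (it.add (integrable_const (t * shiftA v m / 2))) fun g =>
      avg_subRow_le hv ht _ ((continuous_dev v θ).comp
        (f := fun x : Vec m => ((plJ v g, plU τ g), x)) (by fun_prop))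
        (dev_nonneg hθ v _ _) fun x => min_le_left _ _) ?_
    simp only [Pi.add_apply]
    rw [integral_add it (integrable_const _), integral_const_mul, integral_const, probReal_univ,
      one_smul]
    have h2 := mul_le_mul_of_nonneg_left h1 (by positivity : (0:ℝ) ≤ 1 + 1 / (2 * t))
    have h3 := mul_le_mul_of_nonneg_left (shiftA_le (b := b) hmn) ht.le
    linarith

end planted

lemma sq2_single_le (T : Mat (m + 1)) (p : Fin (m + 1)) :
    ∑ a, ∑ z, T (p.succAbove a) z ^ 2 ≤ sq2 T := by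
  rw [sq2, Fin.sum_univ_succAbove _ p]
  exact le_add_of_nonneg_left (sum_nonneg fun z _ => sq_nonneg _)

lemma sum_rest_le (f : Fin (m + 1) → ℝ) (p : Fin (m + 1)) :
    ∑ a, f (p.succAbove a) ^ 2 ≤ ∑ z, f z ^ 2 := by
  rw [Fin.sum_univ_succAbove (fun z => f z ^ 2) p]
  exact le_add_of_nonneg_left (sq_nonneg _)

/-- The index `p` carries at most three slices of a symmetric tensor. -/
lemma sq3_sub_emb_le (T : Ten (m + 1)) (h12 : ∀ x y z, T x y z = T y x z)
    (h23 : ∀ x y z, T x y z = T x z y) (p : Fin (m + 1)) (K : Ten m) :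
    sq3 (T - emb p K) ≤ 3 * sq2 (T p) +
      ∑ a, ∑ c, ∑ e, (T (p.succAbove a) (p.succAbove c) (p.succAbove e) - K a c e) ^ 2 := by
  have z1 : ∀ y z, emb p K p y z = 0 := fun y z => emb_zero p K p y z (Or.inl rfl)
  have z2 : ∀ x z, emb p K x p z = 0 := fun x z => emb_zero p K x p z (Or.inr (Or.inl rfl))
  have z3 : ∀ x y, emb p K x y p = 0 := fun x y => emb_zero p K x y p (Or.inr (Or.inr rfl))
  have b2 : ∑ a, ∑ z, T (p.succAbove a) p z ^ 2 ≤ sq2 (T p) := by
    refine le_of_eq_of_le (sum_congr rfl fun a _ => sum_congr rfl fun z _ => ?_)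
      (sq2_single_le (T p) p)
    rw [h12]
  have b3 : ∑ a, ∑ c, T (p.succAbove a) (p.succAbove c) p ^ 2 ≤ sq2 (T p) := by
    refine le_trans (le_of_eq_of_le (sum_congr rfl fun a _ => sum_congr rfl fun c _ => ?_)
      (sum_le_sum fun a _ => sum_rest_le (fun z => T p (p.succAbove a) z) p))
      (sq2_single_le (T p) p)
    rw [h23, h12]
  have e1 : sq3 (T - emb p K) = sq2 (T p) + (∑ a, ∑ z, T (p.succAbove a) p z ^ 2 +
      (∑ a, ∑ c, T (p.succAbove a) (p.succAbove c) p ^ 2 +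
        ∑ a, ∑ c, ∑ e, (T (p.succAbove a) (p.succAbove c) (p.succAbove e) - K a c e) ^ 2)) := by
    simp only [sq3, sq2]
    rw [Fin.sum_univ_succAbove _ p]
    congr 1
    · simp only [Pi.sub_apply, z1, sub_zero]
    rw [← sum_add_distrib, ← sum_add_distrib]
    refine sum_congr rfl fun a _ => ?_
    rw [Fin.sum_univ_succAbove _ p]
    congr 1
    · simp only [Pi.sub_apply, z2, sub_zero]
    rw [← sum_add_distrib]
    refine sum_congr rfl fun c _ => ?_
    rw [Fin.sum_univ_succAbove _ p]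
    simp only [Pi.sub_apply, z3, sub_zero, emb_succ]
  linarith

lemma sq_four_le (x y z t : ℝ) :
    (x + y + z + t) ^ 2 ≤ 4 * (x ^ 2 + y ^ 2 + z ^ 2 + t ^ 2) := by
  linarith [sq_nonneg (x - y), sq_nonneg (x - z), sq_nonneg (x - t), sq_nonneg (y - z),
    sq_nonneg (y - t), sq_nonneg (z - t)]

/-- On good samples the removal error is `O(A⁵ √‖T4‖² + A¹²)` beyond the two slice deviations. -/
lemma removal_pointwise {J : Mat (m + 1)} (hJ : IsCoupling J) (u : Vec (m + 1)) (p : Fin (m + 1))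
    (v : ℝ) {A L : ℝ} (hA : 0 ≤ A) (hY : op (cm2 J u) ≤ A) (hw : 1 / vw J u p ≤ A) (hL : 0 ≤ L)
    (h4 : sq4 (cm4 J u) ≤ L ^ 2) :
    sq3 (cm3 J u - lam v p J u) ≤ (3 + 24 * A ^ 4) * (A * (L + 2 * A ^ 2)) + 128 * A ^ 12 +
      2 * (sq3 (cm3 (sub p J) (subU p u + rowOf p J) - kP v (sub p J) (subU p u)) +
        sq3 (cm3 (sub p J) (subU p u - rowOf p J) - kP v (sub p J) (subU p u))) := by
  set Y := op (cm2 J u) with hYdef
  have hY0 : 0 ≤ Y := op_nonneg _
  set T := cm3 J u with hT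
  set d := del p mg J u with hd
  set D := sq1 d with hD
  set K := kP v (sub p J) (subU p u) with hK
  set Tp := cm3 (sub p J) (subU p u + rowOf p J) with hTp
  set Tm := cm3 (sub p J) (subU p u - rowOf p J) with hTm
  set mp := mg J u p with hmp
  set w := vw J u p with hwdef
  have hS : sq2 (T p) ≤ A * (L + 2 * A ^ 2) := by
    have h := sq2_app_le J u (Pi.single p 1)
    have e : app (cm3 J u) (Pi.single p 1) = T p := by
      funext i j
      simp [app, Pi.single_apply, hT]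
    have e2 : sq1 (Pi.single p (1:ℝ) : Vec (m + 1)) = 1 := by simp [sq1, Pi.single_apply]
    rw [e, e2, mul_one] at h
    refine h.trans (mul_le_mul hY ?_ (by positivity) hA)
    have h5 := (Real.sqrt_le_sqrt h4).trans_eq (Real.sqrt_sq hL)
    have h6 := pow_le_pow_left₀ hY0 hY 2
    linarith
  have hD4 : D ≤ A ^ 4 := by
    have h := sq1_mulVec_le (cm2 J u) (Pi.single p 1)
    simp only [Pi.single_apply, sq1, ite_pow, one_pow, ne_eq, OfNat.ofNat_ne_zero,
      not_false_eq_true, zero_pow, mul_ite, mul_one, mul_zero, sum_ite_eq', mem_univ, if_true] at h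
    have h' : w ^ 2 * D ≤ A ^ 2 := by
      refine le_trans (le_trans (le_of_eq ?_) (sum_rest_le (fun z => cm2 J u z p) p))
        (h.trans (pow_le_pow_left₀ hY0 hY 2))
      rw [hD, sq1, mul_sum]
      exact sum_congr rfl fun a _ => by rw [cm2_comm, cm2_self_rest hJ, ← hd, ← hwdef]; ring
    have hw0 : 0 < w := vw_pos J u p
    have hw2 : 1 ≤ A * w := by rwa [div_le_iff₀ hw0] at hw
    calc D = 1 ^ 2 * D := by ring
      _ ≤ (A * w) ^ 2 * D :=
          mul_le_mul_of_nonneg_right (pow_le_pow_left₀ zero_le_one hw2 2)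
            (sum_nonneg fun i _ => sq_nonneg _)
      _ = A ^ 2 * (w ^ 2 * D) := by ring
      _ ≤ A ^ 2 * A ^ 2 := mul_le_mul_of_nonneg_left h' (sq_nonneg A)
      _ = A ^ 4 := by ring
  set R := fun a c e : Fin m => T p (p.succAbove c) (p.succAbove e) * d a with hR
  have hpt : ∀ a c e, (T (p.succAbove a) (p.succAbove c) (p.succAbove e) - K a c e) ^ 2 ≤
      2 * ((Tp a c e - K a c e) ^ 2 + (Tm a c e - K a c e) ^ 2) +
        8 * (R a c e ^ 2 + R c a e ^ 2 + R e a c ^ 2 + 16 * (d a ^ 2 * (d c ^ 2 * d e ^ 2))) := by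
    intro a c e
    set q := (1 + mp) / 2 with hq
    set C := R a c e + R c a e + R e a c + 4 * mp * w * (d a * d c * d e) with hC
    have e0 : T (p.succAbove a) (p.succAbove c) (p.succAbove e) - K a c e =
        q * (Tp a c e - K a c e) + (1 - q) * (Tm a c e - K a c e) + C := by
      simp only [hC, hR, hT, hq, hTp, hTm, hd, hmp, hwdef]
      rw [cm3_rest hJ, cm3_self_rest hJ, cm3_self_rest hJ, cm3_self_rest hJ]
      simp only [bar, Gram.row_apply, del, Pi.smul_apply, Pi.add_apply, Pi.sub_apply, smul_eq_mul]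
      ring
    have hmb : |mp| ≤ 1 := abs_mg_le J u p
    have hq0 : 0 ≤ q := by rw [hq]; linarith [(abs_le.1 hmb).1]
    have hq1 : 0 ≤ 1 - q := by rw [hq]; linarith [(abs_le.1 hmb).2]
    have h1 : (q * (Tp a c e - K a c e) + (1 - q) * (Tm a c e - K a c e)) ^ 2 ≤
        (Tp a c e - K a c e) ^ 2 + (Tm a c e - K a c e) ^ 2 := by
      set x := Tp a c e - K a c e
      set y := Tm a c e - K a c e
      linarith [mul_nonneg (mul_nonneg hq0 hq1) (sq_nonneg (x - y)),
        mul_le_mul_of_nonneg_right (show q ≤ 1 by linarith) (sq_nonneg x),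
        mul_le_mul_of_nonneg_right (show 1 - q ≤ 1 by linarith) (sq_nonneg y)]
    have ht : (4 * mp * w * (d a * d c * d e)) ^ 2 ≤ 16 * (d a ^ 2 * (d c ^ 2 * d e ^ 2)) := by
      have hmw : (mp * w) ^ 2 ≤ 1 := by
        rw [← sq_abs, abs_mul, abs_of_pos (vw_pos J u p)]
        exact pow_le_one₀ (mul_nonneg (abs_nonneg _) (vw_pos J u p).le)
          (mul_le_one₀ hmb (vw_pos J u p).le (vw_le_one J u p))
      calc (4 * mp * w * (d a * d c * d e)) ^ 2 =
            16 * ((mp * w) ^ 2 * (d a ^ 2 * (d c ^ 2 * d e ^ 2))) := by ring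
        _ ≤ _ := by
            refine mul_le_mul_of_nonneg_left ?_ (by norm_num)
            exact mul_le_of_le_one_left (by positivity) hmw
    have hC2 : C ^ 2 ≤ _ := sq_four_le (R a c e) (R c a e) (R e a c) _
    rw [e0]
    linarith [sq_nonneg (q * (Tp a c e - K a c e) + (1 - q) * (Tm a c e - K a c e) - C)]
  have hRs : ∑ a, ∑ c, ∑ e, R a c e ^ 2 ≤ D * sq2 (T p) := by
    simp only [hR, mul_pow, hD, sq1, sum_mul]
    refine sum_le_sum fun a _ => ?_
    rw [show d a ^ 2 * sq2 (T p) = sq2 (T p) * d a ^ 2 from mul_comm _ _]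
    simp only [← sum_mul]
    refine mul_le_mul_of_nonneg_right ?_ (sq_nonneg _)
    exact (sum_le_sum fun c _ => sum_rest_le (fun z => T p (p.succAbove c) z) p).trans
      (sq2_single_le (T p) p)
  have hR2 : ∑ a, ∑ c, ∑ e, R c a e ^ 2 = ∑ a, ∑ c, ∑ e, R a c e ^ 2 := sum_comm
  have hR3 : ∑ a, ∑ c, ∑ e, R e a c ^ 2 = ∑ a, ∑ c, ∑ e, R a c e ^ 2 :=
    (sum_congr rfl fun a _ => sum_comm).trans sum_comm
  have hD3 : ∑ a, ∑ c, ∑ e, d a ^ 2 * (d c ^ 2 * d e ^ 2) = D * (D * D) := by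
    simp only [← mul_sum, ← sum_mul, hD, sq1]
  have hrest : ∑ a, ∑ c, ∑ e, (T (p.succAbove a) (p.succAbove c) (p.succAbove e) - K a c e) ^ 2 ≤
      2 * (sq3 (Tp - K) + sq3 (Tm - K)) + 8 * (3 * (D * sq2 (T p)) + 16 * (D * (D * D))) := by
    refine (sum_le_sum fun a _ => sum_le_sum fun c _ => sum_le_sum fun e _ => hpt a c e).trans ?_
    simp only [sum_add_distrib, ← mul_sum, hR2, hR3, sq3, sq2, Pi.sub_apply] at hRs ⊢
    rw [← hD3] at *
    simp only [← mul_sum] at hRs ⊢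
    linarith
  have hD0 : 0 ≤ D := sum_nonneg fun i _ => sq_nonneg _
  have hD6 : D * (D * D) ≤ A ^ 12 := by
    calc D * (D * D) ≤ A ^ 4 * (A ^ 4 * A ^ 4) := by gcongr
      _ = _ := by ring
  have hDS := mul_le_mul hD4 hS (sq2_nonneg _) (by positivity)
  have hb := sq3_sub_emb_le T (cm3_swap12 J u) (cm3_swap23 J u) p K
  show sq3 (T - emb p K) ≤ _
  linarith

/-- A numerical threshold. -/
lemma exists_sqrt_ge (c : ℝ) {ε : ℝ} (hε : 0 < ε) :
    ∃ N : ℕ, ∀ n : ℕ, N ≤ n → 0 < n ∧ c ≤ ε * √(n:ℝ) ∧ c ≤ ε * n := by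
  obtain ⟨N, hN⟩ := exists_nat_ge ((c / ε) ^ 2)
  refine ⟨N + 1, fun n hn => ?_⟩
  have hn0 : 0 < n := by omega
  have hn1 : (1:ℝ) ≤ n := by exact_mod_cast hn0
  have h1 : c / ε ≤ √(n:ℝ) := (le_abs_self _).trans
    (Real.abs_le_sqrt (hN.trans (by exact_mod_cast (by omega : N ≤ n))))
  rw [div_le_iff₀' hε] at h1
  refine ⟨hn0, h1, h1.trans (mul_le_mul_of_nonneg_left ?_ hε.le)⟩
  calc √(n:ℝ) ≤ √((n:ℝ) * n) := Real.sqrt_le_sqrt (le_mul_of_one_le_left (by linarith) hn1)
    _ = n := Real.sqrt_mul_self (by linarith)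

/-- The three-part split of a distance. -/
lemma dist_split {d x y ρ : ℝ} (hd : 0 ≤ d) (h : d ≤ x + y) :
    d ^ 2 ≤ 3 * (min d (2 * ρ) ^ 2 + max (x - ρ) 0 ^ 2 + max (y - ρ) 0 ^ 2) := by
  have h1 : d ≤ min d (2 * ρ) + max (x - ρ) 0 + max (y - ρ) 0 := by
    rcases min_cases d (2 * ρ) with ⟨e, -⟩ | ⟨e, -⟩ <;> rw [e] <;>
      linarith [le_max_left (x - ρ) 0, le_max_left (y - ρ) 0, le_max_right (x - ρ) 0,
        le_max_right (y - ρ) 0]
  refine (pow_le_pow_left₀ hd h1 2).trans ?_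
  set a := min d (2 * ρ)
  set b := max (x - ρ) 0
  set c := max (y - ρ) 0
  linarith [sq_nonneg (a - b), sq_nonneg (b - c), sq_nonneg (a - c)]

/-- The bad part of the removal error. -/
noncomputable def badT (v θ A L : ℝ) (p : Fin (m + 1)) (J : Mat (m + 1)) (u : Vec (m + 1)) : ℝ :=
  op (cm2 J u) ^ 2 / A ^ 2 + min 1 (1 / vw J u p / A) + sq4 (cm4 J u) / L ^ 2 +
    dev v θ (sub p J) (subU p u) (subU p u + rowOf p J) +
    dev v θ (sub p J) (subU p u) (subU p u - rowOf p J)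

lemma removal_split {J : Mat (m + 1)} (hJ : IsCoupling J) (u : Vec (m + 1)) (p : Fin (m + 1))
    (v : ℝ) {θ A L c ρ : ℝ} (hθ : 0 < θ) (hA0 : 0 < A) (hL : 0 < L) (hρ : 0 ≤ ρ)
    (hc : (3 + 24 * A ^ 4) * (A * (L + 2 * A ^ 2)) + 128 * A ^ 12 + 4 * θ ≤ c) :
    sq3 (cm3 J u - lam v p J u) ≤ 3 * c + 12 * ρ ^ 2 * badT v θ A L p J u +
      3 * exc ρ (cm3 J u) + 3 * exc ρ (kP v (sub p J) (subU p u)) := by
  set d := nrm (cm3 J u - lam v p J u) with hddef
  have hd0 : 0 ≤ d := nrm_nonneg _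
  have hbad0 : 0 ≤ badT v θ A L p J u := by
    have := dev_nonneg (m := m) hθ v
    have := sq4_nonneg J u
    have := (one_div_nonneg.2 (vw_pos J u p).le)
    refine add_nonneg (add_nonneg (add_nonneg (add_nonneg ?_ ?_) ?_) ?_) ?_ <;>
      first
      | exact dev_nonneg hθ v _ _ _
      | positivity
      | exact le_min zero_le_one (div_nonneg ‹_› hA0.le)
  have hmin : min d (2 * ρ) ^ 2 ≤ c + 4 * ρ ^ 2 * badT v θ A L p J u := by
    by_cases hg : badT v θ A L p J u < 1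
    · have n1 : 0 ≤ op (cm2 J u) ^ 2 / A ^ 2 := by positivity
      have n2 : 0 ≤ min 1 (1 / vw J u p / A) :=
        le_min zero_le_one (div_nonneg (one_div_nonneg.2 (vw_pos J u p).le) hA0.le)
      have n3 : 0 ≤ sq4 (cm4 J u) / L ^ 2 := div_nonneg (sq4_nonneg J u) (sq_nonneg _)
      have n4 := dev_nonneg hθ v (sub p J) (subU p u) (subU p u + rowOf p J)
      have n5 := dev_nonneg hθ v (sub p J) (subU p u) (subU p u - rowOf p J)
      simp only [badT] at hg
      have g1 : op (cm2 J u) ^ 2 / A ^ 2 < 1 := by linarith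
      rw [div_lt_one (by positivity)] at g1
      have g1' : op (cm2 J u) ≤ A := le_of_sq_le_sq g1.le hA0.le
      have g2 : min 1 (1 / vw J u p / A) < 1 := by linarith
      rw [min_lt_iff] at g2
      have g2' : 1 / vw J u p ≤ A :=
        ((div_lt_one hA0).1 (g2.resolve_left (lt_irrefl _))).le
      have g3 : sq4 (cm4 J u) / L ^ 2 < 1 := by linarith
      rw [div_lt_one (by positivity)] at g3
      have g4 : ∀ x, dev v (θ) (sub p J) (subU p u) x < 1 →
          sq3 (cm3 (sub p J) x - kP v (sub p J) (subU p u)) ≤ θ := fun x hx => by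
        rw [dev, min_lt_iff] at hx
        exact ((div_lt_one hθ).1 (hx.resolve_left (lt_irrefl _))).le
      have g5 := g4 (subU p u + rowOf p J) (by linarith)
      have g6 := g4 (subU p u - rowOf p J) (by linarith)
      have hp := removal_pointwise hJ u p v hA0.le g1' g2' hL.le g3.le
      have hd2 : d ^ 2 ≤ c := by
        rw [hddef, nrm_sq]
        refine hp.trans ?_
        linarith
      refine le_trans (pow_le_pow_left₀ (le_min hd0 (by positivity)) (min_le_left _ _) 2)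
        (hd2.trans (le_add_of_nonneg_right (mul_nonneg (by positivity) hbad0)))
    · have h1b := mul_le_mul_of_nonneg_left (not_lt.1 hg) (by positivity : 0 ≤ 4 * ρ ^ 2)
      have h2b := pow_le_pow_left₀ (le_min hd0 (by positivity : 0 ≤ 2 * ρ)) (min_le_right d (2 * ρ)) 2
      have hc0 : 0 ≤ c := le_trans (by positivity) hc
      linarith
  have hsplit := dist_split (ρ := ρ) hd0 (nrm_sub_le (cm3 J u) (lam v p J u))
  rw [hddef, lam] at hmin
  rw [hddef, nrm_sq, lam, nrm_emb] at hsplit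
  simp only [exc]
  rw [lam]
  linarith

section planted

variable {b : ℝ} {n : ℕ} {τ : ℝ}

lemma integral_badT {θ A L : ℝ} (hθ : 0 < θ) (hA0 : 0 < A) (p : Fin (m + 1)) :
    Integrable (fun g => badT (b ^ 2 / n) θ A L p (plJ (b ^ 2 / n) g) (plU τ g))
        (gauss (Idx (m + 1))) ∧
      pEv b n (m + 1) τ (badT (b ^ 2 / n) θ A L p) =
        pEv b n (m + 1) τ (fun J u => op (cm2 J u) ^ 2) / A ^ 2 +
        pEv b n (m + 1) τ (fun J u => min 1 (1 / vw J u p / A)) +
        pEv b n (m + 1) τ (fun J u => sq4 (cm4 J u)) / L ^ 2 +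
        pEv b n (m + 1) τ (fun J u =>
          dev (b ^ 2 / n) θ (sub p J) (subU p u) (subU p u + rowOf p J)) +
        pEv b n (m + 1) τ (fun J u =>
          dev (b ^ 2 / n) θ (sub p J) (subU p u) (subU p u - rowOf p J)) := by
  set v := b ^ 2 / (n:ℝ) with hvdef
  have iY := integrable_planted (F := fun J u => op (cm2 J u) ^ 2) (continuous_op_cm2 (m := m + 1) |>.pow 2)
    (B := (4 * ((m + 1 : ℕ) : ℝ)) ^ 2) (fun J u => by
      rw [abs_of_nonneg (sq_nonneg _)]; exact pow_le_pow_left₀ (op_nonneg _) (op_cm2_le J u) 2) v τ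
  have i4 := integrable_planted (F := fun J u => sq4 (cm4 J u)) (continuous_sq4 (m := m + 1))
    (B := 4096 * ((m + 1 : ℕ) : ℝ) ^ 4) (fun J u => by
      rw [abs_of_nonneg (sq4_nonneg J u)]; exact sq4_le_card J u) v τ
  have iW := integrable_planted (F := fun J u => min 1 (1 / vw J u p / A))
    (continuous_const.min ((continuous_inv_vw p).div_const A)) (B := 1) (fun J u => by
      rw [abs_of_nonneg (le_min zero_le_one (div_nonneg (one_div_nonneg.2 (vw_pos J u p).le) hA0.le))]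
      exact min_le_left _ _) v τ
  have iP := integrable_planted
    (F := fun J u => dev v (θ) (sub p J) (subU p u) (subU p u + rowOf p J))
    ((continuous_dev v (θ)).comp (f := fun q : Mat (m + 1) × Vec (m + 1) =>
      ((sub p q.1, subU p q.2), subU p q.2 + rowOf p q.1)) (by fun_prop))
    (fun J u => abs_dev_le hθ v _ _ _) v τ
  have iM := integrable_planted
    (F := fun J u => dev v (θ) (sub p J) (subU p u) (subU p u - rowOf p J))
    ((continuous_dev v (θ)).comp (f := fun q : Mat (m + 1) × Vec (m + 1) =>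
      ((sub p q.1, subU p q.2), subU p q.2 - rowOf p q.1)) (by fun_prop))
    (fun J u => abs_dev_le hθ v _ _ _) v τ
  have iY' := iY.div_const (A ^ 2)
  have i4' := i4.div_const (L ^ 2)
  set G := gauss (Idx (m + 1))
  have a1 : Integrable (fun g => op (cm2 (plJ v g) (plU τ g)) ^ 2 / A ^ 2 +
      min 1 (1 / vw (plJ v g) (plU τ g) p / A)) G := iY'.add iW
  have a2 : Integrable (fun g => op (cm2 (plJ v g) (plU τ g)) ^ 2 / A ^ 2 +
      min 1 (1 / vw (plJ v g) (plU τ g) p / A) + sq4 (cm4 (plJ v g) (plU τ g)) / L ^ 2) G :=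
    a1.add i4'
  have a3 : Integrable (fun g => op (cm2 (plJ v g) (plU τ g)) ^ 2 / A ^ 2 +
      min 1 (1 / vw (plJ v g) (plU τ g) p / A) + sq4 (cm4 (plJ v g) (plU τ g)) / L ^ 2 +
      dev v θ (sub p (plJ v g)) (subU p (plU τ g))
        (subU p (plU τ g) + rowOf p (plJ v g))) G := a2.add iP
  refine ⟨a3.add iM, ?_⟩
  simp only [pEv, badT, ← hvdef]
  rw [integral_add a3 iM, integral_add a2 iP, integral_add a1 i4', integral_add iY' iW,
    integral_div, integral_div]

end planted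

section planted

variable {b : ℝ} {n : ℕ} {τ : ℝ}

/-- The bad part in mean. -/
lemma pEv_badT_le {θ A L t CY CS X : ℝ} (hθ : 0 < θ) (hA1 : 1 ≤ A) (ht : 0 < t) (hτ : 0 ≤ τ)
    (hmn : m ≤ n) (p : Fin (m + 1)) (hCY : pEv b n (m + 1) τ (fun J u => op (cm2 J u) ^ 2) ≤ CY)
    (hCY0 : 0 ≤ CY) (hCS : pEv b n (m + 1) τ (fun J u => 1 / vw J u p) ≤ CS)
    (h4a : pEv b n (m + 1) τ (fun J u => sq4 (cm4 J u)) ≤ X)
    (h4b : pEv b n m (τ + b ^ 2 / n) (fun J u => sq4 (cm4 J u)) ≤ X) :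
    pEv b n (m + 1) τ (badT (b ^ 2 / n) θ A L p) ≤
      (CY + CS) / A + X / L ^ 2 + (2 + 1 / (2 * t)) * (1 / θ * (b ^ 2 / n * X)) +
        t * (Real.exp (4 * b ^ 2) - 1) / 2 := by
  have hA0 : 0 < A := lt_of_lt_of_le one_pos hA1
  obtain ⟨-, e⟩ := integral_badT (b := b) (n := n) (τ := τ) (L := L) hθ hA0 p
  obtain ⟨q4, q5⟩ := pEv_dev (τ := τ) hθ ht hτ hmn p (b := b) (n := n)
  have q1 : pEv b n (m + 1) τ (fun J u => op (cm2 J u) ^ 2) / A ^ 2 ≤ CY / A :=
    (div_le_div_of_nonneg_right hCY (sq_nonneg A)).trans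
      (div_le_div_of_nonneg_left hCY0 hA0 (le_self_pow₀ hA1 two_ne_zero))
  have q2 : pEv b n (m + 1) τ (fun J u => min 1 (1 / vw J u p / A)) ≤ CS / A := by
    have iW := integrable_planted (F := fun J u => min 1 (1 / vw J u p / A))
      (continuous_const.min ((continuous_inv_vw p).div_const A)) (B := 1) (fun J u => by
        rw [abs_of_nonneg (le_min zero_le_one
          (div_nonneg (one_div_nonneg.2 (vw_pos J u p).le) hA0.le))]
        exact min_le_left _ _) (b ^ 2 / n) τ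
    rw [pEv] at hCS ⊢
    refine le_trans (integral_mono iW ((integrable_inv_vw (b ^ 2 / n) τ p).div_const A)
      fun g => min_le_right _ _) ?_
    rw [integral_div]
    exact div_le_div_of_nonneg_right hCS hA0.le
  have q3 := div_le_div_of_nonneg_right h4a (sq_nonneg L)
  have hy : 1 / θ * (b ^ 2 / n * pEv b n m (τ + b ^ 2 / n) fun J u => sq4 (cm4 J u)) ≤
      1 / θ * (b ^ 2 / n * X) :=
    mul_le_mul_of_nonneg_left (mul_le_mul_of_nonneg_left h4b (by positivity)) (by positivity)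
  have hy2 := mul_le_mul_of_nonneg_left hy (by positivity : (0:ℝ) ≤ 1 + 1 / (2 * t))
  rw [e, add_div]
  linarith

/-- The removal error in mean. -/
lemma pEv_removal_le {θ A L c ρ β E : ℝ} (hθ : 0 < θ) (hA0 : 0 < A) (hL : 0 < L) (hρ : 0 ≤ ρ)
    (p : Fin (m + 1))
    (hc : (3 + 24 * A ^ 4) * (A * (L + 2 * A ^ 2)) + 128 * A ^ 12 + 4 * θ ≤ c)
    (hbad : pEv b n (m + 1) τ (badT (b ^ 2 / n) θ A L p) ≤ β)
    (hE1 : pEv b n (m + 1) τ (fun J u => exc ρ (cm3 J u)) ≤ E)
    (hE2 : pEv b n m τ (fun G h => exc ρ (kP (b ^ 2 / n) G h)) ≤ E) :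
    pEv b n (m + 1) τ (fun J u => sq3 (cm3 J u - lam (b ^ 2 / n) p J u)) ≤
      3 * c + 12 * ρ ^ 2 * β + 6 * E := by
  set v := b ^ 2 / (n:ℝ) with hvdef
  have hsub : Continuous fun q : Mat (m + 1) × Vec (m + 1) => (sub p q.1, subU p q.2) := by
    unfold sub subU; fun_prop
  have hrow : Continuous fun q : Mat (m + 1) × Vec (m + 1) => rowOf p q.1 := by
    unfold rowOf; fun_prop
  have iE := integrable_planted (F := fun J u => exc ρ (cm3 J u))
    ((continuous_exc (m := m + 1) ρ).comp continuous_cm3') (B := ((m + 1 : ℕ):ℝ) ^ 3 * 8 ^ 2)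
    (fun J u => by
      rw [abs_of_nonneg (exc_nonneg _ _)]; exact (exc_le ρ hρ _).trans (sq3_cm3_le J u)) v τ
  have iK := integrable_planted (F := fun J u => exc ρ (kP v (sub p J) (subU p u)))
    ((continuous_exc ρ).comp ((continuous_kP' v).comp hsub)) (B := (m:ℝ) ^ 3 * 8 ^ 2)
    (fun J u => by
      rw [abs_of_nonneg (exc_nonneg _ _)]; exact (exc_le ρ hρ _).trans (sq3_kP_le v _ _)) v τ
  have iD := integrable_planted (F := fun J u => sq3 (cm3 J u - lam v p J u))
    (continuous_sq3'.comp (continuous_cm3'.sub (continuous_lam v p)))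
    (B := ((m + 1 : ℕ):ℝ) ^ 3 * 16 ^ 2) (fun J u => by
      rw [abs_of_nonneg (sq3_nonneg _)]
      refine sq3_le_of_bound (m := m + 1) (F := fun _ => cm3 J u - lam v p J u)
        (fun _ _ _ => continuous_const) (fun _ x y z => (abs_sub _ _).trans ?_) 0
      have hl : |lam v p J u x y z| ≤ 8 := by
        rw [lam]
        rcases Fin.eq_self_or_eq_succAbove p x with rfl | ⟨a, rfl⟩
        · rw [emb_zero x _ x y z (Or.inl rfl), abs_zero]; norm_num
        rcases Fin.eq_self_or_eq_succAbove p y with rfl | ⟨a', rfl⟩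
        · rw [emb_zero y _ _ y z (Or.inr (Or.inl rfl)), abs_zero]; norm_num
        rcases Fin.eq_self_or_eq_succAbove p z with rfl | ⟨a'', rfl⟩
        · rw [emb_zero z _ _ _ z (Or.inr (Or.inr rfl)), abs_zero]; norm_num
        · rw [emb_succ]; exact abs_kP_le ..
      linarith [abs_cm3_le J u x y z]) v τ
  obtain ⟨ibad, -⟩ := integral_badT (b := b) (n := n) (τ := τ) (L := L) hθ hA0 p
  rw [← hvdef] at ibad
  have hE2' : pEv b n (m + 1) τ (fun J u => exc ρ (kP v (sub p J) (subU p u))) ≤ E := by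
    rw [pEv_sub p (φ := fun G h => exc ρ (kP v G h)) ((continuous_exc ρ).comp (continuous_kP' v))
      (B := (m:ℝ) ^ 3 * 8 ^ 2) (fun G h => by
        rw [abs_of_nonneg (exc_nonneg _ _)]; exact (exc_le ρ hρ _).trans (sq3_kP_le v _ _))]
    exact hE2
  rw [pEv, ← hvdef] at hbad hE1 hE2' ⊢
  have j0 : Integrable (fun g => 12 * ρ ^ 2 * badT v θ A L p (plJ v g) (plU τ g))
      (gauss (Idx (m + 1))) := ibad.const_mul _
  have j1 : Integrable (fun g => 3 * c + 12 * ρ ^ 2 * badT v θ A L p (plJ v g) (plU τ g))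
      (gauss (Idx (m + 1))) := (integrable_const _).add j0
  have j2 : Integrable (fun g => 3 * c + 12 * ρ ^ 2 * badT v θ A L p (plJ v g) (plU τ g) +
      3 * exc ρ (cm3 (plJ v g) (plU τ g))) (gauss (Idx (m + 1))) := j1.add (iE.const_mul 3)
  have j3 : Integrable (fun g => 3 * c + 12 * ρ ^ 2 * badT v θ A L p (plJ v g) (plU τ g) +
      3 * exc ρ (cm3 (plJ v g) (plU τ g)) +
      3 * exc ρ (kP v (sub p (plJ v g)) (subU p (plU τ g)))) (gauss (Idx (m + 1))) :=
    j2.add (iK.const_mul 3)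
  refine le_trans (integral_mono iD j3 fun g =>
    removal_split (isCoupling_plJ v g) (plU τ g) p v hθ hA0 hL hρ hc) ?_
  rw [integral_add j2 (iK.const_mul 3), integral_add j1 (iE.const_mul 3),
    integral_add (integrable_const _) j0, integral_const, probReal_univ, one_smul,
    integral_const_mul, integral_const_mul, integral_const_mul]
  have := mul_le_mul_of_nonneg_left hbad (by positivity : (0:ℝ) ≤ 12 * ρ ^ 2)
  linarith

end planted

/-- **Removal**: `E ‖T - K₊^{(p)}‖² ≤ ε n`. -/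
theorem removal {b : ℝ} (hrec : RecSpec b) (hui : UISpec b) (hY : YTightSpec b)
    (hsl : SliceSpec b) {η ε : ℝ} (Tm : ℝ) (k : ℕ) (hη : 0 < η) (hε : 0 < ε) :
    ∃ N : ℕ, ∀ n m : ℕ, ∀ τ : ℝ, η ≤ τ → τ ≤ Tm → N ≤ n → m + 1 ≤ n → n ≤ m + 1 + k →
      ∀ p : Fin (m + 1), pEv b n (m + 1) τ
        (fun J u => sq3 (cm3 J u - lam (b ^ 2 / n) p J u)) ≤ ε * n := by
  obtain ⟨M₀, N₁, hM⟩ := hui η (Tm + b ^ 2) (ε / 12) (k + 1) hη (by positivity)
  obtain ⟨CY, N₂, hCY⟩ := hY η Tm k hη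
  obtain ⟨CS, hCS⟩ := hsl 1 Tm
  obtain ⟨C4, hC4⟩ := hrec.2 η (Tm + b ^ 2) hη
  set M := max M₀ 1 with hMdef
  have hM1 : 1 ≤ M := le_max_right _ _
  set β := ε / (48 * M) with hβdef
  have hβ : 0 < β := by positivity
  set A := 1 + 5 * (|CY| + |CS|) / β with hAdef
  have hA1 : 1 ≤ A := le_add_of_nonneg_right (by positivity)
  have hA0 : 0 < A := lt_of_lt_of_le one_pos hA1
  set ε' := ε / 12 with hε'def
  have hε' : 0 < ε' := by positivity
  set δ := ε' / (4 * ((3 + 24 * A ^ 4) * A)) with hδdef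
  have hδ : 0 < δ := by positivity
  set θ := ε' / 8 with hθdef
  have hθ : 0 < θ := by positivity
  have hEb : 0 ≤ Real.exp (4 * b ^ 2) - 1 := sub_nonneg.2 (Real.one_le_exp (by positivity))
  set t := β / (5 * (Real.exp (4 * b ^ 2) - 1 + 1)) with htdef
  have ht : 0 < t := by positivity
  set K₀ := (3 + 24 * A ^ 4) * (A * (2 * A ^ 2)) + 128 * A ^ 12 with hK₀
  obtain ⟨N₃, hN₃⟩ := exists_sqrt_ge (max (max (5 * |C4| / δ ^ 2)
    (10 * (1 + 1 / (2 * t)) * b ^ 2 * |C4| / θ)) 0) hβ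
  obtain ⟨N₄, hN₄⟩ := exists_sqrt_ge K₀ (show 0 < ε' / 4 by positivity)
  refine ⟨max (max N₁ N₂) (max N₃ N₄), fun n m τ h1 h2 hN hm hk p => ?_⟩
  simp only [max_le_iff] at hN
  obtain ⟨⟨hn1, hn2⟩, hn3, hn4⟩ := hN
  obtain ⟨hn, hs3, -⟩ := hN₃ n hn3
  obtain ⟨-, -, hs4⟩ := hN₄ n hn4
  simp only [max_le_iff] at hs3
  obtain ⟨⟨hsA, hsB⟩, -⟩ := hs3
  have hnR : (0:ℝ) < n := by exact_mod_cast hn
  have hτ : 0 ≤ τ := hη.le.trans h1
  set v := b ^ 2 / (n:ℝ) with hvdef
  have hv : 0 ≤ v := by positivity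
  have hvb : v ≤ b ^ 2 := div_le_self (sq_nonneg b) (by exact_mod_cast hn)
  set ρ := √(M * n) with hρdef
  have hρ : 0 ≤ ρ := Real.sqrt_nonneg _
  have hρ2 : ρ ^ 2 = M * n := Real.sq_sqrt (by positivity)
  have hMn : M₀ * n ≤ ρ ^ 2 := by
    rw [hρ2]; exact mul_le_mul_of_nonneg_right (le_max_left _ _) hnR.le
  set L := δ * n with hLdef
  have hL : 0 < L := by positivity
  set c := ε' * n with hcdef
  have hθn : 0 < θ * n := by positivity
  have hcK : (3 + 24 * A ^ 4) * (A * (L + 2 * A ^ 2)) + 128 * A ^ 12 + 4 * (θ * n) ≤ c := by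
    have hq : (3 + 24 * A ^ 4) * (A * L) = ε' / 4 * n := by
      rw [hLdef, hδdef]; field_simp
    have hq2 : (3 + 24 * A ^ 4) * (A * (L + 2 * A ^ 2)) + 128 * A ^ 12 =
        (3 + 24 * A ^ 4) * (A * L) + K₀ := by rw [hK₀]; ring
    rw [hq2, hq, hcdef, hθdef]
    linarith
  have habs : ∀ {x : ℝ}, x ≤ C4 * (n * √(n:ℝ)) → x ≤ |C4| * (n * √(n:ℝ)) := fun hx =>
    hx.trans (mul_le_mul_of_nonneg_right (le_abs_self C4) (by positivity))
  have hs := (hCS n m τ hτ h2 hm p).2
  simp only [pow_one] at hs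
  have hbad := pEv_badT_le (L := L) (t := t) hθn hA1 ht hτ (show m ≤ n by omega) p
    ((hCY n (m + 1) τ h1 h2 hn2 hm hk).trans (le_abs_self CY)) (abs_nonneg CY)
    (hs.trans (le_abs_self CS))
    (habs (hC4 n (m + 1) τ h1 (by linarith [sq_nonneg b]) hn hm))
    (habs (hC4 n m (τ + v) (by linarith) (by linarith) hn (by omega)))
  have hE1 : pEv b n (m + 1) τ (fun J u => exc ρ (cm3 J u)) ≤ ε / 12 * n :=
    pEv_exc hρ hMn (hM n (m + 1) τ h1 (by linarith [sq_nonneg b]) hn1 hm (by omega))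
  have hE2 : pEv b n m τ (fun G h => exc ρ (kP v G h)) ≤ ε / 12 * n :=
    (pEv_exc_kP hρ hτ).trans (pEv_exc hρ hMn
      (hM n m (τ + v) (by linarith) (by linarith) hn1 (by omega) (by omega)))
  have hsn : 0 < √(n:ℝ) := Real.sqrt_pos.2 hnR
  have hss : √(n:ℝ) * √(n:ℝ) = n := Real.mul_self_sqrt hnR.le
  have hAB : (|CY| + |CS|) / A ≤ β / 5 := by
    rw [div_le_iff₀ hA0, hAdef, mul_add, mul_one]
    have e : β / 5 * (5 * (|CY| + |CS|) / β) = |CY| + |CS| := by field_simp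
    rw [e]; linarith
  have p3 : |C4| * (n * √(n:ℝ)) / L ^ 2 ≤ β / 5 := by
    have e : |C4| * (n * √(n:ℝ)) / L ^ 2 = |C4| / δ ^ 2 / √(n:ℝ) := by
      rw [hLdef]; field_simp; linear_combination |C4| * hss
    rw [e, div_le_iff₀ hsn]
    linarith [show 5 * |C4| / δ ^ 2 = 5 * (|C4| / δ ^ 2) by ring]
  have p4 : (2 + 1 / (2 * t)) * (1 / (θ * n) * (v * (|C4| * (n * √(n:ℝ))))) ≤ β / 5 := by
    have e : 1 / (θ * n) * (v * (|C4| * (n * √(n:ℝ)))) = b ^ 2 * |C4| / θ / √(n:ℝ) := by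
      rw [hvdef]; field_simp; linear_combination (b ^ 2 * |C4|) * hss
    have h0 : 0 ≤ b ^ 2 * |C4| / θ / √(n:ℝ) := by positivity
    have h2t : (1 + 1 / (2 * t)) * (b ^ 2 * |C4| / θ / √(n:ℝ)) ≤ β / 10 := by
      rw [← mul_div_assoc, div_le_iff₀ hsn]
      linarith [show 10 * (1 + 1 / (2 * t)) * b ^ 2 * |C4| / θ =
        10 * ((1 + 1 / (2 * t)) * (b ^ 2 * |C4| / θ)) by ring]
    have h1t := le_mul_of_one_le_left h0
      (le_add_of_nonneg_right (by positivity : 0 ≤ 1 / (2 * t)))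
    rw [e]; linarith
  have hte : t * (Real.exp (4 * b ^ 2) - 1) / 2 ≤ β / 10 := by
    have h : t * (Real.exp (4 * b ^ 2) - 1 + 1) = β / 5 := by
      rw [htdef]; field_simp
    linarith
  rw [← hvdef] at hbad
  have hb : pEv b n (m + 1) τ (badT v (θ * n) A L p) ≤ β := by linarith
  refine le_trans (pEv_removal_le (L := L) hθn hA0 hL hρ p hcK hb hE1 hE2) ?_
  have e : 12 * ρ ^ 2 * β = ε / 4 * n := by rw [hρ2, hβdef]; field_simp; ring
  rw [hcdef, hε'def, e]
  linarith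

end Vale.Agent.P150.Weak.Gram
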