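import Vale.Agent.P150.Weak.Gram.Chaos
import Vale.Agent.P150.Weak.Gram.Removal

/-!
Second-chaos rows: moments given the rest of the disorder, and the elementary bounds on the
operator norm of the Gram route.
-/

open MeasureTheory ProbabilityTheory Finset
open scoped Matrix

namespace Vale.Agent.P150.Weak.Gram

open Gap

variable {m : ℕ}

attribute [local irreducible] cm2 cm3 cm4 kP mg vw op plJ plU

/-- A kernel functional: continuous, bounded and symmetric in its last two arguments. -/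
structure Kern (Kf : Mat m → Vec m → Ten m) : Prop where
  cont : Continuous fun q : Mat m × Vec m => Kf q.1 q.2
  bdd : ∃ B : ℝ, ∀ G h a c e, |Kf G h a c e| ≤ B
  symm : ∀ G h a c e, Kf G h a c e = Kf G h a e c

namespace Kern

variable {Kf Lf : Mat m → Vec m → Ten m}

lemma sub (hK : Kern Kf) (hL : Kern Lf) : Kern fun G h => Kf G h - Lf G h := by
  obtain ⟨B, hB⟩ := hK.bdd
  obtain ⟨C, hC⟩ := hL.bdd
  exact ⟨hK.cont.sub hL.cont, ⟨B + C, fun G h a c e =>
    (abs_sub _ _).trans (add_le_add (hB G h a c e) (hC G h a c e))⟩,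
    fun G h a c e => congrArg₂ (· - ·) (hK.symm G h a c e) (hL.symm G h a c e)⟩

lemma clip (hK : Kern Kf) {R : ℝ} (hR : 0 < R) : Kern fun G h => Gram.clip R (Kf G h) := by
  obtain ⟨B, hB⟩ := hK.bdd
  refine ⟨(continuous_clip hR).comp hK.cont, ⟨B, fun G h a c e => ?_⟩, fun G h a c e => ?_⟩
  · show |R / max R (nrm (Kf G h)) * Kf G h a c e| ≤ B
    rw [abs_mul, abs_of_nonneg (clip_scal hR _).1]
    exact (mul_le_of_le_one_left (abs_nonneg _) (clip_scal hR _).2).trans (hB G h a c e)
  · show R / max R (nrm (Kf G h)) * Kf G h a c e = R / max R (nrm (Kf G h)) * Kf G h a e c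
    rw [hK.symm]

lemma sq3_bdd (hK : Kern Kf) : ∃ B : ℝ, 0 ≤ B ∧ ∀ G h, sq3 (Kf G h) ≤ B := by
  obtain ⟨B, hB⟩ := hK.bdd
  exact ⟨(m:ℝ) ^ 3 * B ^ 2, by positivity, fun G h => sq3_le_of_bound (m := m)
    (F := fun _ => Kf G h) (fun _ _ _ => continuous_const) (fun _ => hB G h) 0⟩

end Kern

/-- The second-chaos row of a kernel functional. -/
noncomputable def rowK (v : ℝ) (Kf : Mat m → Vec m → Ten m) (i : Fin (m + 1)) (J : Mat (m + 1))
    (u : Vec (m + 1)) : Vec (m + 1) :=
  Fin.insertNth i 0 fun a =>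
    (∑ c, ∑ e, Kf (sub i J) (subU i u) a c e * ((rowOf i J c - v) * (rowOf i J e - v))) -
      v * ∑ c, Kf (sub i J) (subU i u) a c c

lemma rowK_self (v : ℝ) (Kf : Mat m → Vec m → Ten m) (i : Fin (m + 1)) (J : Mat (m + 1))
    (u : Vec (m + 1)) : rowK v Kf i J u i = 0 := Fin.insertNth_apply_same ..

lemma rowK_sub (v : ℝ) (Kf Lf : Mat m → Vec m → Ten m) (i : Fin (m + 1)) (J : Mat (m + 1))
    (u : Vec (m + 1)) :
    rowK v (fun G h => Kf G h - Lf G h) i J u = rowK v Kf i J u - rowK v Lf i J u := by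
  funext j
  rcases Fin.eq_self_or_eq_succAbove i j with rfl | ⟨a, rfl⟩
  · simp [rowK]
  · simp only [rowK, Pi.sub_apply, Fin.insertNth_apply_succAbove, sub_mul, sum_sub_distrib]
    ring

section sample

variable {b : ℝ} {n : ℕ} {τ : ℝ}

lemma rowK_sample {v : ℝ} (hv : 0 ≤ v) (τ : ℝ) (Kf : Mat m → Vec m → Ten m) (i : Fin (m + 1))
    (g : Idx m → ℝ) (r : Fin m → ℝ) (t : ℝ) (a : Fin m) :
    rowK v Kf i (plJ v (join i g r t)) (plU τ (join i g r t)) (i.succAbove a) =
      v * chaosV (Kf (plJ v g) (plU τ g)) a r := by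
  simp only [rowK, Fin.insertNth_apply_succAbove, sub_plJ, subU_plU, rowOf_plJ, chaosV, mul_sub,
    mul_sum, add_sub_cancel_left]
  refine congrArg (· - _) (sum_congr rfl fun c _ => sum_congr rfl fun e _ => ?_)
  linear_combination (Kf (plJ v g) (plU τ g) a c e * r c * r e) * Real.mul_self_sqrt hv

lemma tame_rowOf (v : ℝ) (i : Fin (m + 1)) (c : Fin m) :
    Tame fun g : Idx (m + 1) → ℝ => rowOf i (plJ v g) c := by
  unfold rowOf plJ
  simp only [if_neg (Fin.succAbove_ne i c).symm]
  refine (Tame.const v).add ((Tame.const _).mul ?_)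
  unfold Gap.sym
  split_ifs
  · exact Tame.coord _
  · exact Tame.coord _
  · exact Tame.const 0

lemma tame_rowK {Kf : Mat m → Vec m → Ten m} (hK : Kern Kf) (v τ : ℝ) (i j : Fin (m + 1)) :
    Tame fun g : Idx (m + 1) → ℝ => rowK v Kf i (plJ v g) (plU τ g) j := by
  obtain ⟨B, hB⟩ := hK.bdd
  have hk : ∀ a c e, Tame fun g : Idx (m + 1) → ℝ =>
      Kf (sub i (plJ v g)) (subU i (plU τ g)) a c e := fun a c e => by
    refine Tame.of_bounded ?_ fun g => hB _ _ a c e
    have h3 : Continuous fun q : Mat m × Vec m => Kf q.1 q.2 a c e :=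
      (continuous_apply e).comp ((continuous_apply c).comp ((continuous_apply a).comp hK.cont))
    exact h3.comp (f := fun g : Idx (m + 1) → ℝ => (sub i (plJ v g), subU i (plU τ g))) (by fun_prop)
  rcases Fin.eq_self_or_eq_succAbove i j with rfl | ⟨a, rfl⟩
  · simp only [rowK_self]; exact Tame.const 0
  · simp only [rowK, Fin.insertNth_apply_succAbove]
    exact (Tame.sum fun c _ => Tame.sum fun e _ => (hk a c e).mul
      (((tame_rowOf v i c).sub (Tame.const v)).mul ((tame_rowOf v i e).sub (Tame.const v)))).sub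
      ((Tame.const v).mul (Tame.sum fun c _ => hk a c c))

lemma sq1_rowK {v : ℝ} (hv : 0 ≤ v) (τ : ℝ) (Kf : Mat m → Vec m → Ten m) (i : Fin (m + 1))
    (g : Idx m → ℝ) (r : Fin m → ℝ) (t : ℝ) :
    sq1 (rowK v Kf i (plJ v (join i g r t)) (plU τ (join i g r t))) =
      v ^ 2 * ∑ a, chaosV (Kf (plJ v g) (plU τ g)) a r ^ 2 := by
  rw [sq1, Fin.sum_univ_succAbove _ i, rowK_self, sq, zero_mul, zero_add, mul_sum]
  exact sum_congr rfl fun a _ => by rw [rowK_sample hv, mul_pow]

/-- `E|δK|² ≤ 4 v² E‖K‖²` for a row. -/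
theorem rowK_two {Kf : Mat m → Vec m → Ten m} (hK : Kern Kf) (i : Fin (m + 1)) :
    pEv b n (m + 1) τ (fun J u => sq1 (rowK (b ^ 2 / n) Kf i J u)) ≤
      4 * (b ^ 2 / n) ^ 2 * pEv b n m τ fun G h => sq3 (Kf G h) := by
  set v := b ^ 2 / (n:ℝ) with hvdef
  have hv : 0 ≤ v := by positivity
  obtain ⟨B, -, hB⟩ := hK.sq3_bdd
  have hi : Integrable (fun g => sq1 (rowK v Kf i (plJ v g) (plU τ g))) (gauss (Idx (m + 1))) :=
    (Tame.sum fun j _ => (tame_rowK hK v τ i j).pow 2).integrable
  have iR := (integrable_planted (F := fun G h => sq3 (Kf G h)) (continuous_sq3'.comp hK.cont)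
    (B := B) (fun G h => by rw [abs_of_nonneg (sq3_nonneg _)]; exact hB G h) v τ).const_mul
      (4 * v ^ 2)
  rw [pEv_split i hi, pEv, ← hvdef, ← integral_const_mul]
  refine integral_mono_of_nonneg (ae_of_all _ fun g => integral_nonneg fun r =>
    integral_nonneg fun t => sum_nonneg fun j _ => sq_nonneg _) iR (ae_of_all _ fun g => ?_)
  simp only [sq1_rowK hv, integral_const, probReal_univ, one_smul]
  rw [integral_const_mul]
  have h := chaos_two (K := Kf (plJ v g) (plU τ g)) (hK.symm _ _)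
  refine (mul_le_mul_of_nonneg_left h (sq_nonneg v)).trans_eq ?_
  simp only [sq3, sq2]
  ring

/-- `E|δK|⁴ ≤ 6000 v⁴ E‖K‖⁴` for a row. -/
theorem rowK_four {Kf : Mat m → Vec m → Ten m} (hK : Kern Kf) (i : Fin (m + 1)) :
    pEv b n (m + 1) τ (fun J u => sq1 (rowK (b ^ 2 / n) Kf i J u) ^ 2) ≤
      6000 * (b ^ 2 / n) ^ 4 * pEv b n m τ fun G h => sq3 (Kf G h) ^ 2 := by
  set v := b ^ 2 / (n:ℝ) with hvdef
  have hv : 0 ≤ v := by positivity
  obtain ⟨B, -, hB⟩ := hK.sq3_bdd
  have hi : Integrable (fun g => sq1 (rowK v Kf i (plJ v g) (plU τ g)) ^ 2)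
      (gauss (Idx (m + 1))) :=
    ((Tame.sum fun j _ => (tame_rowK hK v τ i j).pow 2).pow 2).integrable
  have iR := (integrable_planted (F := fun G h => sq3 (Kf G h) ^ 2)
    ((continuous_sq3'.comp hK.cont).pow 2)
    (B := B ^ 2) (fun G h => by
      rw [abs_of_nonneg (sq_nonneg _)]
      exact pow_le_pow_left₀ (sq3_nonneg _) (hB G h) 2) v τ).const_mul (6000 * v ^ 4)
  rw [pEv_split i hi, pEv, ← hvdef, ← integral_const_mul]
  refine integral_mono_of_nonneg (ae_of_all _ fun g => integral_nonneg fun r =>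
    integral_nonneg fun t => sq_nonneg _) iR (ae_of_all _ fun g => ?_)
  simp only [sq1_rowK hv, integral_const, probReal_univ, one_smul, mul_pow]
  rw [integral_const_mul]
  have h := chaos_four (K := Kf (plJ v g) (plU τ g)) (hK.symm _ _)
  refine (mul_le_mul_of_nonneg_left h (sq_nonneg (v ^ 2))).trans_eq ?_
  simp only [sq3, sq2]
  ring

/-- A row against a vector that does not see it. -/
theorem rowK_inner {Kf : Mat m → Vec m → Ten m} (hK : Kern Kf) (i : Fin (m + 1))
    {h : Mat (m + 1) → Vec (m + 1) → Vec (m + 1)}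
    (hT : ∀ j, Tame fun g : Idx (m + 1) → ℝ => h (plJ (b ^ 2 / n) g) (plU τ g) j)
    (hI : ∀ g r t, h (plJ (b ^ 2 / n) (join i g r t)) (plU τ (join i g r t)) =
      h (plJ (b ^ 2 / n) (join i g 0 0)) (plU τ (join i g 0 0))) :
    pEv b n (m + 1) τ (fun J u => (∑ j, rowK (b ^ 2 / n) Kf i J u j * h J u j) ^ 2) ≤
      4 * (b ^ 2 / n) ^ 2 * pEv b n (m + 1) τ
        (fun J u => sq2 (app (Kf (sub i J) (subU i u)) fun a => h J u (i.succAbove a))) := by
  set v := b ^ 2 / (n:ℝ) with hvdef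
  have hv : 0 ≤ v := by positivity
  obtain ⟨B, hB⟩ := hK.bdd
  set F := fun g : Idx (m + 1) → ℝ =>
    sq2 (app (Kf (sub i (plJ v g)) (subU i (plU τ g))) fun a => h (plJ v g) (plU τ g) (i.succAbove a))
    with hFdef
  have hk : ∀ a c e, Tame fun g : Idx (m + 1) → ℝ =>
      Kf (sub i (plJ v g)) (subU i (plU τ g)) a c e := fun a c e => by
    refine Tame.of_bounded ?_ fun g => hB _ _ a c e
    have h3 : Continuous fun q : Mat m × Vec m => Kf q.1 q.2 a c e :=
      (continuous_apply e).comp ((continuous_apply c).comp ((continuous_apply a).comp hK.cont))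
    exact h3.comp (f := fun g : Idx (m + 1) → ℝ => (sub i (plJ v g), subU i (plU τ g))) (by fun_prop)
  have hF : Integrable F (gauss (Idx (m + 1))) :=
    (Tame.sum fun c _ => Tame.sum fun e _ =>
      (Tame.sum fun a _ => (hT _).mul (hk a c e)).pow 2).integrable
  have hi : Integrable (fun g => (∑ j, rowK v Kf i (plJ v g) (plU τ g) j *
      h (plJ v g) (plU τ g) j) ^ 2) (gauss (Idx (m + 1))) :=
    ((Tame.sum fun j _ => (tame_rowK hK v τ i j).mul (hT j)).pow 2).integrable
  set F0 := fun g : Idx m → ℝ => sq2 (app (Kf (plJ v g) (plU τ g))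
    fun a => h (plJ v (join i g 0 0)) (plU τ (join i g 0 0)) (i.succAbove a)) with hF0def
  have hFF : ∀ g r t, F (join i g r t) = F0 g := fun g r t => by
    simp only [hFdef, hF0def, sub_plJ, subU_plU, hI g r t]
  have hp := (measurePreserving_join i).integrable_comp_of_integrable hF
  simp only [Function.comp_def, hFF] at hp
  have hp' := hp.integral_prod_left
  simp only [integral_const, probReal_univ, one_smul] at hp'
  have iR : Integrable (fun g => 4 * v ^ 2 * F0 g) (gauss (Idx m)) := hp'.const_mul _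
  rw [pEv_split i hi, pEv_split i (F := fun J u =>
      sq2 (app (Kf (sub i J) (subU i u)) fun a => h J u (i.succAbove a))) hF, ← hvdef,
    ← integral_const_mul]
  refine integral_mono_of_nonneg (ae_of_all _ fun g => integral_nonneg fun r =>
    integral_nonneg fun t => sq_nonneg _) ?_ (ae_of_all _ fun g => ?_)
  · refine iR.congr (ae_of_all _ fun g => ?_)
    simp only [sub_plJ, subU_plU, hI g, integral_const, probReal_univ, one_smul, hF0def]
  have e : ∀ r t, (∑ j, rowK v Kf i (plJ v (join i g r t)) (plU τ (join i g r t)) j *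
      h (plJ v (join i g r t)) (plU τ (join i g r t)) j) ^ 2 =
      v ^ 2 * (∑ a, h (plJ v (join i g 0 0)) (plU τ (join i g 0 0)) (i.succAbove a) *
        chaosV (Kf (plJ v g) (plU τ g)) a r) ^ 2 := by
    intro r t
    rw [Fin.sum_univ_succAbove _ i, rowK_self, zero_mul, zero_add, hI g r t, ← mul_pow, mul_sum]
    congr 1
    exact sum_congr rfl fun a _ => by rw [rowK_sample hv]; ring
  simp only [e]
  simp only [sub_plJ, subU_plU, hI g, integral_const, probReal_univ, one_smul]
  rw [integral_const_mul]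
  have hc := chaos_inner (K := Kf (plJ v g) (plU τ g)) (hK.symm _ _)
    fun a => h (plJ v (join i g 0 0)) (plU τ (join i g 0 0)) (i.succAbove a)
  refine (mul_le_mul_of_nonneg_left hc (sq_nonneg v)).trans_eq ?_
  simp only [app, sq2]
  ring

end sample

/-- A row whose kernel does not see `p` does not see the spin `l.succAbove p`. -/
lemma rowK_indep {Lf : Mat (m + 1) → Vec (m + 1) → Ten (m + 1)} {p : Fin (m + 1)}
    (h0 : ∀ G h a c e, a = p ∨ c = p ∨ e = p → Lf G h a c e = 0)
    (hi : ∀ G G' h h', sub p G = sub p G' → subU p h = subU p h' → Lf G h = Lf G' h')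
    (v : ℝ) (l : Fin (m + 2)) {J J' : Mat (m + 2)} {u u' : Vec (m + 2)}
    (hJ : sub (l.succAbove p) J = sub (l.succAbove p) J')
    (hu : subU (l.succAbove p) u = subU (l.succAbove p) u') :
    rowK v Lf l J u = rowK v Lf l J' u' := by
  set i := l.succAbove p with hidef
  have hJa : ∀ x y, x ≠ i → y ≠ i → J x y = J' x y := by
    intro x y hx hy
    obtain ⟨a, rfl⟩ := Fin.exists_succAbove_eq hx
    obtain ⟨c, rfl⟩ := Fin.exists_succAbove_eq hy
    exact congrFun (congrFun hJ a) c
  have hua : ∀ x, x ≠ i → u x = u' x := by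
    intro x hx
    obtain ⟨a, rfl⟩ := Fin.exists_succAbove_eq hx
    exact congrFun hu a
  have hne : ∀ a : Fin m, l.succAbove (p.succAbove a) ≠ i := fun a =>
    fun h => Fin.succAbove_ne p a (Fin.succAbove_right_injective h)
  have e1 : sub p (sub l J) = sub p (sub l J') :=
    funext fun a => funext fun c => hJa _ _ (hne a) (hne c)
  have e2 : subU p (subU l u) = subU p (subU l u') := funext fun a => hua _ (hne a)
  have hL : Lf (sub l J) (subU l u) = Lf (sub l J') (subU l u') := hi _ _ _ _ e1 e2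
  funext j
  rcases Fin.eq_self_or_eq_succAbove l j with rfl | ⟨a, rfl⟩
  · rw [rowK_self, rowK_self]
  simp only [rowK, Fin.insertNth_apply_succAbove, hL]
  refine congrArg (· - _) (sum_congr rfl fun c _ => sum_congr rfl fun e _ => ?_)
  rcases eq_or_ne c p with hc | hc
  · rw [h0 _ _ a c e (Or.inr (Or.inl hc))]; ring
  rcases eq_or_ne e p with he | he
  · rw [h0 _ _ a c e (Or.inr (Or.inr he))]; ring
  have hli : l ≠ i := (Fin.succAbove_ne l p).symm
  have r1 : rowOf l J c = rowOf l J' c :=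
    hJa l _ hli fun h => hc (Fin.succAbove_right_injective h)
  have r2 : rowOf l J e = rowOf l J' e :=
    hJa l _ hli fun h => he (Fin.succAbove_right_injective h)
  rw [r1, r2]

/-- Such a row vanishes at the spin it does not see. -/
lemma rowK_eq_zero {Lf : Mat (m + 1) → Vec (m + 1) → Ten (m + 1)} {p : Fin (m + 1)}
    (h0 : ∀ G h a c e, a = p ∨ c = p ∨ e = p → Lf G h a c e = 0)
    (v : ℝ) (l : Fin (m + 2)) (J : Mat (m + 2)) (u : Vec (m + 2)) :
    rowK v Lf l J u (l.succAbove p) = 0 := by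
  simp only [rowK, Fin.insertNth_apply_succAbove]
  simp [h0 _ _ p _ _ (Or.inl rfl)]

section op

lemma op_add_le (A B : Mat m) : op (fun i j => A i j + B i j) ≤ op A + op B := by
  unfold op
  rw [show Matrix.of (fun i j => A i j + B i j) = Matrix.of A + Matrix.of B from rfl, map_add]
  exact norm_add_le _ _

lemma op_le_of {A : Mat m} {M : ℝ} (hM : 0 ≤ M)
    (h : ∀ a : Vec m, sq1 (fun i => ∑ j, A i j * a j) ≤ M ^ 2 * sq1 a) : op A ≤ M := by
  unfold op
  refine ContinuousLinearMap.opNorm_le_bound _ hM fun x => ?_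
  obtain ⟨a, rfl⟩ : ∃ a : Vec m, x = WithLp.toLp 2 a := ⟨x.ofLp, rfl⟩
  rw [Matrix.toEuclideanCLM_toLp]
  refine le_of_sq_le_sq ?_ (by positivity)
  rw [norm_sq_toLp, mul_pow, norm_sq_toLp]
  exact h a

lemma op_diag_le (A : Mat m) {d : Vec m} (hd : ∀ i, |d i| ≤ 1) :
    op (fun i j => d i * A i j) ≤ op A := by
  refine op_le_of (op_nonneg A) fun a => le_trans (sum_le_sum fun i _ => ?_) (sq1_mulVec_le A a)
  simp only [mul_assoc, ← mul_sum, mul_pow]
  refine mul_le_of_le_one_left (sq_nonneg _) ?_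
  rw [← sq_abs]; exact pow_le_one₀ (abs_nonneg _) (hd i)

lemma op_sq_le (A : Mat m) : op A ^ 2 ≤ sq2 A := by
  have h : op A ≤ √(sq2 A) := op_le_of (Real.sqrt_nonneg _) fun a => by
    rw [Real.sq_sqrt (sq2_nonneg A)]
    refine le_trans (sum_le_sum fun i _ => sum_mul_sq_le_sq_mul_sq univ _ a) (le_of_eq ?_)
    simp only [sq2, sq1, sum_mul]
  exact (pow_le_pow_left₀ (op_nonneg A) h 2).trans_eq (Real.sq_sqrt (sq2_nonneg A))

/-- The Gram matrix of the rows. -/
def gramM (A : Mat m) : Mat m := fun i l => ∑ j, A i j * A l j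

lemma op_four_le (A : Mat m) : op A ^ 4 ≤ sq2 (gramM A) := by
  set S := √(sq2 (gramM A)) with hS
  have hS0 : 0 ≤ S := Real.sqrt_nonneg _
  have hy : ∀ y : Vec m, sq1 (fun j => ∑ i, A i j * y i) ≤ S * sq1 y := fun y => by
    have e : sq1 (fun j => ∑ i, A i j * y i) = ∑ i, ∑ l, gramM A i l * y i * y l := by
      calc sq1 (fun j => ∑ i, A i j * y i) = ∑ j, ∑ i, ∑ l, A i j * y i * (A l j * y l) :=
            sum_congr rfl fun j _ => by rw [sq, sum_mul_sum]
        _ = ∑ i, ∑ l, ∑ j, A i j * y i * (A l j * y l) :=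
            sum_comm.trans (sum_congr rfl fun i _ => sum_comm)
        _ = _ := sum_congr rfl fun i _ => sum_congr rfl fun l _ => by
            simp only [gramM, sum_mul]
            exact sum_congr rfl fun j _ => by ring
    rw [e]
    refine (le_abs_self _).trans ((abs_bilin_le _ y y).trans ?_)
    rw [Real.sqrt_mul_self (show 0 ≤ sq1 y from sum_nonneg fun i _ => sq_nonneg _)]
    refine mul_le_mul_of_nonneg_right ?_ (sum_nonneg fun i _ => sq_nonneg _)
    rw [hS, ← Real.sqrt_sq (op_nonneg (gramM A))]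
    exact Real.sqrt_le_sqrt (op_sq_le _)
  have h : op A ≤ √S := op_le_of (Real.sqrt_nonneg _) fun a => by
    rw [Real.sq_sqrt hS0]
    set y := fun i => ∑ j, A i j * a j with hydef
    set X := sq1 y with hX
    have hX0 : 0 ≤ X := sum_nonneg fun i _ => sq_nonneg _
    have ha0 : 0 ≤ sq1 a := sum_nonneg fun i _ => sq_nonneg _
    have e : X = ∑ j, a j * ∑ i, A i j * y i := by
      simp only [hX, sq1, mul_sum]
      rw [sum_comm]
      refine sum_congr rfl fun i _ => ?_
      rw [sq]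
      conv_lhs => rw [hydef]; simp only; rw [sum_mul]
      exact sum_congr rfl fun j _ => by ring
    have h1 : X * X ≤ S * sq1 a * X := by
      calc X * X = (∑ j, a j * ∑ i, A i j * y i) ^ 2 := by rw [← e, sq]
        _ ≤ sq1 a * sq1 (fun j => ∑ i, A i j * y i) := sum_mul_sq_le_sq_mul_sq _ _ _
        _ ≤ sq1 a * (S * X) := mul_le_mul_of_nonneg_left (hy y) ha0
        _ = _ := by ring
    rcases hX0.eq_or_lt with h0 | hpos
    · rw [← h0]; positivity
    · exact le_of_mul_le_mul_right h1 hpos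
  calc op A ^ 4 ≤ √S ^ 4 := pow_le_pow_left₀ (op_nonneg A) h 4
    _ = (√S ^ 2) ^ 2 := by ring
    _ = sq2 (gramM A) := by rw [Real.sq_sqrt hS0, hS, Real.sq_sqrt (sq2_nonneg _)]

end op

/-- The pointwise bound on `‖T[a]‖² / |a|²`. -/
noncomputable def psi (J : Mat m) (u : Vec m) : ℝ :=
  min (op (cm2 J u) * (√(sq4 (cm4 J u)) + 2 * op (cm2 J u) ^ 2)) (sq3 (cm3 J u))

lemma psi_nonneg (J : Mat m) (u : Vec m) : 0 ≤ psi J u :=
  le_min (mul_nonneg (op_nonneg _) (by positivity)) (sq3_nonneg _)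

lemma abs_psi_le (J : Mat m) (u : Vec m) : |psi J u| ≤ (m:ℝ) ^ 3 * 8 ^ 2 := by
  rw [abs_of_nonneg (psi_nonneg J u)]
  exact (min_le_right _ _).trans (sq3_cm3_le J u)

lemma continuous_psi : Continuous fun q : Mat m × Vec m => psi q.1 q.2 :=
  (continuous_op_cm2.mul (continuous_sq4.sqrt.add (continuous_const.mul (continuous_op_cm2.pow 2)))).min
    (continuous_sq3'.comp continuous_cm3')

lemma sq2_app_le_sq3 (T : Ten m) (a : Vec m) : sq2 (app T a) ≤ sq3 T * sq1 a := by
  have h : sq2 (app T a) ≤ ∑ i, ∑ j, sq1 a * ∑ k, T k i j ^ 2 :=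
    sum_le_sum fun i _ => sum_le_sum fun j _ => sum_mul_sq_le_sq_mul_sq univ a fun k => T k i j
  refine h.trans (le_of_eq ?_)
  simp only [sq3, sq2, ← mul_sum]
  rw [mul_comm]
  congr 1
  exact (sum_congr rfl fun i _ => sum_comm).trans sum_comm

lemma sq2_app_cm3_le (J : Mat m) (u : Vec m) (a : Vec m) :
    sq2 (app (cm3 J u) a) ≤ psi J u * sq1 a := by
  rw [psi, min_mul_of_nonneg _ _ (show 0 ≤ sq1 a from sum_nonneg fun i _ => sq_nonneg _)]
  exact le_min (sq2_app_le J u a) (sq2_app_le_sq3 _ a)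

/-- The weight of the inner products. -/
noncomputable def wgt (v R : ℝ) (G : Mat m) (h : Vec m) : ℝ :=
  min (∫ r, psi G (h + row v r) ∂gauss (Fin m)) (R ^ 2)

lemma wgt_nonneg (v R : ℝ) (G : Mat m) (h : Vec m) : 0 ≤ wgt v R G h :=
  le_min (integral_nonneg fun r => psi_nonneg _ _) (sq_nonneg R)

lemma wgt_le (v R : ℝ) (G : Mat m) (h : Vec m) : wgt v R G h ≤ R ^ 2 := min_le_right _ _

lemma continuous_wgt (v R : ℝ) : Continuous fun q : Mat m × Vec m => wgt v R q.1 q.2 :=
  (continuous_avg (φ := fun G h => psi G h) continuous_psi abs_psi_le v).min continuous_const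

/-- The clipped `K₊` contracted with a vector. -/
lemma sq2_app_clip_le (v : ℝ) {R : ℝ} (hR : 0 < R) (G : Mat m) (h : Vec m) (a : Vec m) :
    sq2 (app (clip R (kP v G h)) a) ≤ wgt v R G h * sq1 a := by
  have ha : 0 ≤ sq1 a := sum_nonneg fun i _ => sq_nonneg _
  rw [wgt, min_mul_of_nonneg _ _ ha]
  refine le_min ?_ ?_
  · set c := R / max R (nrm (kP v G h))
    have e : sq2 (app (clip R (kP v G h)) a) = c ^ 2 * sq2 (app (kP v G h) a) := by
      simp only [sq2, mul_sum]
      refine sum_congr rfl fun i _ => sum_congr rfl fun j _ => ?_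
      rw [← mul_pow]
      congr 1
      simp only [app, mul_sum]
      exact sum_congr rfl fun k _ => by
        show a k * (c * kP v G h k i j) = _
        ring
    rw [e]
    refine (mul_le_of_le_one_left (sq2_nonneg _) (pow_le_one₀ (clip_scal hR _).1
      (clip_scal hR _).2)).trans ?_
    rw [kP, ← integral_mul_const]
    refine (sq2_app_avT_le (continuous_cm3_add v G h) (fun _ => abs_cm3_le _ _) a).trans
      (integral_mono_of_nonneg (ae_of_all _ fun r => sq2_nonneg _) ?_
        (ae_of_all _ fun r => sq2_app_cm3_le _ _ a))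
    exact (integrable_gauss_bound (continuous_psi.comp
      (f := fun r : Vec m => (G, h + row v r)) (by fun_prop)) fun r => abs_psi_le _ _).mul_const _
  · refine (sq2_app_le_sq3 _ a).trans (mul_le_mul_of_nonneg_right ?_ ha)
    rw [← nrm_sq, nrm_clip hR]
    exact pow_le_pow_left₀ (le_min hR.le (nrm_nonneg _)) (min_le_left _ _) 2

end Vale.Agent.P150.Weak.Gram
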